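import Vale.Agent.P348.MPSSound

/-! Soundness of the packed computation: reading off the digits. -/

namespace Vale.Agent.P348.MPS

open Matrix

noncomputable section

abbrev PP := Fin 18 × Fin 18

/-- kernel of an operator on matrices -/
def Kn (T : Module.End ℤ Mt) (p q : PP) : ℤ := T (Matrix.single q.1 q.2 1) p.1 p.2

theorem lin (T : Module.End ℤ Mt) (X : Mt) (p : PP) :
    T X p.1 p.2 = ∑ q : PP, X q.1 q.2 * Kn T p q := by
  have e : X = ∑ q : PP, X q.1 q.2 • (Matrix.single q.1 q.2 1 : Mt) := by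
    rw [Fintype.sum_prod_type]
    conv_lhs => rw [Matrix.matrix_eq_sum_single X]
    simp only [Matrix.smul_single, smul_eq_mul, mul_one]
  conv_lhs => rw [e]
  simp only [map_sum, map_smul, Matrix.sum_apply, Matrix.smul_apply, smul_eq_mul, Kn]

def Supp (X : Mt) (s : ℤ) : Prop := ∀ i j : Fin 18, X i j ≠ 0 → (blk i : ℤ) - blk j = s

def Bd (X : Mt) (m : ℤ) : Prop := ∀ i j, |X i j| ≤ m

/-- growth at most `c`, charge shift `t` -/
def Good (T : Module.End ℤ Mt) (c t : ℤ) : Prop :=
  (∀ X m, Bd X m → Bd (T X) (c * m)) ∧ ∀ X s, Supp X s → Supp (T X) (s + t)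

theorem Good.mul {T S : Module.End ℤ Mt} {c t d u : ℤ} (h : Good T c t) (g : Good S d u) :
    Good (T * S) (c * d) (u + t) :=
  ⟨fun X m hX => by rw [mul_assoc]; exact h.1 _ _ (g.1 X m hX),
   fun X s hX => by rw [← add_assoc]; exact h.2 _ _ (g.2 X s hX)⟩

theorem Good.add {T S : Module.End ℤ Mt} {c t d : ℤ} (h : Good T c t) (g : Good S d t) :
    Good (T + S) (c + d) t := by
  refine ⟨fun X m hX i j => ?_, fun X s hX i j hij => ?_⟩
  · rw [LinearMap.add_apply, Matrix.add_apply, add_mul]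
    exact (abs_add_le _ _).trans (add_le_add (h.1 X m hX i j) (g.1 X m hX i j))
  · rw [LinearMap.add_apply, Matrix.add_apply] at hij
    by_cases h1 : T X i j = 0
    · rw [h1, zero_add] at hij
      exact g.2 X s hX i j hij
    · exact h.2 X s hX i j h1

theorem Good.pow {T : Module.End ℤ Mt} {c : ℤ} (h : Good T c 0) (n : ℕ) :
    Good (T ^ n) (c ^ n) 0 := by
  induction n with
  | zero =>
    exact ⟨fun X m hX => by simpa using hX, fun X s hX => by simpa using hX⟩
  | succ n ih =>
    have := ih.mul h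
    rwa [add_zero, ← pow_succ, ← pow_succ] at this

/-- small rows and charge `a` -/
def Ten (B : Mt) (a : ℤ) : Prop :=
  (∀ i, ∑ k, |B i k| ≤ 2048) ∧ ∀ i k : Fin 18, B i k = 0 ∨ (blk k : ℤ) + 1 = blk i + a

theorem good_sw {B C : Mt} {a c t : ℤ} (hB : Ten B a) (hC : Ten C c) (ht : t = c - a) :
    Good (sw B C) (2048 * 2048) t := by
  refine ⟨fun X m hX i j => ?_, fun X s hX i j hij => ?_⟩
  · have hm : 0 ≤ m := (abs_nonneg _).trans (hX 0 0)
    have h1 : ∀ l, |(B * X) i l| ≤ 2048 * m := fun l => by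
      rw [Matrix.mul_apply]
      calc _ ≤ ∑ k, |B i k * X k l| := Finset.abs_sum_le_sum_abs _ _
        _ ≤ ∑ k, |B i k| * m := Finset.sum_le_sum fun k _ => by
            rw [abs_mul]; exact mul_le_mul_of_nonneg_left (hX k l) (abs_nonneg _)
        _ ≤ _ := by rw [← Finset.sum_mul]; exact mul_le_mul_of_nonneg_right (hB.1 i) hm
    rw [sw_apply, Matrix.mul_apply]
    calc _ ≤ ∑ l, |(B * X) i l * Cᵀ l j| := Finset.abs_sum_le_sum_abs _ _
      _ ≤ ∑ l, |C j l| * (2048 * m) := Finset.sum_le_sum fun l _ => by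
          rw [abs_mul, mul_comm, Matrix.transpose_apply]
          exact mul_le_mul_of_nonneg_left (h1 l) (abs_nonneg _)
      _ ≤ _ := by
          rw [← Finset.sum_mul, mul_assoc]
          exact mul_le_mul_of_nonneg_right (hC.1 j) (by positivity)
  · rw [sw_apply, Matrix.mul_apply] at hij
    obtain ⟨l, -, hl⟩ := Finset.exists_ne_zero_of_sum_ne_zero hij
    have h1 := left_ne_zero_of_mul hl
    rw [Matrix.mul_apply] at h1
    obtain ⟨k, -, hk⟩ := Finset.exists_ne_zero_of_sum_ne_zero h1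
    have e1 := (hB.2 i k).resolve_left (left_ne_zero_of_mul hk)
    have e2 := (hC.2 j l).resolve_left (right_ne_zero_of_mul hl)
    have e3 := hX k l (right_ne_zero_of_mul hk)
    omega

theorem ten0 : Ten (mat a0) 0 :=
  ⟨by decide +kernel, by show ∀ i k : Fin 18, (a0.get i).getD k 0 = 0 ∨ _; decide +kernel⟩

theorem ten1 : Ten (mat a1) 1 :=
  ⟨by decide +kernel, by show ∀ i k : Fin 18, (a1.get i).getD k 0 = 0 ∨ _; decide +kernel⟩

theorem ten2 : Ten (mat a2) 2 :=
  ⟨by decide +kernel, by show ∀ i k : Fin 18, (a2.get i).getD k 0 = 0 ∨ _; decide +kernel⟩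


theorem mat_neg (A : VI) : mat (negI A) = -mat A := by
  ext i j
  simp only [mat, negI, Matrix.of_apply, Matrix.neg_apply, get_map]
  exact List.getD_map (f := Int.neg) _ 0

theorem Ten.neg {B : Mt} {a : ℤ} (h : Ten B a) : Ten (-B) a :=
  ⟨fun i => by simpa using h.1 i, fun i k => by simpa using h.2 i k⟩

theorem G_two (p q : VI × VI) : G [p, q] = sw (mat p.1) (mat p.2) + sw (mat q.1) (mat q.2) := by
  simp [G]

theorem G_LE : G LE = sw (mat a0) (mat a0) + sw (mat a1) (mat a1) + sw (mat a2) (mat a2) := by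
  simp [G, LE, add_assoc]

theorem good_E : Good (G LE) (3 * 2 ^ 22) 0 := by
  rw [G_LE]
  exact ((good_sw ten0 ten0 rfl).add (good_sw ten1 ten1 rfl)).add (good_sw ten2 ten2 rfl)

theorem good_R0 : Good R0 (3 * 2 ^ 46) 0 := by
  have hz : Good (G Lz) (2 ^ 23) 0 := by
    rw [Lz, G_two, mat_neg]
    exact (good_sw ten0 ten0 rfl).add (good_sw ten2.neg ten2 rfl)
  have hz' : Good (G Lz') (2 ^ 23) 0 := by
    rw [Lz', G_two, mat_neg]
    exact (good_sw ten0.neg ten0 rfl).add (good_sw ten2 ten2 rfl)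
  have hp : Good (G Lp) (2 ^ 23) 1 := by
    rw [Lp, G_two]
    exact (good_sw ten0 ten1 rfl).add (good_sw ten1 ten2 rfl)
  have hm : Good (G Lm) (2 ^ 23) (-1) := by
    rw [Lm, G_two]
    exact (good_sw ten1 ten0 rfl).add (good_sw ten2 ten1 rfl)
  exact ((hz'.mul hz).add (hp.mul hm)).add (hm.mul hp)

/-- charge preserving and small enough for the slots -/
def Fit (T : Module.End ℤ Mt) : Prop := ∃ c : ℤ, Good T c 0 ∧ c * 1000 < HH

theorem fit_P : Fit TP := ⟨_, good_E.pow 16, by decide +kernel⟩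

theorem fit_R : Fit TR := ⟨_, good_R0.mul (good_E.pow 14), by decide +kernel⟩

theorem BB_eq : BB = 2 * HH := by decide +kernel

theorem MM_eq : MM = BB ^ 71 := by decide +kernel

theorem peel_succ (n x : ℕ) :
    peel (n + 1) x = (((x % BB : ℕ) : ℤ) - HH) :: peel n (x / BB) := by
  show Int.subNatNat (x % BB) HH :: fN (x >>> 392) (peel n) = _
  rw [fN_eq, Int.subNatNat_eq_coe, Nat.shiftRight_eq_div_pow, BB]

theorem length_peel (n x : ℕ) : (peel n x).length = n := by
  induction n generalizing x with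
  | zero => rfl
  | succ n ih => rw [peel_succ, List.length_cons, ih]

theorem off_eq (n : ℕ) : (off n : ℤ) = ∑ r ∈ Finset.range n, (HH : ℤ) * (BB : ℤ) ^ r := by
  induction n with
  | zero => rfl
  | succ n ih =>
    show ((HH + BB * off n : ℕ) : ℤ) = _
    rw [Finset.sum_range_succ', Nat.cast_add, Nat.cast_mul, ih, Finset.mul_sum, pow_zero, mul_one,
      add_comm]
    congr 1
    exact Finset.sum_congr rfl fun r _ => by ring

theorem peel_getD (r : ℕ) : ∀ (S n x : ℕ) (d : ℕ → ℤ), r < n → r < S → (∀ r, |d r| < HH) →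
    (BB : ℤ) ^ S ∣ (x : ℤ) - ∑ k ∈ Finset.range S, (d k + HH) * (BB : ℤ) ^ k →
    (peel n x).getD r 0 = d r := by
  induction r with
  | zero =>
    intro S n x d hn hS hd hx
    obtain ⟨n, rfl⟩ : ∃ m, n = m + 1 := ⟨n - 1, by omega⟩
    obtain ⟨S, rfl⟩ : ∃ m, S = m + 1 := ⟨S - 1, by omega⟩
    obtain ⟨m, hm⟩ := hx
    rw [peel_succ, List.getD_cons_zero, Int.natCast_mod]
    have e : (x : ℤ) = (d 0 + HH) + BB * (∑ k ∈ Finset.range S, (d (k + 1) + HH) * (BB : ℤ) ^ k +
        BB ^ S * m) := by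
      rw [Finset.sum_range_succ', sub_eq_iff_eq_add] at hm
      rw [hm, mul_add, Finset.mul_sum, pow_zero, mul_one, pow_succ]
      have : ∀ k, (BB : ℤ) * ((d (k + 1) + HH) * BB ^ k) = (d (k + 1) + HH) * BB ^ (k + 1) :=
        fun k => by ring
      simp only [this]
      ring
    have h0 := abs_lt.1 (hd 0)
    have hB : (BB : ℤ) = 2 * HH := by rw [BB_eq]; push_cast; rfl
    rw [e, Int.add_mul_emod_self_left, Int.emod_eq_of_lt (by omega) (by omega)]
    ring
  | succ r ih =>
    intro S n x d hn hS hd hx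
    obtain ⟨n, rfl⟩ : ∃ m, n = m + 1 := ⟨n - 1, by omega⟩
    obtain ⟨S, rfl⟩ : ∃ m, S = m + 1 := ⟨S - 1, by omega⟩
    obtain ⟨m, hm⟩ := hx
    rw [peel_succ, List.getD_cons_succ]
    refine ih S n _ (fun k => d (k + 1)) (by omega) (by omega) (fun k => hd _) ⟨m, ?_⟩
    have e : (x : ℤ) = (d 0 + HH) + BB * (∑ k ∈ Finset.range S, (d (k + 1) + HH) * (BB : ℤ) ^ k +
        BB ^ S * m) := by
      rw [Finset.sum_range_succ', sub_eq_iff_eq_add] at hm
      rw [hm, mul_add, Finset.mul_sum, pow_zero, mul_one, pow_succ]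
      have : ∀ k, (BB : ℤ) * ((d (k + 1) + HH) * BB ^ k) = (d (k + 1) + HH) * BB ^ (k + 1) :=
        fun k => by ring
      simp only [this]
      ring
    have h0 := abs_lt.1 (hd 0)
    have hB : (BB : ℤ) = 2 * HH := by rw [BB_eq]; push_cast; rfl
    rw [Int.natCast_div, e, Int.add_mul_ediv_left _ _ (by omega),
      Int.ediv_eq_zero_of_lt (by omega) (by omega)]
    ring

/-- the slots of the start matrix -/
def U (r : ℕ) : Mt := Matrix.of fun i j =>
  if r = 0 then (((18 * i.val + j.val) * 3 + 7 : ℕ) : ℤ) else if r = idx (i, j) + 1 then 1 else 0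

theorem idx_lt : ∀ p : PP, idx p < 70 := by decide +kernel

theorem Y0_eq : Y0 = ∑ r ∈ Finset.range 71, ((BB : ℤ) ^ r) • U r := by
  ext i j
  rw [Matrix.sum_apply, Finset.sum_range_succ', Finset.sum_eq_single (idx (i, j))]
  · simp [U, Y0, add_comm]
  · intro b _ hb
    simp [U, hb]
  · intro h
    exact absurd (Finset.mem_range.2 (idx_lt _)) h

theorem bd_U (r : ℕ) : Bd (U r) 1000 := fun i j => by
  have := i.isLt
  have := j.isLt
  rw [U, Matrix.of_apply]
  split_ifs
  · rw [Nat.abs_cast]; omega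
  · simp
  · simp

theorem digit {T : Module.End ℤ Mt} (hT : Fit T) {Z : VN} (hZ : Rp Z (T Y0)) (p : PP) (n r : ℕ)
    (hn : r < n) (hr : r < 71) :
    (peel n (Nat.add ((Z.get p.1).get p.2) (off 71))).getD r 0 = T (U r) p.1 p.2 := by
  obtain ⟨c, hc, hH⟩ := hT
  refine peel_getD r 71 n _ (fun r => T (U r) p.1 p.2) hn hr
    (fun r => (hc.1 _ _ (bd_U r) _ _).trans_lt hH) ?_
  have h := hZ p.1 p.2
  rw [← Int.cast_natCast, K_eq, MM_eq, Nat.cast_pow, Y0_eq, map_sum, Matrix.sum_apply] at h
  simp only [map_smul, Matrix.smul_apply, smul_eq_mul] at h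
  convert h using 1
  rw [Nat.add_eq, Nat.cast_add, off_eq]
  simp only [add_mul, Finset.sum_add_distrib, mul_comm ((BB : ℤ) ^ _)]
  ring

theorem mem_secL (s : ℕ) (p : PP) : p ∈ secL s ↔ blk p.1 + 5 = blk p.2 + s := by
  obtain ⟨i, j⟩ := p
  simp [secL, allP]

theorem sec_idx : ∀ s < 11, (secL s).map idx = List.range (secL s).length := by decide +kernel

theorem sec_nodup {s : ℕ} (hs : s < 11) : (secL s).Nodup :=
  List.Nodup.of_map idx (by rw [sec_idx s hs]; exact List.nodup_range)

theorem idx_get {s : ℕ} (hs : s < 11) {r : ℕ} (hr : r < (secL s).length) : idx (secL s)[r] = r := by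
  have := List.getElem_of_eq (sec_idx s hs) (i := r) (by simpa using hr)
  simpa using this

theorem Kn_zero {T : Module.End ℤ Mt} (hT : Fit T) {s : ℕ} {p q : PP} (hp : p ∈ secL s)
    (hq : q ∉ secL s) : Kn T p q = 0 := by
  obtain ⟨c, hc, -⟩ := hT
  by_contra h
  have h1 : Supp (Matrix.single q.1 q.2 1) ((blk q.1 : ℤ) - blk q.2) := fun i j hij => by
    rw [Matrix.single_apply] at hij
    split_ifs at hij with e
    · rw [e.1, e.2]
    · exact absurd rfl hij
  have h2 := hc.2 _ _ h1 p.1 p.2 h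
  rw [mem_secL] at hp hq
  omega

theorem digs_eq {T : Module.End ℤ Mt} (hT : Fit T) {Z : VN} (hZ : Rp Z (T Y0)) {s : ℕ}
    (hs : s < 11) : digs Z (secL s) = (secL s).map fun p => (secL s).map (Kn T p) := by
  refine List.map_congr_left fun p hp => List.ext_getElem (by simp [length_peel]) fun r h1 h2 => ?_
  have hr : r < (secL s).length := by simpa using h2
  have h70 := idx_lt (secL s)[r]
  rw [idx_get hs hr] at h70
  rw [List.getElem_tail, List.getElem_map, ← List.getD_eq_getElem _ 0,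
    digit hT hZ p _ _ (by omega) (by omega), lin, Finset.sum_eq_single (secL s)[r]]
  · simp [U, idx_get hs hr]
  · intro q _ hq
    by_cases h : q ∈ secL s
    · obtain ⟨r', hr', rfl⟩ := List.getElem_of_mem h
      have : r ≠ r' := fun e => hq (by subst e; rfl)
      simp [U, idx_get hs hr', this]
    · rw [Kn_zero hT hp h, mul_zero]
  · simp

theorem consCols_map {α β : Type} (z : α) (l : List β) (g : β → List α) (h : β → α) :
    consCols z (l.map g) (l.map h) = l.map fun q => h q :: g q := by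
  induction l with
  | nil => rfl
  | cons a l ih =>
    show (h a :: g a) :: consCols z (l.map g) (l.map h) = _
    rw [ih, List.map_cons]

theorem tr_map {α β γ : Type} (z : α) (X : List γ) (l : List β) (f : γ → β → α) :
    tr z l.length (X.map fun p => l.map (f p)) = l.map fun q => X.map fun p => f p q := by
  induction X with
  | nil =>
    show List.replicate l.length [] = _
    simp
  | cons a X ih =>
    show consCols z (tr z l.length (X.map fun p => l.map (f p))) (l.map (f a)) = _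
    rw [ih, consCols_map]
    rfl

theorem dot_map {β : Type} (l : List β) (f g : β → ℤ) :
    dot (l.map f) (l.map g) = (l.map fun q => f q * g q).sum := by
  induction l with
  | nil => rfl
  | cons a l ih =>
    show f a * g a + dot (l.map f) (l.map g) = _
    rw [ih, List.map_cons, List.sum_cons]

/-- the five numbers attached to a pair -/
def F (p : PP) : List ℤ :=
  [wt p, Kn TP p p, Kn TR p p, ∑ q, Kn TP p q * Kn TP q p, ∑ q, Kn TR p q * Kn TP q p]

theorem sum_sec {T : Module.End ℤ Mt} (hT : Fit T) {s : ℕ} (hs : s < 11) {p : PP}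
    (hp : p ∈ secL s) (g : PP → ℤ) :
    ((secL s).map fun q => Kn T p q * g q).sum = ∑ q, Kn T p q * g q := by
  rw [← List.sum_toFinset _ (sec_nodup hs)]
  refine Finset.sum_subset (Finset.subset_univ _) fun q _ hq => ?_
  rw [Kn_zero hT hp (by simpa using hq), zero_mul]

theorem quads_eq {P R : VN} (hP : Rp P (TP Y0)) (hR : Rp R (TR Y0)) {s : ℕ} (hs : s < 11) :
    quads (secL s) (digs P (secL s)) (digs R (secL s)) = (secL s).map F := by
  rw [digs_eq fit_P hP hs, digs_eq fit_R hR hs, quads, tr_map]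
  refine List.ext_getElem (by simp) fun k h1 h2 => ?_
  have hk : k < (secL s).length := by simpa using h2
  have hm := List.getElem_mem hk
  simp only [List.getElem_map, List.getElem_range, ent, List.getD_eq_getElem?_getD,
    List.getElem?_map, List.getElem?_eq_getElem hk, Option.map_some, Option.getD_some, dot_map,
    sum_sec fit_P hs hm, sum_sec fit_R hs hm, F]

def AL : List PP := (List.range 11).flatMap secL

theorem allQ_eq {P R : VN} (hP : Rp P (TP Y0)) (hR : Rp R (TR Y0)) : allQ P R = AL.map F := by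
  rw [allQ, AL, List.map_flatMap]
  exact List.flatMap_congr fun s hs => quads_eq hP hR (List.mem_range.1 hs)

theorem sum_AL (f : PP → ℤ) : (AL.map f).sum = ∑ p, f p := by
  have h1 : AL.Nodup := by decide +kernel
  have h2 : ∀ p, p ∈ AL := by decide +kernel
  rw [← List.sum_toFinset _ h1, Finset.eq_univ_of_forall (s := AL.toFinset) (by simpa using h2)]

/-- weighted trace -/
def tau (w : PP → ℤ) (T : Module.End ℤ Mt) : ℤ := ∑ p, w p * Kn T p p

theorem Kn_mul (T S : Module.End ℤ Mt) (p : PP) : Kn (T * S) p p = ∑ q, Kn T p q * Kn S q p := by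
  rw [Kn, Module.End.mul_apply, lin]
  exact Finset.sum_congr rfl fun q _ => mul_comm _ _

/-- the conclusion of the kernel run for one trial state -/
def Ok (N p : ℤ) (w : PP → ℤ) (T S : Module.End ℤ Mt) : Prop :=
  0 < tau w T ∧ p * tau w T ≤ 10000 * (N * (tau w T + tau w S))

theorem chk_ok (h : chk = true) :
    Ok 16 384460 (fun _ => 1) TP TR ∧ Ok 16 384147 wt TP TR ∧
      Ok 32 768470 (fun _ => 1) (TP * TP) (TR * TP) ∧ Ok 32 768458 wt (TP * TP) (TR * TP) := by
  obtain ⟨P, R, hP, hR, h⟩ := chk_sound h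
  rw [allQ_eq hP hR] at h
  simp only [fin, ok, sm, smw, List.map_map, Function.comp_def, sum_AL, F, List.getD_cons_succ,
    List.getD_cons_zero, Bool.and_eq_true, decide_eq_true_eq, ← Kn_mul] at h
  simpa only [Ok, tau, one_mul, and_assoc] using h

end

end Vale.Agent.P348.MPS
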