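import Vale.Agent.P348.MPSComp

/-! The kernel run for the matrix product trial states. -/

namespace Vale.Agent.P348.MPS

theorem chk_true : chk = true := by decide +kernel

end Vale.Agent.P348.MPS
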