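import Vale.Agent.P348.Mz
import Vale.Agent.P348.MPSDig
import Vale.Agent.P348.MPSRun

/-! Matrix product trial states. -/

namespace Vale.Agent.P348

namespace MPS

open Matrix

noncomputable section

def AA : Fin 3 → Mt := ![mat a0, mat a1, mat a2]

def Pr {n : ℕ} (s : St n) : Mt := (List.ofFn fun j => AA (s j)).prod

/-- the amplitude with a diagonal twist -/
def psi {n : ℕ} (v : Fin 18 → ℤ) (s : St n) : ℤ := (Pr s * Matrix.diagonal v).trace

theorem Pr_cons {n : ℕ} (a : Fin 3) (s : St n) : Pr (Fin.cons a s : St (n + 1)) = AA a * Pr s := by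
  simp [Pr, List.ofFn_succ]

theorem sw_mul (P Q P' Q' : Mt) : sw (P * P') (Q * Q') = sw P Q * sw P' Q' := by
  refine LinearMap.ext fun X => ?_
  simp only [Module.End.mul_apply, sw_apply, Matrix.transpose_mul, Matrix.mul_assoc]

theorem sum_cons {n : ℕ} {M : Type} [AddCommMonoid M] (f : St (n + 1) → M) :
    ∑ s, f s = ∑ a, ∑ u : St n, f (Fin.cons a u) := by
  rw [← Fintype.sum_prod_type', ← (Fin.consEquiv fun _ : Fin (n + 1) => Fin 3).sum_comp]
  rfl

theorem G_LE' : G LE = ∑ a, sw (AA a) (AA a) := by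
  rw [G_LE, Fin.sum_univ_three]
  rfl

theorem sum_sw (n : ℕ) : ∑ s : St n, sw (Pr s) (Pr s) = G LE ^ n := by
  induction n with
  | zero =>
    rw [Fintype.sum_unique]
    refine LinearMap.ext fun X => ?_
    simp [Pr, sw_apply]
  | succ n ih =>
    rw [sum_cons, pow_succ', ← ih, G_LE', Finset.sum_mul_sum]
    simp only [Pr_cons, sw_mul]

theorem tau_sum {ι : Type} [Fintype ι] (w : PP → ℤ) (T : ι → Module.End ℤ Mt) :
    tau w (∑ i, T i) = ∑ i, tau w (T i) := by
  simp only [tau, Kn, LinearMap.sum_apply, Matrix.sum_apply, Finset.mul_sum]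
  exact Finset.sum_comm

theorem tau_smul (w : PP → ℤ) (c : ℤ) (T : Module.End ℤ Mt) : tau w (c • T) = c * tau w T := by
  simp only [tau, Kn, LinearMap.smul_apply, Matrix.smul_apply, smul_eq_mul, Finset.mul_sum,
    mul_left_comm]

theorem tau_add (w : PP → ℤ) (T S : Module.End ℤ Mt) : tau w (T + S) = tau w T + tau w S := by
  simp only [tau, Kn, LinearMap.add_apply, Matrix.add_apply, mul_add, Finset.sum_add_distrib]

theorem psi_mul {n : ℕ} (v : Fin 18 → ℤ) (s t : St n) :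
    psi v s * psi v t = tau (fun p => v p.1 * v p.2) (sw (Pr s) (Pr t)) := by
  simp only [psi, Matrix.trace, Matrix.diag, Matrix.mul_diagonal, tau, Fintype.sum_prod_type,
    Finset.sum_mul_sum, Kn, sw_apply]
  refine Finset.sum_congr rfl fun i _ => Finset.sum_congr rfl fun j _ => ?_
  rw [Matrix.mul_apply, Finset.sum_eq_single j, Matrix.mul_single_apply_same,
    Matrix.transpose_apply]
  · ring
  · intro l _ hl
    rw [Matrix.mul_single_apply_of_ne (hbj := hl), zero_mul]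
  · simp

theorem norm_eq {n : ℕ} (v : Fin 18 → ℤ) :
    ∑ s : St n, psi v s ^ 2 = tau (fun p => v p.1 * v p.2) (G LE ^ n) := by
  simp only [← sum_sw, tau_sum, sq, psi_mul]

theorem sw_neg (B C : Mt) : sw (-B) C = -sw B C := by
  refine LinearMap.ext fun X => ?_
  simp [sw_apply]

theorem Eh_eq : ∑ a, ∑ b, ∑ c, ∑ d, bz 1 a b c d • (sw (AA a) (AA c) * sw (AA b) (AA d)) =
    G LE * G LE + R0 := by
  simp only [R0, G_LE, Lz, Lz', Lp, Lm, G_two, mat_neg, sw_neg, Fin.sum_univ_three]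
  simp [bz, AA]
  noncomm_ring

theorem upd_cons {n : ℕ} (a b c d : Fin 3) (u : St (n + 1)) :
    upd (Fin.cons a (Fin.cons b u) : St (n + 3)) 0 c d = Fin.cons c (Fin.cons d u) := by
  rw [upd, finRotate_apply, zero_add, Fin.update_cons_zero, ← Fin.succ_zero_eq_one,
    ← Fin.cons_update, Fin.update_cons_zero]

theorem bond_zero {n : ℕ} (σ : ℤ) (v : Fin 18 → ℤ) :
    ∑ s, ∑ t, psi v s * Bz (n + 3) σ 0 s t * psi v t =
      tau (fun p => v p.1 * v p.2) ((G LE * G LE + R0) * G LE ^ (n + 1)) := by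
  have h1 : sgn (n + 3) σ 0 = 1 := by simp [sgn]
  have h2 : ∀ s, ∑ t, psi v s * Bz (n + 3) σ 0 s t * psi v t =
      ∑ c, ∑ d, bz 1 (s 0) (s 1) c d * (psi v s * psi v (upd s 0 c d)) := fun s => by
    have := Bz_mulVec (n + 3) σ 0 (psi v) s
    simp only [Int.cast_id, h1, finRotate_apply, zero_add] at this
    simp only [mul_assoc, ← Finset.mul_sum, this]
    simp only [Finset.mul_sum, mul_left_comm]
  simp only [h2]
  rw [sum_cons, ← Eh_eq, ← sum_sw]
  simp only [sum_cons (n := n + 1), upd_cons, psi_mul, Pr_cons, sw_mul, Fin.cons_zero,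
    Fin.cons_one, Finset.sum_mul, Finset.mul_sum, smul_mul_assoc, mul_assoc, tau_sum, tau_smul]
  conv_rhs => rw [Finset.sum_comm]
  exact Finset.sum_congr rfl fun a _ => Finset.sum_comm

theorem psi_rot {n : ℕ} {σ : ℤ} {v : Fin 18 → ℤ}
    (hv : ∀ a i k, AA a i k * v k = eta σ a * (v i * AA a i k)) (s : St (n + 1)) :
    psi v (rotS s) = eta σ (s 0) * psi v s := by
  have h1 : Pr (rotS s) = Pr (Fin.tail s) * AA (s 0) := by
    simp only [Pr, List.ofFn_succ', rotS, finRotate_last, List.prod_concat]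
    simp only [finRotate_apply, Fin.coeSucc_eq_succ, Fin.tail]
  have h2 : AA (s 0) * Matrix.diagonal v = eta σ (s 0) • (Matrix.diagonal v * AA (s 0)) := by
    ext i k
    simp only [Matrix.mul_diagonal, Matrix.smul_apply, Matrix.diagonal_mul, hv, smul_eq_mul]
  conv_rhs => rw [← Fin.cons_self_tail s, psi, Pr_cons, Fin.cons_zero]
  rw [psi, h1, Matrix.mul_assoc, h2, Matrix.mul_smul, Matrix.trace_smul, smul_eq_mul,
    ← Matrix.mul_assoc, Matrix.trace_mul_comm, Matrix.mul_assoc]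

theorem energy {n : ℕ} {σ : ℤ} (hσ : σ = 1 ∨ σ = -1) {v : Fin 18 → ℤ}
    (hv : ∀ a i k, AA a i k * v k = eta σ a * (v i * AA a i k)) :
    ∑ s, ∑ t, psi v s * Mz (n + 3) σ s t * psi v t =
      (n + 3 : ℕ) * tau (fun p => v p.1 * v p.2) ((G LE * G LE + R0) * G LE ^ (n + 1)) := by
  set b : Fin (n + 3) → ℤ := fun j => ∑ s, ∑ t, psi v s * Bz (n + 3) σ j s t * psi v t with hb
  let e : St (n + 3) ≃ St (n + 3) := (Equiv.arrowCongr (finRotate (n + 3)) (Equiv.refl _)).symm
  have he : ∀ u, e u = rotS u := fun u => rfl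
  have h1 : ∀ j, b j = b (finRotate _ j) := fun j => by
    simp only [hb]
    rw [← e.sum_comp]
    refine Finset.sum_congr rfl fun s _ => ?_
    rw [← e.sum_comp]
    refine Finset.sum_congr rfl fun t _ => ?_
    rw [he, he, psi_rot hv, psi_rot hv, Bz_rot hσ]
    have e1 := eta_sq hσ (s 0)
    have e2 := eta_sq hσ (t 0)
    linear_combination (psi v s * Bz (n + 3) σ (finRotate _ j) s t * psi v t) *
      (eta σ (t 0) * eta σ (t 0) * e1 + e2)
  have h2 : ∀ j, b j = b 0 := fun j => by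
    induction j using Fin.induction with
    | zero => rfl
    | succ i ih => rw [← ih, h1 i.castSucc, finRotate_apply, Fin.coeSucc_eq_succ]
  calc _ = ∑ j, b j := by
        simp only [Mz, Matrix.sum_apply, Finset.mul_sum, Finset.sum_mul, hb]
        conv_rhs => rw [Finset.sum_comm]
        exact Finset.sum_congr rfl fun s _ => Finset.sum_comm
    _ = _ := by
        simp only [h2]
        rw [Finset.sum_const, Finset.card_univ, Fintype.card_fin, nsmul_eq_mul, hb]
        simp only [bond_zero]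

def vd (i : Fin 18) : ℤ := vdiag.getD i 0

theorem hv_neg : ∀ a i k, AA a i k * vd k = eta (-1) a * (vd i * AA a i k) := by
  intro a
  fin_cases a
  · show ∀ i k : Fin 18, (a0.get i).getD k 0 * vd k = -1 * (vd i * (a0.get i).getD k 0)
    decide +kernel
  · show ∀ i k : Fin 18, (a1.get i).getD k 0 * vd k = 1 * (vd i * (a1.get i).getD k 0)
    decide +kernel
  · show ∀ i k : Fin 18, (a2.get i).getD k 0 * vd k = -1 * (vd i * (a2.get i).getD k 0)
    decide +kernel

theorem trial {n : ℕ} {σ p : ℤ} (hσ : σ = 1 ∨ σ = -1) {v : Fin 18 → ℤ}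
    (hv : ∀ a i k, AA a i k * v k = eta σ a * (v i * AA a i k))
    (h : Ok (n + 3 : ℕ) p (fun q => v q.1 * v q.2) (G LE ^ (n + 3)) (R0 * G LE ^ (n + 1))) :
    ∃ ψ : St (n + 3) → ℤ, 0 < ∑ s, ψ s ^ 2 ∧
      p * ∑ s, ψ s ^ 2 ≤ 10000 * ∑ s, ∑ t, ψ s * Mz (n + 3) σ s t * ψ t := by
  refine ⟨psi v, ?_⟩
  rw [norm_eq, energy hσ hv, add_mul, tau_add, ← sq, ← pow_add, show 2 + (n + 1) = n + 3 by ring]
  exact h

end

end MPS

open MPS in
/-- trial vectors for rings of 16 and 32 sites, both boundary signs -/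
theorem mps_trial (N : ℕ) (σ p : ℤ)
    (h : (N, σ, p) = (16, 1, 384460) ∨ (N, σ, p) = (16, -1, 384147) ∨
      (N, σ, p) = (32, 1, 768470) ∨ (N, σ, p) = (32, -1, 768458)) :
    ∃ ψ : St N → ℤ, 0 < ∑ s, ψ s ^ 2 ∧
      p * ∑ s, ψ s ^ 2 ≤ 10000 * ∑ s, ∑ t, ψ s * Mz N σ s t * ψ t := by
  obtain ⟨h1, h2, h3, h4⟩ := chk_ok chk_true
  have hv : ∀ a i k, AA a i k * (fun _ => 1) k = eta 1 a * ((fun _ => (1 : ℤ)) i * AA a i k) :=
    fun a i k => by simp [eta]
  have e1 : TP * TP = G LE ^ (29 + 3) := by rw [TP, ← pow_add]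
  have e2 : TR * TP = R0 * G LE ^ (29 + 1) := by rw [TP, TR, mul_assoc, ← pow_add]
  rw [e1, e2] at h3 h4
  simp only [Prod.mk.injEq] at h
  rcases h with ⟨rfl, rfl, rfl⟩ | ⟨rfl, rfl, rfl⟩ | ⟨rfl, rfl, rfl⟩ | ⟨rfl, rfl, rfl⟩
  · exact trial (n := 13) (Or.inl rfl) hv h1
  · exact trial (n := 13) (Or.inr rfl) hv_neg h2
  · exact trial (n := 29) (Or.inl rfl) hv h3
  · exact trial (n := 29) (Or.inr rfl) hv_neg h4

end Vale.Agent.P348
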