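import Vale.Agent.P348.Mom

/-! The time channel: sector traces of the heat kernel. -/

namespace Vale.Agent.P348

open Matrix

theorem sg_eq_chi (g : Fin 4) (a : Fin 3) : sg g a = chi a.succ g := by
  unfold sg chi
  simp [eq_comm]

theorem chi_mul (y z : Fin 4) : ∃ w, ∀ g, chi y g * chi z g = chi w g := by
  fin_cases y <;> fin_cases z <;>
    first
      | (refine ⟨0, fun g => ?_⟩; fin_cases g <;> simp [chi]; done)
      | (refine ⟨1, fun g => ?_⟩; fin_cases g <;> simp [chi]; done)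
      | (refine ⟨2, fun g => ?_⟩; fin_cases g <;> simp [chi]; done)
      | (refine ⟨3, fun g => ?_⟩; fin_cases g <;> simp [chi]; done)

theorem chi_orth (x y : Fin 4) : (1 / 4 : ℝ) * ∑ g, chi x g * chi y g = if x = y then 1 else 0 := by
  fin_cases x <;> fin_cases y <;> simp [chi, Fin.sum_univ_four] <;> norm_num

theorem exists_charge {L : ℕ} (s : St L) : ∃ y, ∀ g, ∏ j, sg g (s j) = chi y g := by
  have : ∀ F : Finset (Fin L), ∃ y, ∀ g, ∏ j ∈ F, sg g (s j) = chi y g := by
    intro F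
    induction F using Finset.induction_on with
    | empty => exact ⟨0, fun g => by simp [chi]⟩
    | insert j F hj ih =>
      obtain ⟨y, hy⟩ := ih
      obtain ⟨w, hw⟩ := chi_mul (s j).succ y
      exact ⟨w, fun g => by rw [Finset.prod_insert hj, hy, sg_eq_chi, hw]⟩
  exact this _

theorem tens_diagonal {L : ℕ} (d : Fin 3 → ℂ) :
    tens (fun _ : Fin L => diagonal d) = diagonal (fun s => ∏ j, d (s j)) := by
  ext s t
  simp only [tens, Matrix.of_apply, diagonal_apply]
  by_cases h : s = t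
  · simp [h]
  · obtain ⟨j, hj⟩ := Function.ne_iff.mp h
    rw [if_neg h]
    exact Finset.prod_eq_zero (Finset.mem_univ j) (if_neg hj)

theorem rot_cart_sq (g : Fin 4) : rot cart g * rot cart g = 1 := by
  rw [rot_cart, diagonal_mul_diagonal, ← diagonal_one]
  congr 1
  funext a
  unfold sg
  split_ifs <;> simp

theorem rot_cart_conj (g : Fin 4) (a : Fin 3) :
    rot cart g * cart a * rot cart g = cart a ∨ rot cart g * cart a * rot cart g = -cart a := by
  rw [rot_cart]
  fin_cases g <;> fin_cases a <;>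
    first
      | (left; ext b c; fin_cases b <;> fin_cases c <;> simp [cart, eps, sg]; done)
      | (right; ext b c; fin_cases b <;> fin_cases c <;> simp [cart, eps, sg]; done)

theorem rot_commute (L : ℕ) (g h : Fin 4) :
    Commute (tens (fun _ : Fin L => rot cart g)) (hamT cart L h) := by
  have e : hamT (fun a => rot cart g * cart a * rot cart g) L h = hamT cart L h := by
    unfold hamT
    refine Finset.sum_congr rfl fun j _ => Finset.sum_congr rfl fun a _ => ?_
    rcases rot_cart_conj g a with e | e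
    · simp only [e]
    · simp only [e, site_neg, neg_mul_neg]
  rw [hamT_conj cart (rot_cart_sq g)] at e
  have e1 := tens_inv (rot_cart_sq g) L
  unfold Commute SemiconjBy
  conv_rhs => rw [← e, Matrix.mul_assoc, e1, Matrix.mul_one]

/-- the projection on the sector `x` -/
noncomputable def secP (L : ℕ) (x : Fin 4) : Op L :=
  (1 / 4 : ℂ) • ∑ g, ((chi x g : ℝ) : ℂ) • tens (fun _ : Fin L => rot cart g)

theorem secP_eq (L : ℕ) : ∃ y : St L → Fin 4, ∀ x,
    secP L x = diagonal (fun s => if x = y s then 1 else 0) := by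
  choose y hy using fun s : St L => exists_charge s
  refine ⟨y, fun x => ?_⟩
  ext s t
  simp only [secP, rot_cart, tens_diagonal, Matrix.smul_apply, Matrix.sum_apply, diagonal_apply,
    smul_eq_mul, ← Complex.ofReal_prod, hy]
  by_cases h : s = t
  · simp only [if_pos h]
    have := congrArg (fun r : ℝ => (r : ℂ)) (chi_orth x (y s))
    push_cast at this
    rw [this]
    split_ifs <;> simp
  · simp [h]

theorem secP_commute (L : ℕ) (x h : Fin 4) : Commute (secP L x) (hamT cart L h) :=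
  (Commute.sum_left _ _ _ fun g _ => (rot_commute L g h).smul_left _).smul_left _

section Herm

variable {n : Type} [Fintype n] [DecidableEq n] {H : Matrix n n ℂ}

theorem exp_spec (U : Matrix n n ℂ) (hU : U * Uᴴ = 1) (d : n → ℝ) (β : ℝ) :
    NormedSpace.exp ((-(β : ℂ)) • (U * diagonal (fun i => ((d i : ℝ) : ℂ)) * Uᴴ)) =
      U * diagonal (fun i => ((Real.exp (-(β * d i)) : ℝ) : ℂ)) * Uᴴ := by
  rw [← Matrix.smul_mul, ← Matrix.mul_smul, exp_conj_of hU, ← diagonal_smul, exp_diagonal]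
  congr 3
  funext i
  rw [Pi.coe_exp, ← Complex.exp_eq_exp_ℂ]
  simp

theorem evals_exp (hH : H.IsHermitian) (β : ℝ) :
    evals (NormedSpace.exp ((-(β : ℂ)) • H)) =
      Set.range fun i => Real.exp (-(β * hH.eigenvalues i)) := by
  obtain ⟨U, hU, e⟩ := spec_of_herm hH
  conv_lhs => rw [e]
  rw [exp_spec U hU, evals_conj _ hU, evals_diagonal]

theorem exp_mulVec (hH : H.IsHermitian) (β E : ℝ) (v : n → ℂ) (hv : H *ᵥ v = (E : ℂ) • v) :
    NormedSpace.exp ((-(β : ℂ)) • H) *ᵥ v = ((Real.exp (-(β * E)) : ℝ) : ℂ) • v := by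
  obtain ⟨U, hU, e⟩ := spec_of_herm hH
  have hU' := mul_eq_one_comm.mp hU
  generalize hH.eigenvalues = d at e
  subst e
  have h1 := congrArg (fun w => Uᴴ *ᵥ w) hv
  simp only [mulVec_mulVec, mulVec_smul, ← Matrix.mul_assoc, hU', Matrix.one_mul] at h1
  rw [← mulVec_mulVec] at h1
  have h2 : diagonal (fun i => ((Real.exp (-(β * d i)) : ℝ) : ℂ)) *ᵥ (Uᴴ *ᵥ v) =
      ((Real.exp (-(β * E)) : ℝ) : ℂ) • (Uᴴ *ᵥ v) := by
    funext i
    have := congrFun h1 i
    simp only [mulVec_diagonal, Pi.smul_apply, smul_eq_mul] at this ⊢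
    rcases mul_eq_mul_right_iff.mp this with h | h
    · rw [Complex.ofReal_injective h]
    · rw [h, mul_zero, mul_zero]
  rw [exp_spec U hU, ← mulVec_mulVec, ← mulVec_mulVec, h2, mulVec_smul, mulVec_mulVec, hU,
    one_mulVec]

theorem trace_pow_herm (hH : H.IsHermitian) (k : ℕ) :
    (trace (H ^ k)).re = ∑ i, hH.eigenvalues i ^ k := by
  obtain ⟨U, hU, e⟩ := spec_of_herm hH
  have hU' := mul_eq_one_comm.mp hU
  generalize hH.eigenvalues = d at e
  subst e
  have : (U * diagonal (fun i => ((d i : ℝ) : ℂ)) * Uᴴ) ^ k =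
      U * diagonal (fun i => ((d i : ℝ) : ℂ)) ^ k * Uᴴ :=
    Units.conj_pow (⟨U, Uᴴ, hU, hU'⟩ : (Matrix n n ℂ)ˣ) _ k
  rw [this, trace_mul_cycle, hU', Matrix.one_mul, diagonal_pow, trace_diagonal, Complex.re_sum]
  refine Finset.sum_congr rfl fun i _ => ?_
  rw [Pi.pow_apply, ← Complex.ofReal_pow, Complex.ofReal_re]

end Herm

theorem sector_trace (L : ℕ) (x h : Fin 4) (β : ℝ) :
    (1 / 4) * ∑ g, chi x g * Zf cart L β g h =
      (trace (secP L x * NormedSpace.exp ((-(β : ℂ)) • hamT cart L h))).re := by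
  have : (1 / 4 : ℂ) = ((1 / 4 : ℝ) : ℂ) := by push_cast; rfl
  simp only [secP, Zf, Matrix.smul_mul, Finset.sum_mul, trace_smul, trace_sum, smul_eq_mul, this,
    Complex.re_ofReal_mul, Complex.re_sum]

theorem time_channel (L : ℕ) (hL : 2 ≤ L) (h : Fin 4) (β : ℝ) (hβ : 0 < β) :
    ∃ t : Fin 4 → ℝ,
      (∀ x, Mom (fun k => (1 / 4) * ∑ g, chi x g * Zf cart L (k * β) g h) (t x)) ∧
      (∀ x, t x ≤ Real.exp (-(β * E0 (hamT cart L h)))) ∧
      ∀ E ∈ evals (hamT cart L h), ∃ x, Real.exp (-(β * E)) ≤ t x ∧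
        (Real.exp (-(β * E)) ≠ t x → ∀ k : ℕ, 1 ≤ k → Real.exp (-(β * E)) ^ k ≤
          (1 / 4) * ∑ g, chi x g * Zf cart L (k * β) g h - t x ^ k) := by
  have hH := hamT_isHermitian cart_isHermitian hL h
  obtain ⟨y, hy⟩ := secP_eq L
  set H := hamT cart L h with hHd
  set X := NormedSpace.exp ((-(β : ℂ)) • H) with hX
  have hXh : X.IsHermitian := by
    refine Matrix.IsHermitian.exp ?_
    unfold Matrix.IsHermitian
    rw [conjTranspose_smul, hH.eq]
    simp
  have hc : ∀ x, Commute (secP L x) X := fun x =>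
    ((secP_commute L x h).smul_right _).exp_right
  have hPP : ∀ x, secP L x * secP L x = secP L x := by
    intro x
    rw [hy, diagonal_mul_diagonal]
    congr 1
    funext s
    split_ifs <;> simp
  have hK : ∀ x, (secP L x * X).IsHermitian := by
    intro x
    unfold Matrix.IsHermitian
    rw [conjTranspose_mul, hXh.eq, (hc x).eq, hy, diagonal_conjTranspose]
    congr 2
    funext s
    simp
  have htr : ∀ x (k : ℕ), 1 ≤ k → (1 / 4) * ∑ g, chi x g * Zf cart L (k * β) g h =
      ∑ i, (hK x).eigenvalues i ^ k := by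
    intro x k hk
    obtain ⟨k, rfl⟩ : ∃ m, k = m + 1 := ⟨k - 1, by omega⟩
    rw [sector_trace, ← trace_pow_herm, (hc x).mul_pow,
      IsIdempotentElem.pow_succ_eq k (hPP x), hX, ← Matrix.exp_nsmul, ← Nat.cast_smul_eq_nsmul ℂ,
      smul_smul]
    push_cast
    rw [mul_neg]
  have hev : ∀ x i, (hK x).eigenvalues i = 0 ∨
      ∃ j, Real.exp (-(β * hH.eigenvalues j)) = (hK x).eigenvalues i := by
    intro x i
    have hm : (hK x).eigenvalues i ∈ evals (secP L x * X) := by
      rw [evals_finite (hK x)]; exact ⟨i, rfl⟩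
    generalize (hK x).eigenvalues i = m at hm
    obtain ⟨w, hw, e⟩ := hm
    by_cases h0 : m = 0
    · exact Or.inl h0
    · right
      have h1 := congrArg (fun u => secP L x *ᵥ u) e
      simp only [mulVec_mulVec, ← Matrix.mul_assoc, hPP, mulVec_smul] at h1
      rw [e] at h1
      have h2 : secP L x *ᵥ w = w :=
        (smul_right_injective _ (Complex.ofReal_ne_zero.mpr h0) h1).symm
      rw [(hc x).eq, ← mulVec_mulVec, h2] at e
      have : m ∈ evals X := ⟨w, hw, e⟩
      rwa [hX, evals_exp hH] at this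
  have h0 : ∀ x i, 0 ≤ (hK x).eigenvalues i := by
    intro x i
    rcases hev x i with e | ⟨j, e⟩
    · exact e.ge
    · exact e ▸ (Real.exp_pos _).le
  have hmax : ∀ x, ∃ i0, ∀ i, (hK x).eigenvalues i ≤ (hK x).eigenvalues i0 := fun x => by
    obtain ⟨i, -, hi⟩ := Finset.exists_max_image Finset.univ (hK x).eigenvalues
      ⟨fun _ => 0, Finset.mem_univ _⟩
    exact ⟨i, fun j => hi j (Finset.mem_univ j)⟩
  choose i0 hi0 using hmax
  refine ⟨fun x => (hK x).eigenvalues (i0 x), fun x => ?_, fun x => ?_, fun E hE => ?_⟩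
  · exact (mom_of_family _ (h0 x) (i0 x) (hi0 x)).1.congr (htr x)
  · rcases hev x (i0 x) with e | ⟨j, e⟩
    · exact e.le.trans (Real.exp_pos _).le
    · refine e.ge.trans (Real.exp_le_exp.mpr (neg_le_neg (mul_le_mul_of_nonneg_left ?_ hβ.le)))
      exact E0_le hH (by rw [evals_finite hH]; exact ⟨j, rfl⟩)
  · obtain ⟨v, hv, e⟩ := hE
    obtain ⟨s, hs⟩ := Function.ne_iff.mp hv
    have hw : secP L (y s) *ᵥ v ≠ 0 := fun h1 => hs (by
      have := congrFun h1 s
      rwa [hy, mulVec_diagonal, if_pos rfl, one_mul] at this)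
    have h1 : H *ᵥ (secP L (y s) *ᵥ v) = (E : ℂ) • (secP L (y s) *ᵥ v) := by
      rw [mulVec_mulVec, ← (secP_commute L (y s) h).eq, ← mulVec_mulVec, e, mulVec_smul]
    have h2 : Real.exp (-(β * E)) ∈ evals (secP L (y s) * X) := by
      refine ⟨_, hw, ?_⟩
      rw [← mulVec_mulVec, hX, exp_mulVec hH β E _ h1, mulVec_smul, mulVec_mulVec, hPP]
    rw [evals_finite (hK (y s))] at h2
    obtain ⟨i, hi⟩ := h2
    refine ⟨y s, hi ▸ hi0 _ i, fun hne k hk => ?_⟩
    rw [htr _ k hk, ← hi]
    exact (mom_of_family _ (h0 _) (i0 _) (hi0 _)).2 i (hi ▸ hne) k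

end Vale.Agent.P348
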