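import Vale.Agent.P348.SecData
import Vale.Agent.P348.Time
import Vale.Agent.P348.MPS

/-! The torus of the spin-one ring and its base data. -/

namespace Vale.Agent.P348

/-- normalised Boltzmann weight of an energy on a ring of `L` sites -/
noncomputable def bw (L : ℕ) (E : ℝ) : ℝ := Real.exp (-(7 * (E + 14015 / 10000 * L)))

theorem bw_eq (L : ℕ) (E : ℝ) :
    bw L E = Real.exp (-(7 * (14015 / 10000))) ^ L * Real.exp (-(7 * E)) := by
  rw [bw, ← Real.exp_nat_mul, ← Real.exp_add]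
  congr 1
  ring

/-- the time-channel data -/
def TimeData (L : ℕ) (h : Fin 4) (t : Fin 4 → ℝ) : Prop :=
  (∀ x, Mom (fun k => (1 / 4) * ∑ g, chi x g * Wn g h L k) (t x)) ∧
  (∀ x, t x ≤ bw L (E0 (hamT cart L h))) ∧
  ∀ E ∈ evals (hamT cart L h), ∃ x, bw L E ≤ t x ∧ (bw L E ≠ t x → ∀ k : ℕ, 1 ≤ k →
    bw L E ^ k ≤ (1 / 4) * ∑ g, chi x g * Wn g h L k - t x ^ k)

theorem time_data {L : ℕ} (hL : 2 ≤ L) (h : Fin 4) : ∃ t, TimeData L h t := by
  obtain ⟨t, h1, h2, h3⟩ := time_channel L hL h 7 (by norm_num)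
  set c := Real.exp (-(7 * (14015 / 10000))) ^ L with hc
  have hc0 : 0 < c := by positivity
  have key : ∀ x k, (1 / 4) * ∑ g, chi x g * Wn g h L k =
      c ^ k * ((1 / 4) * ∑ g, chi (kmul x h) g * Zf cart L (k * 7) g h) := by
    intro x k
    simp only [Wn, ← chi_kmul, Finset.mul_sum, hc, ← pow_mul, chi_swap h, mul_comm L k]
    exact Finset.sum_congr rfl fun g _ => by ring
  refine ⟨fun x => c * t (kmul x h), fun x => ?_, fun x => ?_, fun E hE => ?_⟩
  · exact ((h1 (kmul x h)).scale hc0.le).congr fun k _ => key x k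
  · rw [bw_eq]
    exact mul_le_mul_of_nonneg_left (h2 _) hc0.le
  · obtain ⟨x, p1, p2⟩ := h3 E hE
    refine ⟨kmul x h, ?_, fun hne k hk => ?_⟩
    · simp only [kmul_kmul, bw_eq]
      exact mul_le_mul_of_nonneg_left p1 hc0.le
    · simp only [kmul_kmul, bw_eq, key, ← hc] at hne ⊢
      have := mul_le_mul_of_nonneg_left (p2 (fun e => hne (by rw [e])) k hk) (pow_pos hc0 k).le
      simp only [mul_pow]
      linarith

theorem space_data (g x : Fin 4) {k : ℕ} (hk : 1 ≤ k) :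
    ∃ T, Mom (fun l => (1 / 4) * ∑ h, chi x h * Wn g h (2 * l) k) T ∧
      (k = 1 ∧ x = 0 → (1 / 4) * ∑ h, chi x h * Wn g h 16 k ≤ 10105 / 10000 * T ^ 8) := by
  by_cases hg : g = 0
  · refine fam_mom (fam_W g x hk) (k = 1 ∧ x = 0) (lo := lo_b1) (hi := hi_b1) (by norm_num) ?_
      fun _ _ X h => (filt_b1 X h).2
    rintro ⟨rfl, rfl⟩
    simp only [space_sec, hg, if_true]
    exact in_b1
  · refine fam_mom (fam_W g x hk) (k = 1 ∧ x = 0) (lo := lo_bc) (hi := hi_bc) (by norm_num) ?_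
      fun _ _ X h => (filt_bc X h).2
    rintro ⟨rfl, rfl⟩
    simp only [space_sec, hg, if_true, if_false]
    exact in_bc

theorem ex_torus : ∃ T : Torus, (T.W = fun g h l k => Wn g h (2 * l) k) ∧
    (∀ h l, 1 ≤ l → TimeData (2 * l) h (fun x => T.e h x l)) ∧
    ∀ g, T.B g 0 8 1 ≤ 10105 / 10000 * T.s g 0 1 ^ 8 := by
  have h1 : ∀ h l, ∃ t, 1 ≤ l → TimeData (2 * l) h t := fun h l => by
    by_cases hl : 1 ≤ l
    · obtain ⟨t, ht⟩ := time_data (L := 2 * l) (by omega) h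
      exact ⟨t, fun _ => ht⟩
    · exact ⟨0, fun h => absurd h hl⟩
  have h2 : ∀ g x k, ∃ T, 1 ≤ k → Mom (fun l => (1 / 4) * ∑ h, chi x h * Wn g h (2 * l) k) T ∧
      (k = 1 ∧ x = 0 → (1 / 4) * ∑ h, chi x h * Wn g h 16 k ≤ 10105 / 10000 * T ^ 8) :=
    fun g x k => by
      by_cases hk : 1 ≤ k
      · obtain ⟨t, ht⟩ := space_data g x hk
        exact ⟨t, fun _ => ht⟩
      · exact ⟨0, fun h => absurd h hk⟩
  choose e he using h1
  choose s hs using h2
  exact ⟨⟨fun g h l k => Wn g h (2 * l) k, fun h x l => e h l x, s, fun h x l hl => (he h l hl).1 x,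
    fun g x k hk => (hs g x k hk).1⟩, rfl, he, fun g => (hs g 0 1 le_rfl).2 ⟨rfl, rfl⟩⟩

theorem SS_base (T : Torus) (hW : T.W = fun g h l k => Wn g h (2 * l) k)
    (hs : ∀ g, T.B g 0 8 1 ≤ 10105 / 10000 * T.s g 0 1 ^ 8) :
    T.SS 8 1 (11 / 1000) (95 / 1000) := by
  intro g
  have h0 := pow_nonneg (T.hs g 0 1 le_rfl).t0 8
  have h1 := hs g
  refine ⟨by linarith, fun x hx => ?_⟩
  simp only [Torus.B, hW, space_sec, if_true, hx, if_false, Nat.reduceMul] at h1 ⊢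
  obtain ⟨-, a1, -⟩ := bd_b1
  obtain ⟨-, a2, -⟩ := bd_bc
  obtain ⟨a3, -⟩ := bd_x1
  obtain ⟨a4, -⟩ := bd_xz
  obtain ⟨a5, -⟩ := bd_xx
  push_cast at a1 a2 a3 a4 a5
  split_ifs at h1 ⊢ <;> linarith

theorem TS_of (T : Torus) {l : ℕ} (hl : 1 ≤ l) {a y : ℝ} (ha : 0 ≤ a) (hy : 0 ≤ y) (hy1 : y < 1)
    (lb : Fin 4 → ℝ) (hpos : ∀ h, 0 < lb h)
    (hA : ∀ h, T.A h 0 l 1 ≤ (1 + a) * lb h ∧ ∀ x, x ≠ 0 → T.A h x l 1 ≤ y * lb h)
    (hx : ∀ h, ∃ x, lb h ≤ T.e h x l) : T.TS l 1 a y := by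
  intro h
  obtain ⟨x, hx⟩ := hx h
  have h0 : lb h ≤ T.e h 0 l := by
    by_cases e : x = 0
    · rwa [e] at hx
    · have h1 := (T.he h x l hl).le 1 le_rfl
      have h2 := (hA h).2 x e
      simp only [pow_one, Torus.A] at h1 h2
      nlinarith [hpos h]
  simp only [pow_one]
  refine ⟨(hA h).1.trans (mul_le_mul_of_nonneg_left h0 (by linarith)), fun x hx => ?_⟩
  exact ((hA h).2 x hx).trans (mul_le_mul_of_nonneg_left h0 hy)

theorem trial {N : ℕ} (hN : 3 ≤ N) (he : Even N) {p q : ℤ}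
    (hp : (N, (1 : ℤ), p) = (16, 1, 384460) ∨ (N, (1 : ℤ), p) = (16, -1, 384147) ∨
      (N, (1 : ℤ), p) = (32, 1, 768470) ∨ (N, (1 : ℤ), p) = (32, -1, 768458))
    (hq : (N, (-1 : ℤ), q) = (16, 1, 384460) ∨ (N, (-1 : ℤ), q) = (16, -1, 384147) ∨
      (N, (-1 : ℤ), q) = (32, 1, 768470) ∨ (N, (-1 : ℤ), q) = (32, -1, 768458)) (h : Fin 4) :
    ∃ E ∈ evals (hamT cart N h), E ≤ N - (if h = 0 then (p : ℝ) else q) / 10000 := by
  have s0 : sig N 0 = 1 := by simp [sig, he.neg_one_pow]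
  have s3 : sig N 3 = -1 := by simp [sig, he.neg_one_pow]
  by_cases h0 : h = 0
  · obtain ⟨ψ, a, b⟩ := mps_trial N 1 p hp
    rw [← s0] at b
    obtain ⟨c, d⟩ := E0_le_of_int hN (Or.inl rfl) ψ p 10000 (by norm_num) a b
    subst h0
    exact ⟨_, c, by simpa using d⟩
  · obtain ⟨ψ, a, b⟩ := mps_trial N (-1) q hq
    rw [← s3] at b
    obtain ⟨c, d⟩ := E0_le_of_int hN (Or.inr rfl) ψ q 10000 (by norm_num) a b
    have e := evals_cart_perm (Equiv.swap 3 h)
      (Equiv.swap_apply_of_ne_of_ne (by decide) (Ne.symm h0)) N 3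
    rw [Equiv.swap_apply_left] at e
    exact ⟨_, e ▸ c, by simpa [h0] using d⟩

theorem exp_lb {x c : ℝ} (h0 : -16 ≤ x) (h : c ≤ (1 + x / 16) ^ 16) : c ≤ Real.exp x := by
  refine h.trans ?_
  have : Real.exp x = Real.exp (x / 16) ^ 16 := by
    rw [← Real.exp_nat_mul]
    congr 1
    push_cast
    ring
  rw [this]
  exact pow_le_pow_left₀ (by linarith) (by linarith [Real.add_one_le_exp (x / 16)]) 16

theorem e_lb (T : Torus) {l : ℕ} {h : Fin 4} (ht : TimeData (2 * l) h (fun x => T.e h x l))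
    {r c : ℝ} (hE : ∃ E ∈ evals (hamT cart (2 * l) h), E ≤ r) (hc : c ≤ bw (2 * l) r) :
    ∃ x, c ≤ T.e h x l := by
  obtain ⟨E, hE, hr⟩ := hE
  obtain ⟨x, hx, -⟩ := ht.2.2 E hE
  refine ⟨x, hc.trans (le_trans ?_ hx)⟩
  exact Real.exp_le_exp.2 (by linarith)

theorem TS16 (T : Torus) (hW : T.W = fun g h l k => Wn g h (2 * l) k)
    (ht : ∀ h l, 1 ≤ l → TimeData (2 * l) h (fun x => T.e h x l)) :
    T.TS 8 1 (51 / 1000) (93 / 1000) := by
  refine TS_of T (by norm_num) (by norm_num) (by norm_num) (by norm_num)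
    (fun h => if h = 0 then 11655 / 10000 else 9368 / 10000)
    (fun h => by split_ifs <;> norm_num) (fun h => ?_) (fun h => ?_)
  · obtain ⟨a1, b1, -⟩ := bd_b1
    obtain ⟨a2, b2, -⟩ := bd_bc
    obtain ⟨a3, b3, -⟩ := bd_x1
    obtain ⟨a4, b4, -⟩ := bd_xz
    obtain ⟨a5, b5, -⟩ := bd_xx
    push_cast at a1 a2 a3 a4 a5 b1 b2 b3 b4 b5
    simp only [Torus.A, hW, time_sec, if_true, Nat.reduceMul]
    refine ⟨?_, fun x hx => ?_⟩
    · split_ifs <;> linarith
    · simp only [hx, if_false]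
      split_ifs <;> linarith
  · refine e_lb T (ht h 8 (by norm_num)) (trial (N := 16) (p := 384460) (q := 384147) (by norm_num)
      (by decide) (by simp) (by simp) h) ?_
    unfold bw
    split_ifs <;> exact exp_lb (by norm_num) (by norm_num)

theorem TS32 (T : Torus) (hW : T.W = fun g h l k => Wn g h (2 * l) k)
    (ht : ∀ h l, 1 ≤ l → TimeData (2 * l) h (fun x => T.e h x l)) :
    T.TS 16 1 (52 / 1000) (122 / 1000) := by
  refine TS_of T (by norm_num) (by norm_num) (by norm_num) (by norm_num)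
    (fun h => if h = 0 then 9930 / 10000 else 9847 / 10000)
    (fun h => by split_ifs <;> norm_num) (fun h => ?_) (fun h => ?_)
  · obtain ⟨-, -, a1, b1⟩ := bd_b1
    obtain ⟨-, -, a2, b2⟩ := bd_bc
    obtain ⟨-, -, a3, b3⟩ := bd_x1
    obtain ⟨-, -, a4, b4⟩ := bd_xz
    obtain ⟨-, -, a5, b5⟩ := bd_xx
    push_cast at a1 a2 a3 a4 a5 b1 b2 b3 b4 b5
    simp only [Torus.A, hW, time_sec, if_true, Nat.reduceMul]
    refine ⟨?_, fun x hx => ?_⟩
    · split_ifs <;> linarith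
    · simp only [hx, if_false]
      split_ifs <;> linarith
  · refine e_lb T (ht h 16 (by norm_num)) (trial (N := 32) (p := 768470) (q := 768458) (by norm_num)
      (by decide) (by simp) (by simp) h) ?_
    unfold bw
    split_ifs <;> exact exp_lb (by norm_num) (by norm_num)

/-- every eigenvalue above the least one lies at least `1/100` above it -/
theorem gap_cart {n : ℕ} (hn : 16 ≤ n) {E : ℝ} (hE : E ∈ evals (hamT cart (2 * n) 0))
    (h0 : E0 (hamT cart (2 * n) 0) ∈ evals (hamT cart (2 * n) 0))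
    (hlt : E0 (hamT cart (2 * n) 0) < E) : E0 (hamT cart (2 * n) 0) + 1 / 100 ≤ E := by
  obtain ⟨T, hW, ht, hs⟩ := ex_torus
  obtain ⟨k, θ, hk, hθ0, hθ, hA, hX⟩ :=
    T.recursion (SS_base T hW hs) (TS16 T hW ht) (TS32 T hW ht) n hn
  obtain ⟨-, t2, t3⟩ := ht 0 n (by omega)
  set G := E0 (hamT cart (2 * n) 0)
  have hAe : ∀ x, (1 / 4) * ∑ g, chi x g * Wn g 0 (2 * n) k = T.A 0 x n k := fun x => by
    simp only [Torus.A, hW]
  have hm := fun x => T.he 0 x n (by omega)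
  have hp : ∀ E, 0 < bw (2 * n) E := fun E => Real.exp_pos _
  have hθ1 : θ < 1 := hθ.trans_lt (Real.exp_lt_one_iff.2 (by
    have : (0 : ℝ) < k := by exact_mod_cast hk
    linarith))
  have he : T.e 0 0 n ^ k ≤ bw (2 * n) G ^ k := pow_le_pow_left₀ (hm 0).t0 (t2 0) k
  have side : ∀ E x, x ≠ 0 → bw (2 * n) E ≤ T.e 0 x n → bw (2 * n) E ^ k ≤ θ * T.e 0 0 n ^ k :=
    fun E x hx h => ((pow_le_pow_left₀ (hp E).le h k).trans ((hm x).le k hk)).trans (hX x hx)
  have main : bw (2 * n) E ^ k ≤ θ * T.e 0 0 n ^ k := by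
    obtain ⟨x, p1, p2⟩ := t3 E hE
    by_cases hx : x = 0
    · subst hx
      by_cases hne : bw (2 * n) E = T.e 0 0 n
      · exfalso
        obtain ⟨y, q1, -⟩ := t3 G h0
        have hlt' : bw (2 * n) E < bw (2 * n) G := Real.exp_lt_exp.2 (by linarith)
        have hy : y ≠ 0 := by
          rintro rfl
          linarith
        have := side G y hy q1
        nlinarith [pow_pos (hp G) k, pow_nonneg (hm 0).t0 k]
      · have := p2 hne k hk
        rw [hAe] at this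
        linarith
    · exact side E x hx p1
  have fin : bw (2 * n) E ^ k ≤ Real.exp (-(7 * k / 100)) * bw (2 * n) G ^ k :=
    main.trans (mul_le_mul hθ he (pow_nonneg (hm 0).t0 k) (Real.exp_pos _).le)
  simp only [bw, ← Real.exp_nat_mul, ← Real.exp_add, Real.exp_le_exp] at fin
  have hk' : (0 : ℝ) < k := by exact_mod_cast hk
  by_contra hc
  nlinarith

end Vale.Agent.P348
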