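import Vale.Agent.P348.Defs

/-! Twisted rings, twisted partition functions, conjugation invariance, S3 symmetry. -/

namespace Vale.Agent.P348

open Matrix

abbrev St (L : ℕ) := Fin L → Fin 3
abbrev M3 := Matrix (Fin 3) (Fin 3) ℂ
abbrev Op (L : ℕ) := Matrix (St L) (St L) ℂ

/-- tensor product of one-site matrices -/
def tens {L : ℕ} (A : Fin L → M3) : Op L := Matrix.of fun s t => ∏ j, A j (s j) (t j)

/-- sign by which the group element `g` (0 = identity, `a+1` = rotation by π about axis `a`)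
acts on the spin component `a` -/
def sg (g : Fin 4) (a : Fin 3) : ℝ := if g = 0 ∨ g = a.succ then 1 else -1

/-- character table of the Klein four group; also the sign `ε(g,h)` -/
def chi (x g : Fin 4) : ℝ := if x = 0 ∨ g = 0 ∨ x = g then 1 else -1

/-- the rotation by π as a one-site matrix -/
noncomputable def rot (S : Fin 3 → M3) (g : Fin 4) : M3 :=
  Fin.cases 1 (fun a => 1 - (2 : ℂ) • (S a * S a)) g

/-- ring with boundary twist `h` on the bond `(L-1, 0)` -/
noncomputable def hamT (S : Fin 3 → M3) (L : ℕ) (h : Fin 4) : Op L :=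
  ∑ j : Fin L, ∑ a : Fin 3, (if (finRotate L j).val = 0 then ((sg h a : ℝ) : ℂ) else 1) •
    (site L j (S a) * site L (finRotate L j) (S a))

/-- doubly twisted partition function -/
noncomputable def Zf (S : Fin 3 → M3) (L : ℕ) (β : ℝ) (g h : Fin 4) : ℝ :=
  (trace (tens (fun _ : Fin L => rot S g) * NormedSpace.exp ((-(β : ℂ)) • hamT S L h))).re

/-- Cartesian spin-one matrices -/
noncomputable def cart (a : Fin 3) : M3 := Matrix.of fun b c => -Complex.I * eps a b c

/-- standard spin-one matrices (basis m = 1, 0, -1) -/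
noncomputable def std : Fin 3 → M3 :=
  ![((√2 : ℝ) : ℂ)⁻¹ • !![0, 1, 0; 1, 0, 1; 0, 1, 0],
    ((√2 : ℝ) : ℂ)⁻¹ • !![0, -Complex.I, 0; Complex.I, 0, -Complex.I; 0, Complex.I, 0],
    !![1, 0, 0; 0, 0, 0; 0, 0, -1]]

theorem hamT_zero (S : Fin 3 → M3) (L : ℕ) : hamT S L 0 = ham S L := by
  simp [hamT, ham, sg]

theorem tens_mul {L : ℕ} (A B : Fin L → M3) : tens A * tens B = tens (fun j => A j * B j) := by
  ext s t
  simp only [tens, Matrix.mul_apply, Matrix.of_apply]
  rw [Finset.prod_univ_sum, Fintype.piFinset_univ]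
  exact Finset.sum_congr rfl fun u _ => Finset.prod_mul_distrib.symm

theorem tens_one {L : ℕ} : tens (fun _ : Fin L => (1 : M3)) = 1 := by
  ext s t
  simp only [tens, Matrix.of_apply, Matrix.one_apply]
  by_cases h : s = t
  · simp [h]
  · obtain ⟨j, hj⟩ := Function.ne_iff.mp h
    rw [if_neg h]
    exact Finset.prod_eq_zero (Finset.mem_univ j) (if_neg hj)

theorem tens_conjTranspose {L : ℕ} (A : Fin L → M3) : (tens A)ᴴ = tens (fun j => (A j)ᴴ) := by
  ext s t
  simp only [tens, Matrix.conjTranspose_apply, Matrix.of_apply, star_prod]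

theorem site_eq_tens (L : ℕ) (j : Fin L) (A : M3) :
    site L j A = tens (fun i => if i = j then A else 1) := by
  ext s t
  simp only [site, tens, Matrix.of_apply]
  rw [← Finset.mul_prod_erase Finset.univ _ (Finset.mem_univ j), if_pos rfl]
  by_cases h : ∀ i, i ≠ j → s i = t i
  · rw [if_pos h, Finset.prod_eq_one, mul_one]
    intro i hi
    have hi' := Finset.ne_of_mem_erase hi
    rw [if_neg hi', h i hi', Matrix.one_apply_eq]
  · rw [if_neg h]
    push Not at h
    obtain ⟨i, hi, hst⟩ := h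
    rw [Finset.prod_eq_zero (Finset.mem_erase.mpr ⟨hi, Finset.mem_univ i⟩), mul_zero]
    rw [if_neg hi, Matrix.one_apply_ne hst]

theorem hamT_isHermitian {S : Fin 3 → M3} (hS : ∀ a, (S a).IsHermitian) {L : ℕ} (hL : 2 ≤ L)
    (h : Fin 4) : (hamT S L h).IsHermitian := by
  unfold hamT Matrix.IsHermitian
  rw [conjTranspose_sum]
  refine Finset.sum_congr rfl fun j _ => ?_
  rw [conjTranspose_sum]
  refine Finset.sum_congr rfl fun a _ => ?_
  rw [conjTranspose_smul, site_eq_tens, site_eq_tens, tens_mul, tens_conjTranspose]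
  congr 1
  · split_ifs <;> simp
  · congr 1
    funext i
    split_ifs <;> simp [(hS a).eq]

theorem site_conj {U V : M3} (hUV : U * V = 1) (L : ℕ) (j : Fin L) (A : M3) :
    site L j (U * A * V) = tens (fun _ => U) * site L j A * tens (fun _ => V) := by
  rw [site_eq_tens, site_eq_tens, tens_mul, tens_mul]
  congr 1
  funext i
  split_ifs <;> simp [hUV]

theorem tens_inv {U V : M3} (hUV : U * V = 1) (L : ℕ) :
    tens (fun _ : Fin L => U) * tens (fun _ => V) = 1 := by
  rw [tens_mul, hUV, tens_one]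

theorem hamT_conj (S : Fin 3 → M3) {U V : M3} (hUV : U * V = 1) (L : ℕ) (h : Fin 4) :
    hamT (fun a => U * S a * V) L h =
      tens (fun _ => U) * hamT S L h * tens (fun _ => V) := by
  have hVU := tens_inv (mul_eq_one_comm.mp hUV) L
  unfold hamT
  rw [Finset.mul_sum, Finset.sum_mul]
  refine Finset.sum_congr rfl fun j _ => ?_
  rw [Finset.mul_sum, Finset.sum_mul]
  refine Finset.sum_congr rfl fun a _ => ?_
  rw [site_conj hUV, site_conj hUV, Matrix.mul_smul, Matrix.smul_mul]
  congr 1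
  simp only [Matrix.mul_assoc]
  rw [← Matrix.mul_assoc (tens fun _ => V), hVU, Matrix.one_mul]

theorem rot_conj (S : Fin 3 → M3) {U V : M3} (hUV : U * V = 1) (g : Fin 4) :
    rot (fun a => U * S a * V) g = U * rot S g * V := by
  have hVU := mul_eq_one_comm.mp hUV
  refine Fin.cases ?_ (fun a => ?_) g
  · simp [rot, hUV]
  · simp only [rot, Fin.cases_succ, Matrix.mul_sub, Matrix.sub_mul, Matrix.mul_one, hUV,
      Matrix.mul_smul, Matrix.smul_mul, Matrix.mul_assoc]
    rw [← Matrix.mul_assoc V, hVU, Matrix.one_mul]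

theorem exp_conj_of {n : Type} [Fintype n] [DecidableEq n] {U V : Matrix n n ℂ}
    (hUV : U * V = 1) (A : Matrix n n ℂ) :
    NormedSpace.exp (U * A * V) = U * NormedSpace.exp A * V :=
  Matrix.exp_units_conj ⟨U, V, hUV, mul_eq_one_comm.mp hUV⟩ A

theorem Zf_conj (S : Fin 3 → M3) {U V : M3} (hUV : U * V = 1) (L : ℕ) (β : ℝ) (g h : Fin 4) :
    Zf (fun a => U * S a * V) L β g h = Zf S L β g h := by
  have hVU := tens_inv (mul_eq_one_comm.mp hUV) L
  unfold Zf
  rw [hamT_conj S hUV, ← Matrix.smul_mul, ← Matrix.mul_smul, exp_conj_of (tens_inv hUV L),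
    rot_conj S hUV]
  have e : tens (fun _ : Fin L => U * rot S g * V) =
      tens (fun _ => U) * tens (fun _ => rot S g) * tens (fun _ => V) := by
    rw [tens_mul, tens_mul]
  rw [e]
  simp only [Matrix.mul_assoc]
  rw [← Matrix.mul_assoc (tens fun _ => V), hVU, Matrix.one_mul, trace_mul_comm]
  simp only [Matrix.mul_assoc]
  rw [hVU, Matrix.mul_one]

theorem evals_conj_sub {n : Type} [Fintype n] [DecidableEq n] (H : Matrix n n ℂ)
    {U V : Matrix n n ℂ} (hUV : U * V = 1) : evals (U * H * V) ⊆ evals H := by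
  rintro x ⟨v, hv, h⟩
  have hVU := mul_eq_one_comm.mp hUV
  refine ⟨V *ᵥ v, fun h0 => hv ?_, ?_⟩
  · have := congrArg (fun w => U *ᵥ w) h0
    simpa [Matrix.mulVec_mulVec, hUV] using this
  · have := congrArg (fun w => V *ᵥ w) h
    simp only [Matrix.mulVec_mulVec, Matrix.mulVec_smul, ← Matrix.mul_assoc, hVU,
      Matrix.one_mul] at this
    rw [Matrix.mulVec_mulVec, this]

theorem evals_conj {n : Type} [Fintype n] [DecidableEq n] (H : Matrix n n ℂ) {U V : Matrix n n ℂ}
    (hUV : U * V = 1) : evals (U * H * V) = evals H := by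
  have hVU := mul_eq_one_comm.mp hUV
  refine (evals_conj_sub H hUV).antisymm ?_
  have e : H = V * (U * H * V) * U := by
    simp only [← Matrix.mul_assoc, hVU, Matrix.one_mul]
    rw [Matrix.mul_assoc, hVU, Matrix.mul_one]
  conv_lhs => rw [e]
  exact evals_conj_sub _ hVU

theorem evals_hamT_conj (S : Fin 3 → M3) {U V : M3} (hUV : U * V = 1) (L : ℕ) (h : Fin 4) :
    evals (hamT (fun a => U * S a * V) L h) = evals (hamT S L h) := by
  rw [hamT_conj S hUV, evals_conj _ (tens_inv hUV L)]

theorem cart_isHermitian (a : Fin 3) : (cart a).IsHermitian := by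
  ext b c
  fin_cases a <;> fin_cases b <;> fin_cases c <;> simp [cart, eps]

theorem rot_cart (g : Fin 4) : rot cart g = diagonal (fun a => ((sg g a : ℝ) : ℂ)) := by
  refine Fin.cases ?_ (fun a => ?_) g
  · simp [rot, sg]
  · ext b c
    simp only [rot, Fin.cases_succ]
    fin_cases a <;> fin_cases b <;> fin_cases c <;>
      simp [cart, eps, sg, Matrix.mul_apply, Fin.sum_univ_three] <;> norm_num

theorem cart_zero : cart 0 = !![0, 0, 0; 0, 0, -Complex.I; 0, Complex.I, 0] := by
  ext b c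
  fin_cases b <;> fin_cases c <;> simp [cart, eps]

theorem cart_one : cart 1 = !![0, 0, Complex.I; 0, 0, 0; -Complex.I, 0, 0] := by
  ext b c
  fin_cases b <;> fin_cases c <;> simp [cart, eps]

theorem cart_two : cart 2 = !![0, -Complex.I, 0; Complex.I, 0, 0; 0, 0, 0] := by
  ext b c
  fin_cases b <;> fin_cases c <;> simp [cart, eps]

theorem std_conj_aux (r : ℂ) (hr : r * r = 1 / 2) :
    (!![-r, Complex.I * r, 0; 0, 0, 1; r, Complex.I * r, 0] : M3) *
      !![-r, 0, r; -Complex.I * r, 0, -Complex.I * r; 0, 1, 0] = 1 ∧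
    (![r • !![0, 1, 0; 1, 0, 1; 0, 1, 0],
      r • !![0, -Complex.I, 0; Complex.I, 0, -Complex.I; 0, Complex.I, 0],
      !![1, 0, 0; 0, 0, 0; 0, 0, -1]] : Fin 3 → M3) = fun a =>
      !![-r, Complex.I * r, 0; 0, 0, 1; r, Complex.I * r, 0] * cart a *
        !![-r, 0, r; -Complex.I * r, 0, -Complex.I * r; 0, 1, 0] := by
  have hI := Complex.I_mul_I
  constructor
  · rw [Matrix.mul_fin_three]
    ext b c
    fin_cases b <;> fin_cases c <;> simp <;> grind
  · funext a
    fin_cases a
    · simp only [Fin.zero_eta, cart_zero, Matrix.mul_fin_three]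
      ext b c
      fin_cases b <;> fin_cases c <;> simp <;> grind
    · simp only [Fin.mk_one, cart_one, Matrix.mul_fin_three]
      ext b c
      fin_cases b <;> fin_cases c <;> simp <;> grind
    · simp only [Fin.reduceFinMk, cart_two, Matrix.mul_fin_three]
      ext b c
      fin_cases b <;> fin_cases c <;> simp <;> grind

/-- the standard triple is conjugate to the Cartesian one -/
theorem std_conj : ∃ U V : M3, U * V = 1 ∧ std = fun a => U * cart a * V := by
  have hr : ((√2 : ℝ) : ℂ)⁻¹ * ((√2 : ℝ) : ℂ)⁻¹ = 1 / 2 := by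
    rw [← mul_inv, ← Complex.ofReal_mul, Real.mul_self_sqrt (by norm_num)]
    norm_num
  exact ⟨_, _, (std_conj_aux _ hr).1, (std_conj_aux _ hr).2⟩

/-- the integer Levi-Civita symbol -/
def epsZ (a b c : Fin 3) : ℤ :=
  if (a, b, c) = (0, 1, 2) ∨ (a, b, c) = (1, 2, 0) ∨ (a, b, c) = (2, 0, 1) then 1
  else if (a, b, c) = (0, 2, 1) ∨ (a, b, c) = (2, 1, 0) ∨ (a, b, c) = (1, 0, 2) then -1 else 0

theorem eps_eq (a b c : Fin 3) : eps a b c = (epsZ a b c : ℂ) := by
  unfold eps epsZ
  split_ifs <;> simp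

theorem epsZ_perm : ∀ x y z : Fin 3, x ≠ y → x ≠ z → y ≠ z →
    (∀ a b c, epsZ (![x, y, z] a) (![x, y, z] b) (![x, y, z] c) = epsZ a b c) ∨
    (∀ a b c, epsZ (![x, y, z] a) (![x, y, z] b) (![x, y, z] c) = -epsZ a b c) := by
  decide

theorem cart_perm (p : Equiv.Perm (Fin 3)) : ∃ U V : M3, U * V = 1 ∧
    ((fun a => cart (p a)) = (fun a => U * cart a * V) ∨
      (fun a => cart (p a)) = fun a => -(U * cart a * V)) := by
  have hp : (p : Fin 3 → Fin 3) = ![p 0, p 1, p 2] := by
    funext a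
    fin_cases a <;> rfl
  have key : ∀ (X : M3) (d e : Fin 3),
      ((Matrix.of fun b d => if b = p d then (1 : ℂ) else 0) * X *
        (Matrix.of fun e c => if c = p e then (1 : ℂ) else 0) : M3) (p d) (p e) = X d e := by
    intro X d e
    simp [Matrix.mul_apply]
  refine ⟨Matrix.of fun b d => if b = p d then (1 : ℂ) else 0,
    Matrix.of fun e c => if c = p e then (1 : ℂ) else 0, ?_, ?_⟩
  · ext b c
    obtain ⟨d, rfl⟩ := p.surjective b
    obtain ⟨e, rfl⟩ := p.surjective c
    have := key 1 d e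
    rw [Matrix.mul_one] at this
    rw [this]
    simp [Matrix.one_apply]
  · rcases epsZ_perm (p 0) (p 1) (p 2) (by simp) (by simp) (by simp) with h | h
    · left
      funext a
      ext b c
      obtain ⟨d, rfl⟩ := p.surjective b
      obtain ⟨e, rfl⟩ := p.surjective c
      rw [key]
      simp only [cart, Matrix.of_apply, eps_eq]
      rw [← h a d e, ← hp]
    · right
      funext a
      ext b c
      obtain ⟨d, rfl⟩ := p.surjective b
      obtain ⟨e, rfl⟩ := p.surjective c
      rw [Matrix.neg_apply, key]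
      simp only [cart, Matrix.of_apply, eps_eq]
      have := h a d e
      rw [← hp] at this
      rw [this]
      simp

theorem site_neg (L : ℕ) (j : Fin L) (A : M3) : site L j (-A) = -site L j A := by
  ext s t
  simp only [site, Matrix.of_apply, Matrix.neg_apply]
  split_ifs <;> simp

theorem hamT_neg (S : Fin 3 → M3) (L : ℕ) (h : Fin 4) :
    hamT (fun a => -S a) L h = hamT S L h := by
  simp only [hamT, site_neg, neg_mul_neg]

theorem rot_neg (S : Fin 3 → M3) (g : Fin 4) : rot (fun a => -S a) g = rot S g := by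
  simp only [rot, neg_mul_neg]

theorem exists_perm3 (π : Equiv.Perm (Fin 4)) (hπ : π 0 = 0) :
    ∃ p : Equiv.Perm (Fin 3), ∀ a, π a.succ = (p a).succ := by
  have hne : ∀ a : Fin 3, π a.succ ≠ 0 := fun a h =>
    Fin.succ_ne_zero a (π.injective (h.trans hπ.symm))
  have hinj : Function.Injective fun a : Fin 3 => (π a.succ).pred (hne a) := by
    intro a b h
    have := congrArg Fin.succ h
    simp only [Fin.succ_pred] at this
    exact Fin.succ_injective _ (π.injective this)
  exact ⟨Equiv.ofBijective _ (Finite.injective_iff_bijective.mp hinj), fun a => by simp⟩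

theorem hamT_perm (S : Fin 3 → M3) (π : Equiv.Perm (Fin 4)) (hπ : π 0 = 0)
    (p : Equiv.Perm (Fin 3)) (hp : ∀ a, π a.succ = (p a).succ) (L : ℕ) (h : Fin 4) :
    hamT S L (π h) = hamT (fun a => S (p a)) L h := by
  unfold hamT
  refine Finset.sum_congr rfl fun j _ => ?_
  rw [← Equiv.sum_comp p]
  refine Finset.sum_congr rfl fun a _ => ?_
  have : sg (π h) (p a) = sg h a := by
    have e0 : π h = 0 ↔ h = 0 := by rw [← π.injective.eq_iff (a := h), hπ]
    simp only [sg, ← hp, e0, π.injective.eq_iff]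
  rw [this]

theorem rot_perm (S : Fin 3 → M3) (π : Equiv.Perm (Fin 4)) (hπ : π 0 = 0)
    (p : Equiv.Perm (Fin 3)) (hp : ∀ a, π a.succ = (p a).succ) (g : Fin 4) :
    rot S (π g) = rot (fun a => S (p a)) g := by
  refine Fin.cases ?_ (fun a => ?_) g
  · rw [hπ]
    rfl
  · rw [hp]
    rfl

/-- relabelling the axes -/
theorem Zf_cart_perm (π : Equiv.Perm (Fin 4)) (hπ : π 0 = 0) (L : ℕ) (β : ℝ) (g h : Fin 4) :
    Zf cart L β (π g) (π h) = Zf cart L β g h := by
  obtain ⟨p, hp⟩ := exists_perm3 π hπ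
  obtain ⟨U, V, hUV, e⟩ := cart_perm p
  rw [← Zf_conj cart hUV L β g h]
  unfold Zf
  rw [hamT_perm cart π hπ p hp, rot_perm cart π hπ p hp]
  rcases e with e | e
  · rw [e]
  · rw [e, hamT_neg (fun a => U * cart a * V), rot_neg (fun a => U * cart a * V)]

theorem evals_cart_perm (π : Equiv.Perm (Fin 4)) (hπ : π 0 = 0) (L : ℕ) (h : Fin 4) :
    evals (hamT cart L (π h)) = evals (hamT cart L h) := by
  obtain ⟨p, hp⟩ := exists_perm3 π hπ
  obtain ⟨U, V, hUV, e⟩ := cart_perm p
  rw [← evals_hamT_conj cart hUV L h, hamT_perm cart π hπ p hp]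
  rcases e with e | e
  · rw [e]
  · rw [e, hamT_neg (fun a => U * cart a * V)]

/-- the spectral theorem in the form used here -/
theorem spec_of_herm {n : Type} [Fintype n] [DecidableEq n] {H : Matrix n n ℂ}
    (hH : H.IsHermitian) : ∃ U : Matrix n n ℂ, U * Uᴴ = 1 ∧
      H = U * diagonal (fun i => ((hH.eigenvalues i : ℝ) : ℂ)) * Uᴴ := by
  refine ⟨hH.eigenvectorUnitary, ?_, ?_⟩
  · exact hH.eigenvectorUnitary.2.2
  · exact hH.spectral_theorem

theorem evals_diagonal {n : Type} [Fintype n] [DecidableEq n] (d : n → ℝ) :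
    evals (diagonal fun i => ((d i : ℝ) : ℂ)) = Set.range d := by
  ext x
  constructor
  · rintro ⟨v, hv, h⟩
    obtain ⟨i, hi⟩ := Function.ne_iff.mp hv
    have := congrFun h i
    simp only [mulVec_diagonal, Pi.smul_apply, smul_eq_mul] at this
    exact ⟨i, by exact_mod_cast mul_right_cancel₀ hi this⟩
  · rintro ⟨i, rfl⟩
    refine ⟨Pi.single i 1, by simp, ?_⟩
    funext j
    by_cases hj : j = i
    · simp [hj, mulVec_diagonal]
    · simp [hj, mulVec_diagonal]

theorem evals_finite {n : Type} [Fintype n] [DecidableEq n] {H : Matrix n n ℂ}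
    (hH : H.IsHermitian) : evals H = Set.range hH.eigenvalues := by
  obtain ⟨U, hU, e⟩ := spec_of_herm hH
  conv_lhs => rw [e]
  rw [evals_conj _ hU, evals_diagonal]

theorem E0_le {n : Type} [Fintype n] [DecidableEq n] {H : Matrix n n ℂ}
    (hH : H.IsHermitian) {x : ℝ} (hx : x ∈ evals H) : E0 H ≤ x := by
  refine csInf_le ?_ hx
  rw [evals_finite hH]
  exact (Set.finite_range _).bddBelow

/-- the variational principle -/
theorem E0_le_of_trial {n : Type} [Fintype n] [DecidableEq n] {H : Matrix n n ℂ}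
    (hH : H.IsHermitian) (v : n → ℂ) (hv : v ≠ 0) (r : ℝ)
    (h : (star v ⬝ᵥ (H *ᵥ v)).re ≤ r * (star v ⬝ᵥ v).re) : E0 H ∈ evals H ∧ E0 H ≤ r := by
  obtain ⟨i0, -⟩ := Function.ne_iff.mp hv
  have hle : ∀ i, E0 H ≤ hH.eigenvalues i := fun i =>
    E0_le hH (by rw [evals_finite hH]; exact ⟨i, rfl⟩)
  constructor
  · unfold E0
    rw [evals_finite hH]
    exact Set.Nonempty.csInf_mem ⟨_, i0, rfl⟩ (Set.finite_range _)
  · obtain ⟨U, hU, e⟩ := spec_of_herm hH
    set w := Uᴴ *ᵥ v with hw
    have hs : star w = star v ᵥ* U := by rw [hw, star_mulVec, conjTranspose_conjTranspose]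
    have h1 : (star v ⬝ᵥ (H *ᵥ v)).re = ∑ i, hH.eigenvalues i * ‖w i‖ ^ 2 := by
      conv_lhs => rw [e]
      rw [← mulVec_mulVec, ← mulVec_mulVec, dotProduct_mulVec, ← hs, ← hw, dotProduct,
        Complex.re_sum]
      refine Finset.sum_congr rfl fun i _ => ?_
      rw [mulVec_diagonal, Pi.star_apply, mul_left_comm, Complex.re_ofReal_mul, Complex.star_def,
        Complex.conj_mul', ← Complex.ofReal_pow, Complex.ofReal_re]
    have h2 : (star v ⬝ᵥ v).re = ∑ i, ‖w i‖ ^ 2 := by
      have : star v ⬝ᵥ v = star w ⬝ᵥ w := by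
        rw [hs, ← dotProduct_mulVec, hw, mulVec_mulVec, hU, one_mulVec]
      rw [this, dotProduct, Complex.re_sum]
      refine Finset.sum_congr rfl fun i _ => ?_
      rw [Pi.star_apply, Complex.star_def, Complex.conj_mul', ← Complex.ofReal_pow,
        Complex.ofReal_re]
    have h3 : 0 < ∑ i, ‖w i‖ ^ 2 := by
      have hw0 : w ≠ 0 := fun h0 => hv (by
        have := congrArg (fun x => U *ᵥ x) h0
        simpa [hw, Matrix.mulVec_mulVec, hU] using this)
      obtain ⟨i, hi⟩ := Function.ne_iff.mp hw0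
      exact Finset.sum_pos' (fun j _ => by positivity)
        ⟨i, Finset.mem_univ i, pow_pos (norm_pos_iff.mpr hi) 2⟩
    rw [h1, h2] at h
    refine le_of_mul_le_mul_right (le_trans ?_ h) h3
    rw [Finset.mul_sum]
    exact Finset.sum_le_sum fun i _ => mul_le_mul_of_nonneg_right (hle i) (by positivity)

end Vale.Agent.P348
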