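import Vale.Agent.P348.TreeDefs

/-! Chunks of orbit representatives with their certified moment sums (core only). -/

namespace Vale.Agent.P348.K

structure Ch where
  S : Nat
  w : Nat
  rs : List (Nat × Nat)
  ex : List (Int × Int)

noncomputable def okB (n : Nat) (neg fl : Bool) (c : Ch) : Bool := pass n c.S c.w neg fl c.rs c.ex

def AllOk (n : Nat) (neg fl : Bool) : List Ch → Prop
  | [] => True
  | c :: cs => okB n neg fl c = true ∧ AllOk n neg fl cs

def allR : List Ch → List (Nat × Nat)
  | [] => []
  | c :: cs => c.rs ++ allR cs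

/-- `∑ (a * diagonal + e * flipped)` at order `k` -/
def sumE (a e : Int) (k : Nat) : List Ch → Int
  | [] => 0
  | c :: cs => (a * (c.ex.getD k (0, 0)).1 + e * (c.ex.getD k (0, 0)).2) + sumE a e k cs

def muL (a e : Int) (K : Nat) (cs : List Ch) : List Int := (List.range K).map fun k => sumE a e k cs

def lenOk (K : Nat) (cs : List Ch) : Bool := cs.all fun c => decide (K ≤ c.ex.length)

def secOk (L : Nat) (cs : List Ch) : Bool := cs.all fun c => decide (c.S = L)

end Vale.Agent.P348.K
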