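import Vale.Agent.P348.Dec

/-! Soundness of the orbit enumeration. -/

namespace Vale.Agent.P348

open Finset

theorem dig_inj {L a b : ℕ} (ha : a < 3 ^ L) (hb : b < 3 ^ L)
    (h : ∀ j < L, K.dig a j = K.dig b j) : a = b := by
  induction L generalizing a b with
  | zero => omega
  | succ L ih =>
    have h0 := h 0 (by omega)
    rw [dig_eq, dig_eq, pow_zero, Nat.div_one, Nat.div_one] at h0
    have h1 := ih (a := a / 3) (b := b / 3) (by rw [pow_succ] at ha; omega)
      (by rw [pow_succ] at hb; omega) fun j hj => by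
        have := h (j + 1) (by omega)
        rwa [dig_eq, dig_eq, pow_succ', ← Nat.div_div_eq_div_mul, ← Nat.div_div_eq_div_mul] at this
    omega

theorem exists_dec {L : ℕ} (s : St L) : ∃ t < 3 ^ L, dec L t = s := by
  have hg : ∀ j, (if h : j < L then (s ⟨j, h⟩).val else 0) < 3 := fun j => by
    split_ifs
    · exact Fin.is_lt _
    · omega
  refine ⟨K.mkc (fun j => if h : j < L then (s ⟨j, h⟩).val else 0) L, mkc_lt hg L, ?_⟩
  funext j
  apply Fin.ext
  exact (dig_mkc hg j.2).trans (dif_pos j.2)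

theorem sum_dec {L : ℕ} (g : St L → ℤ) : ∑ s, g s = ∑ t ∈ range (3 ^ L), g (dec L t) := by
  symm
  refine sum_bij (fun t _ => dec L t) (fun _ _ => mem_univ _) (fun a ha b hb h => ?_)
    (fun s _ => ?_) fun _ _ => rfl
  · exact dig_inj (mem_range.1 ha) (mem_range.1 hb) fun j hj =>
      congrArg Fin.val (congrFun h ⟨j, hj⟩)
  · obtain ⟨t, ht, e⟩ := exists_dec s
    exact ⟨t, mem_range.2 ht, e⟩

theorem dsN_congr {a b n : ℕ} (h : ∀ j < n, K.dig a j = K.dig b j) : K.dsN a n = K.dsN b n := by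
  induction n with
  | zero => rfl
  | succ n ih => rw [dsN_succ, dsN_succ, ih fun j hj => h j (by omega), h n (by omega)]

theorem dsN_top {t a n : ℕ} (ht : t < 3 ^ n) (ha : a < 3) :
    K.dsN (t + a * 3 ^ n) (n + 1) = K.dsN t n + a := by
  rw [dsN_succ, dig_add_top ht ha, dsN_congr fun j hj => dig_add_low hj]

theorem maskP_zero (p : ℕ → Bool) (r : ℕ) : K.maskP p 0 r = cond (p r) 1 0 := rfl

theorem maskP_succ (p : ℕ → Bool) (j r : ℕ) : K.maskP p (j + 1) r =
    (K.maskP p j r ||| K.maskP p j (r + 1) <<< 3 ^ j) ||| K.maskP p j (r + 2) <<< (2 * 3 ^ j) := rfl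

theorem maskP_testBit (p : ℕ → Bool) (n r t : ℕ) :
    (K.maskP p n r).testBit t = (decide (t < 3 ^ n) && p (r + K.dsN t n)) := by
  induction n generalizing r t with
  | zero =>
    rw [maskP_zero, dsN_zero, add_zero, pow_zero]
    cases p r
    · simp
    · rcases t with _ | t
      · simp
      · simp [Nat.testBit_succ]
  | succ n ih =>
    rw [maskP_succ, Nat.testBit_or, Nat.testBit_or, Nat.testBit_shiftLeft, Nat.testBit_shiftLeft,
      ih, ih, ih, pow_succ]
    by_cases h1 : t < 3 ^ n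
    · have e := dsN_top (a := 0) h1 (by omega)
      rw [zero_mul, add_zero, add_zero] at e
      rw [e]
      have a1 : ¬ t ≥ 3 ^ n := by omega
      have a2 : ¬ t ≥ 2 * 3 ^ n := by omega
      have a3 : t < 3 ^ n * 3 := by omega
      simp [h1, a1, a2, a3]
    by_cases h2 : t < 2 * 3 ^ n
    · have a0 : t - 3 ^ n < 3 ^ n := by omega
      have e := dsN_top (a := 1) a0 (by omega)
      rw [show t - 3 ^ n + 1 * 3 ^ n = t by omega] at e
      rw [e]
      have a1 : t ≥ 3 ^ n := by omega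
      have a2 : ¬ t ≥ 2 * 3 ^ n := by omega
      have a3 : t < 3 ^ n * 3 := by omega
      simp [h1, a0, a1, a2, a3, add_assoc, add_comm 1]
    by_cases h3 : t < 3 ^ n * 3
    · have a0 : t - 2 * 3 ^ n < 3 ^ n := by omega
      have e := dsN_top (a := 2) a0 (by omega)
      rw [show t - 2 * 3 ^ n + 2 * 3 ^ n = t by omega] at e
      rw [e]
      have a1 : ¬ t - 3 ^ n < 3 ^ n := by omega
      have a2 : t ≥ 2 * 3 ^ n := by omega
      simp [h1, a0, a1, a2, h3, add_assoc, add_comm 2]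
    · have a0 : ¬ t - 2 * 3 ^ n < 3 ^ n := by omega
      have a1 : ¬ t - 3 ^ n < 3 ^ n := by omega
      simp [h1, a0, a1, h3]

/-- the sum over the marked codes -/
noncomputable def mkd (N : ℕ) (F : ℕ → ℤ) (acc : ℕ) : ℤ :=
  ∑ t ∈ range N, if acc.testBit t then F t else 0

theorem mkd_set {N : ℕ} (F : ℕ → ℤ) {acc t : ℕ} (ht : t < N) (h : acc.testBit t = false) :
    mkd N F (acc ||| 1 <<< t) = mkd N F acc + F t := by
  have : F t = ∑ u ∈ range N, if u = t then F u else 0 := by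
    rw [sum_ite_eq', if_pos (mem_range.2 ht)]
  rw [this, mkd, mkd, ← sum_add_distrib]
  refine sum_congr rfl fun u _ => ?_
  rw [Nat.testBit_or, Nat.one_shiftLeft, Nat.testBit_two_pow]
  by_cases e : u = t
  · subst e; simp [h]
  · have e' : ¬ t = u := fun x => e x.symm
    simp [e, e']

theorem mark_nil (k : ℕ → Bool) (acc m : ℕ) :
    K.mark [] k acc m = cond (Nat.beq m 0) (k acc) false := rfl

theorem mark_cons (t : ℕ) (l : List ℕ) (k : ℕ → Bool) (acc m : ℕ) :
    K.mark (t :: l) k acc m = cond (Nat.beq (acc >>> t % 2) 1) (K.mark l k acc m)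
      (cond (Nat.beq m 0) false (K.mark l k (acc ||| 1 <<< t) (m - 1))) := rfl

theorem mark_sound {N : ℕ} {F : ℕ → ℤ} {v : ℤ} {k : ℕ → Bool} (l : List ℕ)
    (hl : ∀ t ∈ l, t < N ∧ F t = v) {acc m : ℕ} (h : K.mark l k acc m = true) :
    ∃ acc', k acc' = true ∧ mkd N F acc' = mkd N F acc + m * v := by
  induction l generalizing acc m with
  | nil =>
    rw [mark_nil] at h
    rcases hm : Nat.beq m 0 with _ | _
    · rw [hm] at h; exact absurd h (by simp)
    · rw [hm] at h
      exact ⟨acc, h, by rw [Nat.eq_of_beq_eq_true hm]; simp⟩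
  | cons t l ih =>
    rw [mark_cons] at h
    have hl' : ∀ u ∈ l, u < N ∧ F u = v := fun u hu => hl u (List.mem_cons_of_mem _ hu)
    rcases hb : Nat.beq (acc >>> t % 2) 1 with _ | _
    · rw [hb] at h
      rcases hm : Nat.beq m 0 with _ | _
      · rw [hm] at h
        obtain ⟨acc', h1, h2⟩ := ih hl' h
        have hm' := Nat.ne_of_beq_eq_false hm
        have hb' := Nat.ne_of_beq_eq_false hb
        obtain ⟨a1, a2⟩ := hl t (by simp)
        refine ⟨acc', h1, ?_⟩
        rw [h2, mkd_set F a1 (by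
          rw [Nat.testBit_eq_decide_div_mod_eq, ← Nat.shiftRight_eq_div_pow]; simp [hb']), a2]
        obtain ⟨m, rfl⟩ : ∃ m', m = m' + 1 := ⟨m - 1, by omega⟩
        simp only [Nat.add_sub_cancel, Nat.cast_add, Nat.cast_one]
        ring
      · rw [hm] at h; exact absurd h (by simp)
    · rw [hb] at h
      exact ih hl' h

theorem rots_zero (P c : ℕ) (l : List ℕ) : K.rots P 0 c l = l := rfl

theorem rots_succ (P k c : ℕ) (l : List ℕ) :
    K.rots P (k + 1) c l = c :: K.rots P k (K.rotN P c) l := rfl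

theorem rots_all {P : ℕ} {Q : ℕ → Prop} (hQ : ∀ c, Q c → Q (K.rotN P c)) (k : ℕ) {c : ℕ}
    (hc : Q c) {l : List ℕ} (hl : ∀ t ∈ l, Q t) : ∀ t ∈ K.rots P k c l, Q t := by
  induction k generalizing c with
  | zero => exact hl
  | succ k ih =>
    intro t ht
    rw [rots_succ, List.mem_cons] at ht
    rcases ht with rfl | ht
    · exact hc
    · exact ih (hQ c hc) t ht

theorem cands_eq (L : ℕ) (fl : Bool) (c : ℕ) : K.cands L fl c =
    K.rots (3 ^ (L - 1)) L c (K.rots (3 ^ (L - 1)) L (K.reflN L c)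
      (cond fl (K.rots (3 ^ (L - 1)) L (K.flipN L c)
        (K.rots (3 ^ (L - 1)) L (K.reflN L (K.flipN L c)) [])) [])) := rfl

theorem cands_all {L : ℕ} (hL : 1 ≤ L) {fl : Bool} (f : St L → ℤ) (hr : ∀ s, f (rotS s) = f s)
    (hf : ∀ s, f (refl s) = f s) (hfl : fl = true → ∀ s, f (flip s) = f s) {c : ℕ}
    (hc : c < 3 ^ L) : ∀ t ∈ K.cands L fl c, t < 3 ^ L ∧ f (dec L t) = f (dec L c) := by
  have hQ : ∀ u, (u < 3 ^ L ∧ f (dec L u) = f (dec L c)) →
      K.rotN (3 ^ (L - 1)) u < 3 ^ L ∧ f (dec L (K.rotN (3 ^ (L - 1)) u)) = f (dec L c) :=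
    fun u hu => ⟨rotN_lt hL hu.1, by rw [dec_rotN hL hu.1, hr, hu.2]⟩
  rw [cands_eq]
  refine rots_all hQ L ⟨hc, rfl⟩ (rots_all hQ L ⟨reflN_lt _ _, by rw [dec_reflN, hf]⟩ ?_)
  cases fl
  · simp
  · exact rots_all hQ L ⟨flipN_lt _ _, by rw [dec_flipN, hfl rfl]⟩
      (rots_all hQ L ⟨reflN_lt _ _, by rw [dec_reflN, hf, dec_flipN, hfl rfl]⟩ (by simp))

theorem orb_nil (L : ℕ) (fl : Bool) (p : ℕ → Bool) (acc : ℕ) :
    K.orb L fl p [] acc = Nat.beq acc (K.maskP p L 0) := rfl

theorem orb_cons (L : ℕ) (fl : Bool) (p : ℕ → Bool) (r : ℕ × ℕ) (rs : List (ℕ × ℕ)) (acc : ℕ) :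
    K.orb L fl p (r :: rs) acc =
      cond (Nat.blt r.1 (3 ^ L)) (K.mark (K.cands L fl r.1) (K.orb L fl p rs) acc r.2) false := rfl

theorem orb_sound {L : ℕ} (hL : 1 ≤ L) {fl : Bool} {p : ℕ → Bool} {rs : List (ℕ × ℕ)}
    (h : K.orb L fl p rs 0 = true) (f : St L → ℤ) (hr : ∀ s, f (rotS s) = f s)
    (hf : ∀ s, f (refl s) = f s) (hfl : fl = true → ∀ s, f (flip s) = f s) :
    ∑ s, (if p (dsum s) then f s else 0) = (rs.map fun r => (r.2 : ℤ) * f (dec L r.1)).sum := by
  have key : ∀ acc, K.orb L fl p rs acc = true →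
      mkd (3 ^ L) (fun t => f (dec L t)) (K.maskP p L 0) = mkd (3 ^ L) (fun t => f (dec L t)) acc +
        (rs.map fun r => (r.2 : ℤ) * f (dec L r.1)).sum := by
    clear h
    induction rs with
    | nil =>
      intro acc h
      rw [orb_nil] at h
      rw [Nat.eq_of_beq_eq_true h]
      simp
    | cons r rs ih =>
      intro acc h
      rw [orb_cons] at h
      rcases hb : Nat.blt r.1 (3 ^ L) with _ | _
      · rw [hb] at h; exact absurd h (by simp)
      · rw [hb] at h
        obtain ⟨acc', h1, h2⟩ := mark_sound (N := 3 ^ L) (F := fun t => f (dec L t)) _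
          (cands_all hL f hr hf hfl (Nat.blt_eq.mp hb)) h
        rw [ih acc' h1, h2, List.map_cons, List.sum_cons, add_assoc]
  have h0 : mkd (3 ^ L) (fun t => f (dec L t)) 0 = 0 := by simp [mkd]
  rw [← zero_add (List.sum _), ← h0, ← key 0 h, sum_dec, mkd]
  refine sum_congr rfl fun t ht => ?_
  rw [maskP_testBit, dsum_dec, zero_add]
  simp [mem_range.1 ht]

end Vale.Agent.P348
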