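import Vale.Agent.P348.TreeC

/-! Soundness of the packed power iteration. -/

namespace Vale.Agent.P348

open Finset

/-- packed values of the `k`-th power in the row `t` -/
def phi (n w : ℕ) (σ : ℤ) (rs : List (ℕ × ℕ)) (k : ℕ) (t : St (n + 4)) : ℤ :=
  pk w (fun c => (Mz (n + 4) σ ^ k) t (dec (n + 4) c)) rs 0

theorem phi_succ (n w : ℕ) (σ : ℤ) (rs : List (ℕ × ℕ)) (k : ℕ) (s : St (n + 4)) :
    phi n w σ rs (k + 1) s = ∑ t, Mz (n + 4) σ s t * phi n w σ rs k t := by
  unfold phi
  rw [← pk_sum]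
  simp only [pow_succ', Matrix.mul_apply]

/-- invariant of the loop -/
structure Inv (n S w : ℕ) (neg : Bool) (rs : List (ℕ × ℕ)) (k : ℕ) (v : K.Tri (K.Tn n))
    (C : ℕ) : Prop where
  dvd : 2 ^ (w * rs.length) ∣ C
  bd : neg = true → ∀ u, Wd u → 2 * evT (ev n) v u ≤ C
  rep : Rep S (2 ^ (w * rs.length)) (evT (ev n) v) (phi n w (if neg then -1 else 1) rs k)

section bounds

variable {E : (ℕ → ℕ) → ℕ} {C : ℕ} {u : ℕ → ℕ}

theorem hup_le (h : ∀ u, Wd u → 2 * E u ≤ C) (hu : Wd u) (i : ℕ) : 2 * hup E u i ≤ C := by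
  unfold hup
  split_ifs with c
  · exact h _ (hu.upw c)
  · omega

theorem hdn_le (h : ∀ u, Wd u → 2 * E u ≤ C) (hu : Wd u) (i : ℕ) : 2 * hdn E u i ≤ C := by
  unfold hdn
  split_ifs with c
  · exact h _ (hu.dnw i)
  · omega

theorem hop_le (h : ∀ u, Wd u → 2 * E u ≤ C) (hu : Wd u) (i : ℕ) : hop E u i ≤ C := by
  have h1 : 2 * (if u i ≤ 1 ∧ 1 ≤ u (i + 1) then E (dnw (upw u i) (i + 1)) else 0) ≤ C := by
    split_ifs with c
    · exact h _ ((hu.upw c.1).dnw _)
    · omega
  have h2 : 2 * (if 1 ≤ u i ∧ u (i + 1) ≤ 1 then E (upw (dnw u i) (i + 1)) else 0) ≤ C := by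
    split_ifs with c
    · exact h _ ((hu.dnw _).upw (by rw [dnw_ne _ (by omega)]; exact c.2))
    · omega
  unfold hop
  omega

end bounds

variable {n S w k C : ℕ} {neg fl : Bool} {rs : List (ℕ × ℕ)} {v : K.Tri (K.Tn n)}

theorem Inv.step (h : Inv n S w neg rs k v C) : Inv n S w neg rs (k + 1)
    (K.step (K.ops n (cond neg (K.baseN S C) (K.baseP S))) (K.dgT n S) v) (C * (4 * n + 18)) := by
  rw [K.step_eq, K.baseN_eq, K.baseP_eq]
  cases neg
  · have hs := fun u => (spec_ops (spec_baseP S) n).step (fun _ => rfl) (K.dgT n S) v (u := u)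
    refine ⟨h.dvd.mul_right _, fun e => absurd e (by simp), fun t u hu ha ht => ?_,
      fun u hu hv => ?_⟩
    · have := h.rep.mul 1 hu ha ht
      rw [cond_false, hs u hu, if_pos (ha.vld ht), phi_succ]
      refine (Int.ModEq.trans (by push_cast; ring_nf; rfl) this)
    · rw [cond_false, hs u hu, if_neg hv]
      rfl
  · have hs := fun u => (spec_ops (spec_baseN S C) n).step (fun _ => rfl) (K.dgT n S) v (u := u)
    have hb := h.bd rfl
    refine ⟨h.dvd.mul_right _, fun _ u hu => ?_, fun t u hu ha ht => ?_, fun u hu hv => ?_⟩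
    · rw [cond_true, hs u hu]
      have h1 := sum_le_card_nsmul (range (n + 2)) (fun i => hop (evT (ev n) v) u i) C
        fun i _ => hop_le hb hu i
      have h2 := hup_le hb hu (n + 2)
      have h3 := hdn_le hb hu (n + 2)
      have h4 := Nat.mul_le_mul (ev_dgT_le n S hu) (hb u hu)
      rw [card_range, smul_eq_mul] at h1
      split_ifs
      · refine le_trans (Nat.mul_le_mul_left _ ((Nat.sub_le _ _).trans (Nat.sub_le _ _))) ?_
        nlinarith
      · omega
    · have := h.rep.mul (-1) hu ha ht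
      have h2 := hup_le hb hu 0
      have h3 := hdn_le hb hu 0
      have hC : (C : ℤ) ≡ 0 [ZMOD 2 ^ (w * rs.length)] :=
        Int.modEq_zero_iff_dvd.2 (by exact_mod_cast h.dvd)
      rw [cond_true, hs u hu, if_pos (ha.vld ht), phi_succ]
      rw [Nat.cast_sub (by omega), Nat.cast_sub (by omega)]
      have := this.add hC
      rw [add_zero] at this
      refine (Int.ModEq.trans (by push_cast; ring_nf; rfl) this)
    · rw [cond_true, hs u hu, if_neg hv]
      rfl

theorem inSec_cons (L S : ℕ) (r : ℕ × ℕ) (rs : List (ℕ × ℕ)) :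
    K.inSec L S (r :: rs) = cond (Nat.beq (K.dsN r.1 L) S) (K.inSec L S rs) false := rfl

theorem inSec_sound {L S : ℕ} {rs : List (ℕ × ℕ)} (h : K.inSec L S rs = true) :
    ∀ r ∈ rs, K.dsN r.1 L = S := by
  induction rs with
  | nil => simp
  | cons q rs ih =>
    rw [inSec_cons] at h
    cases e : Nat.beq (K.dsN q.1 L) S
    · rw [e] at h; exact absurd h (by simp)
    · rw [e] at h
      intro r hr
      rcases List.mem_cons.1 hr with rfl | hr
      · exact Nat.eq_of_beq_eq_true e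
      · exact ih h r hr

theorem inv_init (hw : 1 ≤ w) (h : ∀ r ∈ rs, K.dsN r.1 (n + 4) = S) :
    Inv n S w neg rs 0 (K.init (n + 1) w rs 0) (2 <<< (w * rs.length)) := by
  rw [Nat.shiftLeft_eq]
  refine ⟨Dvd.intro_left _ rfl, fun _ u hu => ?_, fun t u hu ha ht => ?_, fun u hu hv => ?_⟩
  · have := ev_init_le (n + 1) hw rs 0 hu
    rw [zero_add] at this
    exact Nat.mul_le_mul_left _ (le_trans (Nat.le_add_right _ _) this)
  · have := ev_init (n + 1) w rs 0 hu
    refine Int.ModEq.trans (congrArg (· % _) (this.trans (pk_congr rs (fun r hr => ?_) 0))) rfl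
    rw [pow_zero, Matrix.one_apply]
    exact if_congr (ha.mt_iff (ht.trans (h r hr).symm)) rfl rfl
  · have := ev_init (n + 1) w rs 0 hu
    refine Int.ModEq.trans (congrArg (· % _) (this.trans
      ((pk_congr rs (fun r hr => if_neg fun hm => hv ?_) 0).trans (pk_zero w rs 0)))) rfl
    have ha : Ag u (dec (n + 4) r.1) := fun i hi => hm i hi
    exact ha.vld ((dsum_dec _ _).trans (h r hr))

theorem dsum_flip {L : ℕ} (s : St L) : dsum (flip s) + dsum s = 2 * L := by
  rw [dsum, dsum, ← sum_add_distrib]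
  have : ∀ j, (flip s j).val + (s j).val = 2 := fun j => by
    have h2 : (flip s j).val = 3 - ((s j).val + 1) := Fin.val_rev _
    have := (s j).2
    omega
  simp only [this, sum_const, card_univ, Fintype.card_fin, smul_eq_mul, mul_comm]

theorem Inv.extr (h : Inv n S w neg rs k v C) (hw : 1 ≤ w) (hk : (3 * (n + 4)) ^ k < 2 ^ (w - 1))
    (tr : ℕ → ℕ) (ht : ∀ r ∈ rs, dsum (dec (n + 4) (tr r.1)) = S) {a : ℤ}
    (hc : K.chk w (K.tot rs) (K.extr (n + 1) w (K.offs w rs) v tr rs 0) a = true) :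
    (rs.map fun r => (r.2 : ℤ) * (Mz (n + 4) (if neg then -1 else 1) ^ k)
      (dec (n + 4) (tr r.1)) (dec (n + 4) r.1)).sum = a := by
  have h1 := extr_eq (n := n + 1) hw v tr rs
    (fun a c => (Mz (n + 4) (if neg then -1 else 1) ^ k) (dec (n + 4) (tr a)) (dec (n + 4) c))
    (fun a c => lt_of_le_of_lt (Mz_pow_bound (by cases neg <;> simp) k _ _) (by exact_mod_cast hk))
    (fun r hr => Int.ModEq.trans (congrArg (fun x : ℕ => (x : ℤ) % _) (get_eq (n + 1) v (tr r.1)))
      (h.rep.inn _ _ (dig_lt _) (ag_dec _) (ht r hr)))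
  have h2 := of_decide_eq_true hc
  rw [h1] at h2
  exact add_right_cancel h2

theorem run_cons (n S w : ℕ) (neg fl : Bool) (rs : List (ℕ × ℕ)) (e : ℤ × ℤ) (ex : List (ℤ × ℤ))
    (v : K.Tri (K.Tn n)) (C : ℕ) : K.run n S w neg fl rs (e :: ex) v C =
      cond (K.chk w (K.tot rs) (K.extr (n + 1) w (K.offs w rs) v (fun c => c) rs 0) e.1)
        (cond (cond fl (K.chk w (K.tot rs)
            (K.extr (n + 1) w (K.offs w rs) v (K.flipN (n + 4)) rs 0) e.2) true)
          (K.run n S w neg fl rs ex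
            (K.step (K.ops n (cond neg (K.baseN S C) (K.baseP S))) (K.dgT n S) v)
            (C * (4 * n + 18))) false) false := rfl

theorem cond_false_eq {a b : Bool} (h : cond a b false = true) : a = true ∧ b = true := by
  cases a
  · exact absurd h (by simp)
  · exact ⟨rfl, h⟩

theorem run_sound (hw : 1 ≤ w) (hs : ∀ r ∈ rs, K.dsN r.1 (n + 4) = S) (hfl : fl = true → S = n + 4)
    (ex : List (ℤ × ℤ)) (h : Inv n S w neg rs k v C) (hr : K.run n S w neg fl rs ex v C = true)
    (j : ℕ) (hj : j < ex.length) (hk : (3 * (n + 4)) ^ (k + j) < 2 ^ (w - 1)) :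
    (rs.map fun r => (r.2 : ℤ) * (Mz (n + 4) (if neg then -1 else 1) ^ (k + j))
        (dec (n + 4) r.1) (dec (n + 4) r.1)).sum = (ex.getD j 0).1 ∧
    (fl = true → (rs.map fun r => (r.2 : ℤ) * (Mz (n + 4) (if neg then -1 else 1) ^ (k + j))
        (flip (dec (n + 4) r.1)) (dec (n + 4) r.1)).sum = (ex.getD j 0).2) := by
  induction ex generalizing k v C j with
  | nil => exact absurd hj (by simp)
  | cons e ex ih =>
    rw [run_cons] at hr
    obtain ⟨c1, c2⟩ := cond_false_eq hr
    obtain ⟨c2, c3⟩ := cond_false_eq c2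
    rcases j with _ | j
    · refine ⟨h.extr hw hk (fun c => c) (fun r hr => (dsum_dec _ _).trans (hs r hr)) c1,
        fun hf => ?_⟩
      rw [hf, cond_true] at c2
      have := h.extr hw hk (K.flipN (n + 4)) (fun r hr => by
        have e1 := dsum_flip (dec (n + 4) r.1)
        have e2 := (dsum_dec _ _).trans (hs r hr)
        have e3 := hfl hf
        rw [dec_flipN]
        omega) c2
      simp only [dec_flipN] at this
      exact this
    · have e : k + (j + 1) = k + 1 + j := by omega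
      rw [e] at hk ⊢
      exact ih h.step c3 j (by simpa using hj) hk

theorem pass_sound {n S w : ℕ} {neg fl : Bool} {rs : List (ℕ × ℕ)} {ex : List (ℤ × ℤ)}
    (h : K.pass n S w neg fl rs ex = true) (hfl : fl = true → S = n + 4) (k : ℕ)
    (hk : k < ex.length) :
    (rs.map fun r => (r.2 : ℤ) * (Mz (n + 4) (if neg then -1 else 1) ^ k)
        (dec (n + 4) r.1) (dec (n + 4) r.1)).sum = (ex.getD k 0).1 ∧
    (fl = true → (rs.map fun r => (r.2 : ℤ) * (Mz (n + 4) (if neg then -1 else 1) ^ k)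
        (flip (dec (n + 4) r.1)) (dec (n + 4) r.1)).sum = (ex.getD k 0).2) := by
  obtain ⟨c1, c2⟩ := cond_false_eq h
  obtain ⟨c2, c3⟩ := cond_false_eq c2
  have h1 : (3 * (n + 4)) ^ (ex.length - 1) < 2 ^ (w - 1) := Nat.blt_eq.mp c1
  have h2 : (3 * (n + 4)) ^ (0 + k) < 2 ^ (w - 1) :=
    lt_of_le_of_lt (Nat.pow_le_pow_right (by omega) (by omega)) h1
  have hw : 1 ≤ w := by
    by_contra hw
    have : 0 < (3 * (n + 4)) ^ (0 + k) := by positivity
    rw [show w - 1 = 0 by omega] at h2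
    omega
  have hs := inSec_sound c2
  have := run_sound hw hs hfl ex (inv_init hw hs) c3 k hk h2
  rwa [zero_add] at this

end Vale.Agent.P348
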