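import Vale.Agent.P348.Link
import Vale.Agent.P348.Orbit
import Vale.Agent.P348.Tree
import Vale.Agent.P348.ChunkDefs

/-! From certified chunks to bounds on the normalised sector traces. -/

namespace Vale.Agent.P348

open K

theorem flip_rotS {L : ℕ} (s : St L) : flip (rotS s) = rotS (flip s) := rfl

theorem flip_refl {L : ℕ} (s : St L) : flip (refl s) = refl (flip s) := rfl

theorem eta_flip {n : ℕ} (σ : ℤ) (s : St (n + 1)) : eta σ (flip s 0) = eta σ (s 0) := by
  simp only [flip]
  generalize s 0 = a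
  fin_cases a <;> simp [eta, Fin.rev]

theorem chunks_sum {n : ℕ} {neg fl : Bool} (a e : ℤ) (he : fl = false → e = 0) (k : ℕ) :
    ∀ cs : List Ch, AllOk n neg fl cs → (∀ c ∈ cs, k < c.ex.length) →
      (fl = true → ∀ c ∈ cs, c.S = n + 4) →
      ((allR cs).map fun r => (r.2 : ℤ) *
        (a * (Mz (n + 4) (if neg then -1 else 1) ^ k) (dec (n + 4) r.1) (dec (n + 4) r.1) +
          e * (Mz (n + 4) (if neg then -1 else 1) ^ k) (flip (dec (n + 4) r.1))
            (dec (n + 4) r.1))).sum = sumE a e k cs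
  | [], _, _, _ => by simp [allR, sumE]
  | c :: cs, h, hk, hS => by
    obtain ⟨h1, h2⟩ := h
    have ih := chunks_sum a e he k cs h2 (fun c hc => hk c (List.mem_cons_of_mem _ hc))
      (fun hf c hc => hS hf c (List.mem_cons_of_mem _ hc))
    obtain ⟨p1, p2⟩ := pass_sound h1 (fun hf => hS hf c List.mem_cons_self) k
      (hk c List.mem_cons_self)
    rw [allR, List.map_append, List.sum_append, ih, sumE]
    congr 1
    have e0 : ((0, 0) : ℤ × ℤ) = 0 := rfl
    rw [e0, ← p1]
    cases fl with
    | false =>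
      rw [he rfl]
      simp only [zero_mul, add_zero, ← List.sum_map_mul_left]
      congr 1
      refine List.map_congr_left fun r _ => ?_
      ring
    | true =>
      rw [← p2 rfl]
      simp only [← List.sum_map_mul_left, ← List.sum_map_add]
      congr 1
      refine List.map_congr_left fun r _ => ?_
      ring

theorem chunks_mom {n : ℕ} {neg fl : Bool} (a e : ℤ) (he : fl = false → e = 0) {K : ℕ}
    {cs : List Ch} (hok : AllOk n neg fl cs) (hl : lenOk K cs = true)
    (hS : fl = true → secOk (n + 4) cs = true) {p : ℕ → Bool}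
    (ho : orb (n + 4) fl p (allR cs) 0 = true) (k : ℕ) (hk : k < (muL a e K cs).length) :
    ∑ s, (if p (dsum s) then a * (Mz (n + 4) (if neg then -1 else 1) ^ k) s s +
      e * (Mz (n + 4) (if neg then -1 else 1) ^ k) (flip s) s else 0) = (muL a e K cs).getD k 0 := by
  have hσ : (if neg then -1 else 1 : ℤ) = 1 ∨ (if neg then -1 else 1 : ℤ) = -1 := by
    cases neg <;> simp
  have hkK : k < K := by simpa [muL] using hk
  have e1 : (muL a e K cs).getD k 0 = sumE a e k cs := by
    simp [muL, List.getD_eq_getElem?_getD, hkK]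
  rw [e1, orb_sound (by omega) ho (fun s => a * (Mz (n + 4) (if neg then -1 else 1) ^ k) s s +
      e * (Mz (n + 4) (if neg then -1 else 1) ^ k) (flip s) s)]
  · refine chunks_sum a e he k cs hok (fun c hc => ?_) (fun hf c hc => ?_)
    · have := List.all_eq_true.1 hl c hc
      have := of_decide_eq_true this
      omega
    · exact of_decide_eq_true (List.all_eq_true.1 (hS hf) c hc)
  · intro s
    have r1 := Mz_pow_rot (n := n + 1) hσ k s s
    have r2 := Mz_pow_rot (n := n + 1) hσ k (flip s) s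
    rw [eta_sq hσ, one_mul] at r1
    rw [eta_flip, eta_sq hσ, one_mul] at r2
    simp only [flip_rotS]
    rw [r1, r2]
  · intro s
    have r1 := Mz_pow_refl (n := n + 1) (if neg then -1 else 1) k s s
    have r2 := Mz_pow_refl (n := n + 1) (if neg then -1 else 1) k (flip s) s
    simp only [flip_refl]
    rw [r1, r2]
  · intro _ s
    rw [Mz_pow_flip, Mz_pow_flip]

/-- the light checks for a union of sectors -/
noncomputable def finP (L K : ℕ) (p : ℕ → Bool) (cs : List Ch) (c : Q.Cert) (lo hi : ℕ) : Bool :=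
  lenOk K cs && orb L false p (allR cs) 0 && Q.check L (muL 2 0 K cs) c lo hi

/-- the light checks for the two flip sectors -/
noncomputable def finF (L K : ℕ) (cs : List Ch) (c : Q.Cert) (lo hi : ℕ) (c' : Q.Cert)
    (lo' hi' : ℕ) : Bool :=
  lenOk K cs && secOk L cs && orb L true (fun m => m == L) (allR cs) 0 &&
    Q.check L (muL 1 1 K cs) c lo hi && Q.check L (muL 1 (-1) K cs) c' lo' hi'

/-- membership in an interval with endpoints in units of `10⁻⁸` -/
def In8 (x : ℝ) (lo hi : ℕ) : Prop := (lo : ℝ) / 10 ^ 8 ≤ x ∧ x ≤ (hi : ℝ) / 10 ^ 8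

theorem zzP {n : ℕ} {neg : Bool} {K : ℕ} {p : ℕ → Bool} {cs : List Ch} {c : Q.Cert} {lo hi : ℕ}
    (hok : AllOk n neg false cs) (h : finP (n + 4) K p cs c lo hi = true) :
    In8 (zz (n + 4) (if neg then -1 else 1) (Pi (n + 4) p)) lo hi := by
  simp only [finP, Bool.and_eq_true] at h
  obtain ⟨⟨h1, h2⟩, h3⟩ := h
  refine zz_Pi_bound (by omega) _ p _ (fun k hk => ?_) c lo hi h3
  rw [← chunks_mom 2 0 (fun _ => rfl) hok h1 (fun h => by cases h) h2 k hk, Finset.mul_sum]
  refine Finset.sum_congr rfl fun s _ => ?_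
  split_ifs <;> simp

theorem zzF {n : ℕ} {neg : Bool} {K : ℕ} {cs : List Ch} {c c' : Q.Cert} {lo hi lo' hi' : ℕ}
    (hok : AllOk n neg true cs) (h : finF (n + 4) K cs c lo hi c' lo' hi' = true) :
    In8 (zz (n + 4) (if neg then -1 else 1) (Pf (n + 4) 1)) lo hi ∧
    In8 (zz (n + 4) (if neg then -1 else 1) (Pf (n + 4) (-1))) lo' hi' := by
  simp only [finF, Bool.and_eq_true] at h
  obtain ⟨⟨⟨⟨h1, h0⟩, h2⟩, h3⟩, h4⟩ := h
  constructor
  · refine zz_Pf_bound (by omega) _ (Or.inl rfl) _ (fun k hk => ?_) c lo hi h3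
    rw [← chunks_mom 1 1 (fun h => by cases h) hok h1 (fun _ => h0) h2 k hk]
    refine Finset.sum_congr rfl fun s _ => ?_
    simp
  · refine zz_Pf_bound (by omega) _ (Or.inr rfl) _ (fun k hk => ?_) c' lo' hi' h4
    rw [← chunks_mom 1 (-1) (fun h => by cases h) hok h1 (fun _ => h0) h2 k hk]
    refine Finset.sum_congr rfl fun s _ => ?_
    simp

end Vale.Agent.P348
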