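/-! Kernel-efficient evaluation of powers of the ring Hamiltonian on packed vectors (core only). -/

namespace Vale.Agent.P348.K

structure Tri (α : Type) where
  a : α
  b : α
  c : α

structure Non where
  f0 : Nat
  f1 : Nat
  f2 : Nat
  f3 : Nat
  f4 : Nat
  f5 : Nat
  f6 : Nat
  f7 : Nat
  f8 : Nat

structure Ops (α : Type) where
  add : α → α → α
  bnd : α → α → α
  fu : α → α → α
  fd : α → α → α
  h : α → α → α
  mask : Nat → α → α

def lift0 {α : Type} (o : Ops α) : Ops (Tri α) where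
  add x y := ⟨o.add x.1 y.1, o.add x.2 y.2, o.add x.3 y.3⟩
  bnd x y := ⟨o.bnd x.1 y.1, o.bnd x.2 y.2, o.bnd x.3 y.3⟩
  fu x u := ⟨x.1, o.add x.2 u.1, o.add x.3 u.2⟩
  fd x u := ⟨o.add x.1 u.2, o.add x.2 u.3, x.3⟩
  h x v := ⟨o.fu (o.h x.1 v.1) v.2, o.fd (o.fu (o.h x.2 v.2) v.3) v.1, o.fd (o.h x.3 v.3) v.2⟩
  mask r x := ⟨o.mask r x.1, o.mask (Nat.succ r) x.2, o.mask (Nat.succ (Nat.succ r)) x.3⟩

def lift : {α : Type} → Ops α → Ops (Tri α) := by
  apply (fun (f : {α : Type} → Ops α → Ops (Tri α)) (_ : @f = @lift0) => @f)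
  delta lift0 Tri.a Tri.b Tri.c Ops.add Ops.bnd Ops.fu Ops.fd Ops.h Ops.mask
  rfl

theorem lift_eq : @lift = @lift0 := rfl

noncomputable def msk (S r : Nat) (x : Non) : Non :=
  Nat.rec (motive := fun _ => Non) ⟨0, 0, 0, 0, 0, 0, 0, 0, 0⟩ (fun r _ =>
  Nat.rec (motive := fun _ => Non) ⟨0, 0, 0, 0, 0, 0, 0, 0, x.9⟩ (fun r _ =>
  Nat.rec (motive := fun _ => Non) ⟨0, 0, 0, 0, 0, x.6, 0, x.8, x.9⟩ (fun r _ =>
  Nat.rec (motive := fun _ => Non) ⟨0, 0, x.3, 0, x.5, x.6, x.7, x.8, x.9⟩ (fun r _ =>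
  Nat.rec (motive := fun _ => Non) ⟨0, x.2, x.3, x.4, x.5, x.6, x.7, x.8, 0⟩ (fun r _ =>
  Nat.rec (motive := fun _ => Non) ⟨x.1, x.2, x.3, x.4, x.5, 0, x.7, 0, 0⟩ (fun r _ =>
  Nat.rec (motive := fun _ => Non) ⟨x.1, x.2, 0, x.4, 0, 0, 0, 0, 0⟩ (fun r _ =>
  Nat.rec (motive := fun _ => Non) ⟨x.1, 0, 0, 0, 0, 0, 0, 0, 0⟩
    (fun _ _ => ⟨0, 0, 0, 0, 0, 0, 0, 0, 0⟩) r) r) r) r) r) r) r) (Nat.sub r S)

def addN (x y : Non) : Non :=
  ⟨x.1.add y.1, x.2.add y.2, x.3.add y.3, x.4.add y.4, x.5.add y.5, x.6.add y.6, x.7.add y.7,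
    x.8.add y.8, x.9.add y.9⟩

def subN (x y : Non) : Non :=
  ⟨x.1.sub y.1, x.2.sub y.2, x.3.sub y.3, x.4.sub y.4, x.5.sub y.5, x.6.sub y.6, x.7.sub y.7,
    x.8.sub y.8, x.9.sub y.9⟩

def fuN (x u : Non) : Non :=
  ⟨x.1, x.2, x.3, x.4.add u.1, x.5.add u.2, x.6.add u.3, x.7.add u.4, x.8.add u.5, x.9.add u.6⟩

def fdN (x u : Non) : Non :=
  ⟨x.1.add u.4, x.2.add u.5, x.3.add u.6, x.4.add u.7, x.5.add u.8, x.6.add u.9, x.7, x.8, x.9⟩

def hN (d v : Non) : Non :=
  ⟨(d.1.mul v.1).add v.2, (((d.2.mul v.2).add v.4).add v.1).add v.3, ((d.3.mul v.3).add v.5).add v.2,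
    ((d.4.mul v.4).add v.2).add v.5, ((((d.5.mul v.5).add v.7).add v.3).add v.4).add v.6,
    ((d.6.mul v.6).add v.8).add v.5,
    ((d.7.mul v.7).add v.5).add v.8, (((d.8.mul v.8).add v.6).add v.7).add v.9, (d.9.mul v.9).add v.8⟩

def hC (C : Nat) (d v : Non) : Non :=
  ⟨((d.1.mul v.1).add C).add v.2, ((((d.2.mul v.2).add C).add v.4).add v.1).add v.3,
    (((d.3.mul v.3).add C).add v.5).add v.2, (((d.4.mul v.4).add C).add v.2).add v.5,
    (((((d.5.mul v.5).add C).add v.7).add v.3).add v.4).add v.6,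
    (((d.6.mul v.6).add C).add v.8).add v.5, (((d.7.mul v.7).add C).add v.5).add v.8,
    ((((d.8.mul v.8).add C).add v.6).add v.7).add v.9, ((d.9.mul v.9).add C).add v.8⟩

noncomputable def baseP0 (S : Nat) : Ops Non := ⟨addN, addN, fuN, fdN, hN, msk S⟩

noncomputable def baseN0 (S C : Nat) : Ops Non := ⟨addN, subN, fuN, fdN, hC C, msk S⟩

noncomputable def baseP : Nat → Ops Non := by
  apply (fun f (_ : f = baseP0) => f)
  delta baseP0 msk addN fuN fdN hN Non.f0 Non.f1 Non.f2 Non.f3 Non.f4 Non.f5 Non.f6 Non.f7 Non.f8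
  rfl

noncomputable def baseN : Nat → Nat → Ops Non := by
  apply (fun f (_ : f = baseN0) => f)
  delta baseN0 msk addN subN fuN fdN hC Non.f0 Non.f1 Non.f2 Non.f3 Non.f4 Non.f5 Non.f6 Non.f7 Non.f8
  rfl

theorem baseP_eq : baseP = baseP0 := rfl
theorem baseN_eq : baseN = baseN0 := rfl

def Tn (n : Nat) : Type := Nat.rec (motive := fun _ => Type) Non (fun _ X => Tri X) n

noncomputable def ops (n : Nat) (b : Ops Non) : Ops (Tn n) :=
  Nat.rec (motive := fun n => Ops (Tn n)) b (fun _ o => lift o) n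

def step0 {α : Type} (o : Ops α) (d v : Tri α) : Tri α :=
  ⟨o.mask 7 (o.bnd (o.fu (o.h d.1 v.1) v.2) v.2),
    o.mask 8 (o.bnd (o.bnd (o.fd (o.fu (o.h d.2 v.2) v.3) v.1) v.3) v.1),
    o.mask 9 (o.bnd (o.fd (o.h d.3 v.3) v.2) v.2)⟩

def step : {α : Type} → Ops α → Tri α → Tri α → Tri α := by
  apply (fun (f : {α : Type} → Ops α → Tri α → Tri α → Tri α) (_ : @f = @step0) => @f)
  delta step0 Tri.a Tri.b Tri.c Ops.bnd Ops.fu Ops.fd Ops.h Ops.mask
  rfl

theorem step_eq : @step = @step0 := rfl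

def wt (a b : Nat) : Nat :=
  cond (Nat.beq a 1) 1 (cond (Nat.beq b 1) 1 (cond (Nat.beq a b) 0 2))

def dd (p f a r x y : Nat) : Nat :=
  (((a.add (wt p x)).add (wt x y)).add (wt y ((r.sub x).sub y))).add (wt ((r.sub x).sub y) f)

noncomputable def dg (n : Nat) : Nat → Nat → Nat → Nat → Tn n :=
  Nat.rec (motive := fun n => Nat → Nat → Nat → Nat → Tn n)
    (fun p f a r => (⟨dd p f a r 0 0, dd p f a r 0 1, dd p f a r 0 2, dd p f a r 1 0, dd p f a r 1 1,
      dd p f a r 1 2, dd p f a r 2 0, dd p f a r 2 1, dd p f a r 2 2⟩ : Non))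
    (fun _ g p f a r => (⟨g 0 f (a.add (wt p 0)) r, g 1 f (a.add (wt p 1)) (r.sub 1),
      g 2 f (a.add (wt p 2)) (r.sub 2)⟩ : Tri _)) n

noncomputable def dgT (n S : Nat) : Tri (Tn n) :=
  ⟨dg n 0 0 0 S, dg n 1 1 0 (S.sub 1), dg n 2 2 0 (S.sub 2)⟩

noncomputable def zero (n : Nat) : Tn n :=
  Nat.rec (motive := fun n => Tn n) (⟨0, 0, 0, 0, 0, 0, 0, 0, 0⟩ : Non)
    (fun _ r => (⟨r, r, r⟩ : Tri _)) n

def sel {α : Type} (d : Nat) (x y z : α) : α := cond (Nat.beq d 0) x (cond (Nat.beq d 1) y z)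

noncomputable def get (n : Nat) : Tn n → Nat → Nat :=
  Nat.rec (motive := fun n => Tn n → Nat → Nat)
    (fun (x : Non) c => sel (c.mod 3) (sel ((c.div 3).mod 3) x.1 x.2 x.3)
      (sel ((c.div 3).mod 3) x.4 x.5 x.6) (sel ((c.div 3).mod 3) x.7 x.8 x.9))
    (fun _ g (x : Tri _) c => g (sel (c.mod 3) x.1 x.2 x.3) (c.div 3)) n

noncomputable def ins (n : Nat) : Tn n → Nat → Nat → Tn n :=
  Nat.rec (motive := fun n => Tn n → Nat → Nat → Tn n)
    (fun (x : Non) c v => sel (c.mod 3)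
      (sel ((c.div 3).mod 3) ({ x with f0 := x.1.add v } : Non) { x with f1 := x.2.add v }
        { x with f2 := x.3.add v })
      (sel ((c.div 3).mod 3) ({ x with f3 := x.4.add v } : Non) { x with f4 := x.5.add v }
        { x with f5 := x.6.add v })
      (sel ((c.div 3).mod 3) ({ x with f6 := x.7.add v } : Non) { x with f7 := x.8.add v }
        { x with f8 := x.9.add v }))
    (fun _ g (x : Tri _) c v => sel (c.mod 3) (⟨g x.1 (c.div 3) v, x.2, x.3⟩ : Tri _)
      ⟨x.1, g x.2 (c.div 3) v, x.3⟩ ⟨x.1, x.2, g x.3 (c.div 3) v⟩) n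

/-- start vector: slot `j` carries the basis state of the `j`-th representative -/
noncomputable def init (n w : Nat) (rs : List (Nat × Nat)) : Nat → Tn n :=
  List.rec (motive := fun _ => Nat → Tn n) (fun _ => zero n)
    (fun r _ g sh => ins n (g (sh.add w)) r.1 (Nat.shiftLeft 1 sh)) rs

/-- offsets making all slots nonnegative -/
noncomputable def offs (w : Nat) (rs : List (Nat × Nat)) : Nat :=
  List.rec (motive := fun _ => Nat) 0 (fun _ _ g => (Nat.pow 2 (w.sub 1)).add (g.shiftLeft w)) rs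

/-- weighted sum of the diagonal slots -/
noncomputable def extr (n w off : Nat) (v : Tn n) (tr : Nat → Nat) (rs : List (Nat × Nat)) :
    Nat → Nat :=
  List.rec (motive := fun _ => Nat → Nat) (fun _ => 0)
    (fun r _ g sh => (r.2.mul ((((get n v (tr r.1)).add off).shiftRight sh).mod (Nat.pow 2 w))).add
      (g (sh.add w))) rs

noncomputable def tot (rs : List (Nat × Nat)) : Nat :=
  List.rec (motive := fun _ => Nat) 0 (fun r _ g => r.2.add g) rs

/-- the number `∑ g j * 3 ^ j` -/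
noncomputable def mkc (g : Nat → Nat) (L : Nat) : Nat :=
  Nat.rec (motive := fun _ => Nat) 0 (fun j r => r.add ((g j).mul (Nat.pow 3 j))) L

def dig (c j : Nat) : Nat := (c.div (Nat.pow 3 j)).mod 3

noncomputable def dsN (c L : Nat) : Nat :=
  Nat.rec (motive := fun _ => Nat) 0 (fun j r => r.add (dig c j)) L

noncomputable def flipN (L c : Nat) : Nat := mkc (fun j => Nat.sub 2 (dig c j)) L

noncomputable def reflN (L c : Nat) : Nat := mkc (fun j => dig c ((L.sub 1).sub j)) L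

def rotN (P c : Nat) : Nat := (c.div 3).add ((c.mod 3).mul P)

def chk (w off A : Nat) (a : Int) : Bool := decide ((A : Int) = a + (off : Int) * 2 ^ (w - 1))

/-- the loop over powers; `ex` lists the expected diagonal and flipped sums -/
noncomputable def run (n S w : Nat) (neg fl : Bool) (rs : List (Nat × Nat))
    (ex : List (Int × Int)) : Tri (Tn n) → Nat → Bool :=
  List.rec (motive := fun _ => Tri (Tn n) → Nat → Bool) (fun _ _ => true)
    (fun e _ g v C =>
      cond (chk w (tot rs) (extr (n + 1) w (offs w rs) v (fun c => c) rs 0) e.1)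
        (cond (cond fl (chk w (tot rs) (extr (n + 1) w (offs w rs) v (flipN (n + 4)) rs 0) e.2) true)
          (g (step (ops n (cond neg (baseN S C) (baseP S))) (dgT n S) v) (C.mul (4 * n + 18)))
          false)
        false) ex

noncomputable def inSec (L S : Nat) (rs : List (Nat × Nat)) : Bool :=
  List.rec (motive := fun _ => Bool) true (fun r _ g => cond (Nat.beq (dsN r.1 L) S) g false) rs

/-- one pass -/
noncomputable def pass (n S w : Nat) (neg fl : Bool) (rs : List (Nat × Nat))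
    (ex : List (Int × Int)) : Bool :=
  cond (Nat.blt (Nat.pow (3 * (n + 4)) (ex.length - 1)) (Nat.pow 2 (w.sub 1)))
    (cond (inSec (n + 4) S rs)
      (run n S w neg fl rs ex (init (n + 1) w rs 0) (Nat.shiftLeft 2 (w.mul rs.length))) false)
    false

/-! orbit enumeration -/

noncomputable def rots (P : Nat) (k : Nat) : Nat → List Nat → List Nat :=
  Nat.rec (motive := fun _ => Nat → List Nat → List Nat) (fun _ l => l)
    (fun _ g c l => c :: g (rotN P c) l) k

noncomputable def cands (L : Nat) (fl : Bool) (c : Nat) : List Nat :=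
  rots (Nat.pow 3 (L.sub 1)) L c (rots (Nat.pow 3 (L.sub 1)) L (reflN L c)
    (cond fl (rots (Nat.pow 3 (L.sub 1)) L (flipN L c)
      (rots (Nat.pow 3 (L.sub 1)) L (reflN L (flipN L c)) [])) []))

/-- mark the candidates; continue with the new mask when the count is as announced -/
noncomputable def mark (l : List Nat) (k : Nat → Bool) : Nat → Nat → Bool :=
  List.rec (motive := fun _ => Nat → Nat → Bool) (fun acc m => cond (Nat.beq m 0) (k acc) false)
    (fun t _ g acc m => cond (Nat.beq ((acc.shiftRight t).mod 2) 1) (g acc m)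
      (cond (Nat.beq m 0) false (g (acc.lor (Nat.shiftLeft 1 t)) (m.sub 1)))) l

noncomputable def maskP (p : Nat → Bool) (n : Nat) : Nat → Nat :=
  Nat.rec (motive := fun _ => Nat → Nat) (fun r => cond (p r) 1 0)
    (fun j g r => ((g r).lor ((g r.succ).shiftLeft (Nat.pow 3 j))).lor
      ((g r.succ.succ).shiftLeft (Nat.mul 2 (Nat.pow 3 j)))) n

noncomputable def orb (L : Nat) (fl : Bool) (p : Nat → Bool) (rs : List (Nat × Nat)) : Nat → Bool :=
  List.rec (motive := fun _ => Nat → Bool) (fun acc => Nat.beq acc (maskP p L 0))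
    (fun r _ g acc => cond (Nat.blt r.1 (Nat.pow 3 L)) (mark (cands L fl r.1) g acc r.2) false) rs

end Vale.Agent.P348.K
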