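import Vale.Agent.P348.Mz
import Vale.Agent.P348.TreeDefs

/-! Decoding of base-three codes into basis states. -/

namespace Vale.Agent.P348

/-- the basis state whose letter at site `j` is the `j`-th base-three digit of `c` -/
def dec (L c : ℕ) : St L := fun j => ⟨K.dig c j, Nat.mod_lt _ (by decide)⟩

theorem dig_eq (c j : ℕ) : K.dig c j = c / 3 ^ j % 3 := rfl

theorem dig_lt (c j : ℕ) : K.dig c j < 3 := Nat.mod_lt _ (by decide)

theorem dsN_zero (c : ℕ) : K.dsN c 0 = 0 := rfl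

theorem dsN_succ (c j : ℕ) : K.dsN c (j + 1) = K.dsN c j + K.dig c j := rfl

theorem mkc_zero (g : ℕ → ℕ) : K.mkc g 0 = 0 := rfl

theorem mkc_succ (g : ℕ → ℕ) (j : ℕ) : K.mkc g (j + 1) = K.mkc g j + g j * 3 ^ j := rfl

theorem dig_add_low {t a n j : ℕ} (hj : j < n) : K.dig (t + a * 3 ^ n) j = K.dig t j := by
  obtain ⟨k, rfl⟩ := Nat.exists_eq_add_of_lt hj
  rw [dig_eq, dig_eq, show a * 3 ^ (j + k + 1) = a * 3 ^ k * 3 * 3 ^ j by ring,
    Nat.add_mul_div_right _ _ (by positivity), Nat.add_mul_mod_self_right]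

theorem dig_add_top {t a n : ℕ} (ht : t < 3 ^ n) (ha : a < 3) : K.dig (t + a * 3 ^ n) n = a := by
  rw [dig_eq, Nat.add_mul_div_right _ _ (by positivity), Nat.div_eq_of_lt ht, zero_add,
    Nat.mod_eq_of_lt ha]

theorem mkc_lt {g : ℕ → ℕ} (hg : ∀ j, g j < 3) (L : ℕ) : K.mkc g L < 3 ^ L := by
  induction L with
  | zero => simp [mkc_zero]
  | succ L ih =>
    have := Nat.mul_le_mul_right (3 ^ L) (show g L ≤ 2 by have := hg L; omega)
    rw [mkc_succ, pow_succ]
    omega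

theorem dig_mkc {g : ℕ → ℕ} (hg : ∀ j, g j < 3) {L j : ℕ} (hj : j < L) :
    K.dig (K.mkc g L) j = g j := by
  induction L with
  | zero => omega
  | succ L ih =>
    rw [mkc_succ]
    rcases Nat.lt_succ_iff_lt_or_eq.mp hj with h | rfl
    · rw [dig_add_low h, ih h]
    · exact dig_add_top (mkc_lt hg _) (hg _)

theorem dsum_dec (L c : ℕ) : dsum (dec L c) = K.dsN c L := by
  have : ∀ L, ∑ j ∈ Finset.range L, K.dig c j = K.dsN c L := by
    intro L
    induction L with
    | zero => rfl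
    | succ L ih => rw [Finset.sum_range_succ, ih, dsN_succ]
  rw [← this, dsum, Finset.sum_range]
  rfl

theorem flipN_lt (L c : ℕ) : K.flipN L c < 3 ^ L :=
  mkc_lt (g := fun j => 2 - K.dig c j) (fun j => by omega) L

theorem reflN_lt (L c : ℕ) : K.reflN L c < 3 ^ L :=
  mkc_lt (g := fun j => K.dig c (L - 1 - j)) (fun _ => dig_lt _ _) L

theorem dec_flipN (L c : ℕ) : dec L (K.flipN L c) = flip (dec L c) := by
  funext j
  apply Fin.ext
  have h := dig_mkc (g := fun j => 2 - K.dig c j) (fun j => by omega) j.2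
  have h2 : (flip (dec L c) j).val = 3 - (K.dig c j + 1) := Fin.val_rev _
  rw [h2]
  exact h.trans (by omega)

theorem dec_reflN (L c : ℕ) : dec L (K.reflN L c) = refl (dec L c) := by
  funext j
  apply Fin.ext
  have h := dig_mkc (g := fun j => K.dig c (L - 1 - j)) (fun _ => dig_lt _ _) j.2
  have h2 : (refl (dec L c) j).val = K.dig c (L - (j + 1)) := rfl
  rw [h2]
  exact h.trans (congrArg _ (by omega))

theorem rotN_eq (P c : ℕ) : K.rotN P c = c / 3 + c % 3 * P := rfl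

theorem rotN_lt {L c : ℕ} (hL : 1 ≤ L) (hc : c < 3 ^ L) : K.rotN (3 ^ (L - 1)) c < 3 ^ L := by
  obtain ⟨n, rfl⟩ : ∃ n, L = n + 1 := ⟨L - 1, by omega⟩
  have := Nat.mul_le_mul_right (3 ^ n) (show c % 3 ≤ 2 by omega)
  rw [rotN_eq, Nat.add_sub_cancel]
  rw [pow_succ] at hc ⊢
  omega

theorem dec_rotN {L c : ℕ} (hL : 1 ≤ L) (hc : c < 3 ^ L) :
    dec L (K.rotN (3 ^ (L - 1)) c) = rotS (dec L c) := by
  obtain ⟨n, rfl⟩ : ∃ n, L = n + 1 := ⟨L - 1, by omega⟩
  funext j
  apply Fin.ext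
  show K.dig _ j = K.dig c (finRotate (n + 1) j)
  rw [rotN_eq, Nat.add_sub_cancel]
  by_cases hj : j = Fin.last n
  · subst hj
    rw [finRotate_last, Fin.val_last, dig_add_top (by rw [pow_succ] at hc; omega) (by omega)]
    simp [dig_eq]
  · rw [coe_finRotate_of_ne_last hj, dig_add_low (Fin.val_lt_last hj), dig_eq, dig_eq,
      Nat.div_div_eq_div_mul, pow_succ']

end Vale.Agent.P348
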