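import Mathlib

/-! Statement-level definitions for P348 (spin-one Haldane gap). -/

namespace Vale.Agent.P348

open Matrix

/-- The Levi-Civita symbol on three indices. -/
def eps (a b c : Fin 3) : ℂ :=
  if (a, b, c) = (0, 1, 2) ∨ (a, b, c) = (1, 2, 0) ∨ (a, b, c) = (2, 0, 1) then 1
  else if (a, b, c) = (0, 2, 1) ∨ (a, b, c) = (2, 1, 0) ∨ (a, b, c) = (1, 0, 2) then -1 else 0

/-- `S` is a triple of spin-one matrices: self-adjoint, su(2) commutation relations, Casimir `2`. -/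
def IsSpinOne (S : Fin 3 → Matrix (Fin 3) (Fin 3) ℂ) : Prop :=
  (∀ a, (S a).IsHermitian) ∧
  (∀ a b, S a * S b - S b * S a = Complex.I • ∑ c, eps a b c • S c) ∧
  ∑ a, S a * S a = (2 : ℂ) • (1 : Matrix (Fin 3) (Fin 3) ℂ)

/-- `A` acting on the `j`-th tensor factor of `(ℂ^3)^{⊗ L}` and as the identity on the others,
as a matrix in the product basis `Fin L → Fin 3`. -/
def site (L : ℕ) (j : Fin L) (A : Matrix (Fin 3) (Fin 3) ℂ) :
    Matrix (Fin L → Fin 3) (Fin L → Fin 3) ℂ :=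
  Matrix.of fun s t => if ∀ i, i ≠ j → s i = t i then A (s j) (t j) else 0

/-- The periodic Heisenberg Hamiltonian `H_L`; `finRotate L j` is `j + 1` modulo `L`. -/
noncomputable def ham (S : Fin 3 → Matrix (Fin 3) (Fin 3) ℂ) (L : ℕ) :
    Matrix (Fin L → Fin 3) (Fin L → Fin 3) ℂ :=
  ∑ j : Fin L, ∑ a : Fin 3, site L j (S a) * site L (finRotate L j) (S a)

/-- The set of real eigenvalues of a complex square matrix. -/
def evals {n : Type} [Fintype n] (H : Matrix n n ℂ) : Set ℝ :=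
  {x | ∃ v : n → ℂ, v ≠ 0 ∧ H *ᵥ v = (x : ℂ) • v}

/-- The least eigenvalue. -/
noncomputable def E0 {n : Type} [Fintype n] (H : Matrix n n ℂ) : ℝ := sInf (evals H)

/-- The next distinct eigenvalue above the least one. -/
noncomputable def E1 {n : Type} [Fintype n] (H : Matrix n n ℂ) : ℝ :=
  sInf {x | x ∈ evals H ∧ E0 H < x}

/-- The gap `γ = E1 - E0`. -/
noncomputable def gap {n : Type} [Fintype n] (H : Matrix n n ℂ) : ℝ := E1 H - E0 H

end Vale.Agent.P348
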