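/-! Computational part of the polynomial filter certificates (core only).
Polynomials are lists of integer coefficients in ascending order. -/

namespace Vale.Agent.P348.F

def padd : List Int → List Int → List Int
  | [], q => q
  | p, [] => p
  | a :: p, b :: q => (a + b) :: padd p q

def pneg (p : List Int) : List Int := p.map (fun a => -a)

/-- `c * X ^ n` -/
def mono (c : Int) (n : Nat) : List Int := List.replicate n 0 ++ [c]

/-- `X ^ 4 * f` -/
def sh4 (f : List Int) : List Int := 0 :: 0 :: 0 :: 0 :: f

/-- `(X + a) * q + c` -/
def lin (a c : Int) : List Int → List Int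
  | [] => [c]
  | b :: q => (c + a * b) :: lin a b q

/-- Taylor shift `p (X + a)` -/
def shift (a : Int) : List Int → List Int
  | [] => []
  | c :: p => lin a c (shift a p)

/-- `∑ min (c_k, 0) * d ^ (k+1)` -/
def negPart (d : Int) : List Int → Int
  | [] => 0
  | c :: p => d * (min c 0 + negPart d p)

/-- `q` is the polynomial already shifted to the current point; `ds` are the successive steps -/
def walk : List Int → List Nat → Bool
  | q, [] => decide (0 ≤ q.headD 0)
  | q, d :: ds => decide (0 ≤ q.headD 0 + negPart d q.tail) && walk (shift d q) ds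

/-- certifies `0 ≤ p` on `[a, b]` -/
def nonnegOn (p : List Int) (a b : Int) (ds : List Nat) : Bool :=
  decide (b ≤ a + (ds.sum : Nat)) && walk (shift a p) ds

/-- upper bound for `∑ c_k m_k` with `lo_k ≤ m_k ≤ hi_k` -/
def upM : List Int → List Int → List Int → Int
  | c :: f, l :: lo, h :: hi => (if 0 ≤ c then c * h else c * l) + upM f lo hi
  | _, _, _ => 0

end Vale.Agent.P348.F
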