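import Mathlib
import Vale.Agent.P348.FilterDefs

/-! Soundness of the polynomial filter certificates. -/

namespace Vale.Agent.P348.F

/-- evaluation -/
def ev : List ℤ → ℝ → ℝ
  | [], _ => 0
  | c :: p, x => c + x * ev p x

theorem ev_padd (p q : List ℤ) (x : ℝ) : ev (padd p q) x = ev p x + ev q x := by
  induction p generalizing q with
  | nil => simp [padd, ev]
  | cons a p ih =>
    cases q with
    | nil => simp [padd, ev]
    | cons b q => simp only [padd, ev, ih, Int.cast_add]; ring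

theorem ev_pneg (p : List ℤ) (x : ℝ) : ev (pneg p) x = -ev p x := by
  induction p with
  | nil => simp [pneg, ev]
  | cons a p ih =>
    simp only [pneg, List.map_cons, ev, Int.cast_neg] at ih ⊢
    rw [ih]; ring

theorem ev_mono (c : ℤ) (n : ℕ) (x : ℝ) : ev (mono c n) x = c * x ^ n := by
  induction n with
  | zero => simp [mono, ev]
  | succ n ih =>
    simp only [mono, List.replicate_succ, List.cons_append, ev, Int.cast_zero] at ih ⊢
    rw [ih]; ring

theorem ev_sh4 (p : List ℤ) (x : ℝ) : ev (sh4 p) x = x ^ 4 * ev p x := by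
  simp only [sh4, ev, Int.cast_zero]; ring

theorem ev_lin (a c : ℤ) (q : List ℤ) (x : ℝ) : ev (lin a c q) x = c + (x + a) * ev q x := by
  induction q generalizing c with
  | nil => simp [lin, ev]
  | cons b q ih => simp only [lin, ev, ih, Int.cast_add, Int.cast_mul]; ring

theorem ev_shift (a : ℤ) (p : List ℤ) (x : ℝ) : ev (shift a p) x = ev p (x + a) := by
  induction p with
  | nil => rfl
  | cons c p ih => rw [shift, ev_lin, ih, ev]

theorem negPart_le {d : ℤ} {x : ℝ} (h0 : 0 ≤ x) (hd : x ≤ d) (p : List ℤ) :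
    (negPart d p : ℝ) ≤ 0 ∧ (negPart d p : ℝ) ≤ x * ev p x := by
  induction p with
  | nil => simp [negPart, ev]
  | cons c p ih =>
    simp only [negPart, ev, Int.cast_mul, Int.cast_add, Int.cast_min, Int.cast_zero]
    have h1 := min_le_left (c : ℝ) 0
    have h2 := min_le_right (c : ℝ) 0
    have h3 : min (c : ℝ) 0 + negPart d p ≤ 0 := by linarith [ih.1]
    exact ⟨mul_nonpos_of_nonneg_of_nonpos (h0.trans hd) h3,
      (mul_le_mul_of_nonpos_right hd h3).trans (mul_le_mul_of_nonneg_left (by linarith [ih.2]) h0)⟩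

theorem ev_head (q : List ℤ) (x : ℝ) : ev q x = q.headD 0 + x * ev q.tail x := by
  cases q <;> simp [ev]

theorem walk_sound (ds : List ℕ) : ∀ (q : List ℤ) (x : ℝ), walk q ds = true → 0 ≤ x →
    x ≤ (ds.sum : ℕ) → 0 ≤ ev q x := by
  induction ds with
  | nil =>
    intro q x h h0 h1
    obtain rfl : x = 0 := le_antisymm (by simpa using h1) h0
    rw [ev_head, zero_mul, add_zero]
    exact_mod_cast of_decide_eq_true h
  | cons d ds ih =>
    intro q x h h0 h1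
    rw [walk, Bool.and_eq_true, decide_eq_true_eq] at h
    rcases le_total x d with h2 | h2
    · have h3 := (negPart_le (d := d) h0 (by simpa using h2) q.tail).2
      have h4 : (0 : ℝ) ≤ q.headD 0 + negPart d q.tail := by exact_mod_cast h.1
      rw [ev_head]
      linarith
    · have h3 := ih _ (x - d) h.2 (by linarith) (by
        rw [List.sum_cons, Nat.cast_add] at h1; linarith)
      rwa [ev_shift, Int.cast_natCast, sub_add_cancel] at h3

theorem nonnegOn_sound {p : List ℤ} {a b : ℤ} {ds : List ℕ} (h : nonnegOn p a b ds = true)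
    (x : ℝ) (ha : (a : ℝ) ≤ x) (hb : x ≤ (b : ℝ)) : 0 ≤ ev p x := by
  rw [nonnegOn, Bool.and_eq_true, decide_eq_true_eq] at h
  have h1 := (Int.cast_le (R := ℝ)).mpr h.1
  rw [Int.cast_add, Int.cast_natCast] at h1
  have h2 := walk_sound ds _ (x - a) h.2 (by linarith) (by linarith)
  rwa [ev_shift, sub_add_cancel] at h2

theorem term_nonneg {p : List ℤ} {a b : ℤ} {ds : List ℕ} (h : nonnegOn p a b ds = true)
    {x : ℝ} (hx : (a : ℝ) ≤ x ∧ x ≤ (b : ℝ)) : 0 ≤ x ^ 4 * ev p x :=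
  mul_nonneg (by positivity) (nonnegOn_sound h x hx.1 hx.2)

theorem term_ge {f : List ℤ} {a b p : ℤ} {n : ℕ} {ds : List ℕ}
    (h : nonnegOn (padd f (mono (-p) n)) a b ds = true) {x : ℝ}
    (hx : (a : ℝ) ≤ x ∧ x ≤ (b : ℝ)) : p * x ^ (n + 4) ≤ x ^ 4 * ev f x := by
  have h1 := term_nonneg h hx
  rw [ev_padd, ev_mono, Int.cast_neg] at h1
  rw [pow_add]
  linarith

variable {ι : Type} [Fintype ι]

theorem sum_le_upM_aux (X : ι → ℝ) (f : List ℤ) : ∀ (lo hi : List ℤ) (m : ℕ),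
    f.length = lo.length → f.length = hi.length → (∀ k, k < f.length →
      (lo.getD k 0 : ℝ) ≤ ∑ i, X i ^ (k + m) ∧ ∑ i, X i ^ (k + m) ≤ (hi.getD k 0 : ℝ)) →
    ∑ i, X i ^ m * ev f (X i) ≤ (upM f lo hi : ℝ) := by
  induction f with
  | nil => intro lo hi m _ _ _; simp [ev, upM]
  | cons c f ih =>
    rintro (_ | ⟨l, lo⟩) (_ | ⟨h, hi⟩) m h1 h2 h3 <;> try simp at h1 h2
    have h4 := ih lo hi (m + 1) h1 h2 fun k hk => by
      simpa only [List.getD_cons_succ, add_assoc, add_comm 1 m] using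
        h3 (k + 1) (Nat.succ_lt_succ hk)
    have h5 := h3 0 (Nat.succ_pos _)
    simp only [List.getD_cons_zero, zero_add] at h5
    have h6 : ∑ i, X i ^ m * ev (c :: f) (X i) =
        c * ∑ i, X i ^ m + ∑ i, X i ^ (m + 1) * ev f (X i) := by
      rw [Finset.mul_sum, ← Finset.sum_add_distrib]
      exact Finset.sum_congr rfl fun i _ => by rw [ev]; ring
    rw [h6, upM, Int.cast_add]
    refine add_le_add ?_ h4
    split_ifs with hc
    · rw [Int.cast_mul]
      exact mul_le_mul_of_nonneg_left h5.2 (by exact_mod_cast hc)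
    · rw [Int.cast_mul]
      exact mul_le_mul_of_nonpos_left h5.1 (by exact_mod_cast (not_le.mp hc).le)

/-- the moments of order `4, …, 10` lie in the given intervals -/
def MomIn (X : ι → ℝ) (lo hi : List ℤ) : Prop :=
  lo.length = 7 ∧ hi.length = 7 ∧
    ∀ k, k < 7 → (lo.getD k 0 : ℝ) ≤ ∑ i, X i ^ (k + 4) ∧ ∑ i, X i ^ (k + 4) ≤ (hi.getD k 0 : ℝ)

theorem sum_le_upM {X : ι → ℝ} {lo hi : List ℤ} (h : MomIn X lo hi) (f : List ℤ)
    (hf : f.length = 7) : ∑ i, X i ^ 4 * ev f (X i) ≤ (upM f lo hi : ℝ) := by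
  refine sum_le_upM_aux X f lo hi 4 (by rw [hf, h.1]) (by rw [hf, h.2.1]) fun k hk => h.2.2 k ?_
  rwa [hf] at hk

/-- a priori support bound from the tenth moment -/
theorem supp0 {X : ι → ℝ} {lo hi : List ℤ} (h : MomIn X lo hi) (A : ℕ)
    (hA : hi.getD 6 0 ≤ (A : ℤ) ^ 10) (i : ι) : ((-(A : ℤ) : ℤ) : ℝ) ≤ X i ∧ X i ≤ ((A : ℤ) : ℝ) := by
  have h1 : |X i| ^ 10 ≤ (A : ℝ) ^ 10 := by
    rw [Even.pow_abs (by decide)]
    refine (Finset.single_le_sum (f := fun i => X i ^ (6 + 4))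
      (fun j _ => Even.pow_nonneg (by decide) _) (Finset.mem_univ i)).trans
      ((h.2.2 6 (by norm_num)).2.trans ?_)
    exact_mod_cast hA
  simpa using abs_le.mp (le_of_pow_le_pow_left₀ (by norm_num) (Nat.cast_nonneg A) h1)

/-- exclusion of the top part `[c, b]` of the support -/
theorem excl_top {X : ι → ℝ} {lo hi : List ℤ} (h : MomIn X lo hi) {a b c : ℤ}
    (hs : ∀ i, (a : ℝ) ≤ X i ∧ X i ≤ (b : ℝ)) (f : List ℤ) (d1 d2 : List ℕ)
    (hc : (decide (f.length = 7) && nonnegOn f a b d1 &&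
      nonnegOn (padd (sh4 f) [-(upM f lo hi + 1)]) c b d2) = true) :
    ∀ i, (a : ℝ) ≤ X i ∧ X i ≤ (c : ℝ) := by
  simp only [Bool.and_eq_true, decide_eq_true_eq] at hc
  refine fun i => ⟨(hs i).1, not_lt.mp fun hi => ?_⟩
  have h1 := nonnegOn_sound hc.2 _ hi.le (hs i).2
  have h2 := (Finset.single_le_sum (fun j _ => term_nonneg hc.1.2 (hs j))
    (Finset.mem_univ i)).trans (sum_le_upM h f hc.1.1)
  simp only [ev_padd, ev_sh4, ev] at h1
  push_cast at h1
  linarith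

/-- exclusion of the bottom part `[a, c]` of the support -/
theorem excl_bot {X : ι → ℝ} {lo hi : List ℤ} (h : MomIn X lo hi) {a b c : ℤ}
    (hs : ∀ i, (a : ℝ) ≤ X i ∧ X i ≤ (b : ℝ)) (f : List ℤ) (d1 d2 : List ℕ)
    (hc : (decide (f.length = 7) && nonnegOn f a b d1 &&
      nonnegOn (padd (sh4 f) [-(upM f lo hi + 1)]) a c d2) = true) :
    ∀ i, (c : ℝ) ≤ X i ∧ X i ≤ (b : ℝ) := by
  simp only [Bool.and_eq_true, decide_eq_true_eq] at hc
  refine fun i => ⟨not_lt.mp fun hi => ?_, (hs i).2⟩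
  have h1 := nonnegOn_sound hc.2 _ (hs i).1 hi.le
  have h2 := (Finset.single_le_sum (fun j _ => term_nonneg hc.1.2 (hs j))
    (Finset.mem_univ i)).trans (sum_le_upM h f hc.1.1)
  simp only [ev_padd, ev_sh4, ev] at h1
  push_cast at h1
  linarith

/-- existence of an atom above `c` -/
theorem exists_top {X : ι → ℝ} {lo hi : List ℤ} (h : MomIn X lo hi) {a b c : ℤ}
    (hs : ∀ i, (a : ℝ) ≤ X i ∧ X i ≤ (b : ℝ)) (f : List ℤ) (d1 : List ℕ)
    (hc : (decide (f.length = 7) && nonnegOn f a c d1 && decide (upM f lo hi < 0)) = true) :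
    ∃ i0, (c : ℝ) ≤ X i0 ∧ X i0 ≤ (b : ℝ) := by
  simp only [Bool.and_eq_true, decide_eq_true_eq] at hc
  by_contra h0
  have h1 := (Finset.sum_nonneg fun j _ => term_nonneg hc.1.2 ⟨(hs j).1,
    le_of_not_ge fun hj => h0 ⟨j, hj, (hs j).2⟩⟩).trans (sum_le_upM h f hc.1.1)
  exact absurd (by exact_mod_cast h1) (not_le.mpr hc.2)

/-- given one atom in `[c, d]`, no other atom lies in `[e, b]` -/
theorem excl_pair {X : ι → ℝ} {lo hi : List ℤ} (h : MomIn X lo hi) {a b c d e : ℤ} (i0 : ι)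
    (h0 : (c : ℝ) ≤ X i0 ∧ X i0 ≤ (d : ℝ)) (hs : ∀ i, i ≠ i0 → (a : ℝ) ≤ X i ∧ X i ≤ (b : ℝ))
    (f : List ℤ) (u : ℤ) (d1 d2 d3 : List ℕ)
    (hc : (decide (f.length = 7) && nonnegOn f a b d1 && nonnegOn (padd (sh4 f) [u]) c d d2 &&
      nonnegOn (padd (sh4 f) [-(upM f lo hi + u + 1)]) e b d3) = true) :
    ∀ i, i ≠ i0 → (a : ℝ) ≤ X i ∧ X i ≤ (e : ℝ) := by
  classical
  simp only [Bool.and_eq_true, decide_eq_true_eq] at hc
  refine fun i hi => ⟨(hs i hi).1, not_lt.mp fun he => ?_⟩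
  have h1 := nonnegOn_sound hc.2 _ he.le (hs i hi).2
  have h2 := nonnegOn_sound hc.1.2 _ h0.1 h0.2
  have h3 := sum_le_upM h f hc.1.1.1
  rw [← Finset.add_sum_erase _ _ (Finset.mem_univ i0)] at h3
  have h4 := Finset.single_le_sum (fun j hj => term_nonneg hc.1.1.2
    (hs j (Finset.ne_of_mem_erase hj))) (Finset.mem_erase.mpr ⟨hi, Finset.mem_univ i⟩)
  simp only [ev_padd, ev_sh4, ev] at h1 h2
  push_cast at h1
  linarith

/-- bound on `p * ∑ X ^ (n+4) + q * X i0 ^ (n+4)` -/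
theorem obj_top {X : ι → ℝ} {lo hi : List ℤ} (h : MomIn X lo hi) {a b c d : ℤ} (i0 : ι)
    (h0 : (c : ℝ) ≤ X i0 ∧ X i0 ≤ (d : ℝ)) (hs : ∀ i, i ≠ i0 → (a : ℝ) ≤ X i ∧ X i ≤ (b : ℝ))
    (n : ℕ) (p q r : ℤ) (f : List ℤ) (u : ℤ) (d1 d2 : List ℕ)
    (hc : (decide (f.length = 7) && nonnegOn (padd f (mono (-p) n)) a b d1 &&
      nonnegOn (padd (padd (sh4 f) [u]) (mono (-(p + q)) (n + 4))) c d d2 &&
      decide (upM f lo hi + u ≤ r)) = true) :
    (p : ℝ) * ∑ i, X i ^ (n + 4) + (q : ℝ) * X i0 ^ (n + 4) ≤ (r : ℝ) := by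
  classical
  simp only [Bool.and_eq_true, decide_eq_true_eq] at hc
  have h2 := nonnegOn_sound hc.1.2 _ h0.1 h0.2
  have h3 := sum_le_upM h f hc.1.1.1
  have h4 := Finset.sum_le_sum fun j (hj : j ∈ Finset.univ.erase i0) =>
    term_ge hc.1.1.2 (hs j (Finset.ne_of_mem_erase hj))
  have h5 : (upM f lo hi : ℝ) + u ≤ r := by exact_mod_cast hc.2
  rw [← Finset.add_sum_erase _ _ (Finset.mem_univ i0)] at h3 ⊢
  rw [← Finset.mul_sum] at h4
  simp only [ev_padd, ev_sh4, ev, ev_mono] at h2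
  push_cast at h2
  linarith

/-- bound on `p * ∑ X ^ (n+4)` -/
theorem obj_all {X : ι → ℝ} {lo hi : List ℤ} (h : MomIn X lo hi) {a b : ℤ}
    (hs : ∀ i, (a : ℝ) ≤ X i ∧ X i ≤ (b : ℝ)) (n : ℕ) (p r : ℤ) (f : List ℤ) (d1 : List ℕ)
    (hc : (decide (f.length = 7) && nonnegOn (padd f (mono (-p) n)) a b d1 &&
      decide (upM f lo hi ≤ r)) = true) :
    (p : ℝ) * ∑ i, X i ^ (n + 4) ≤ (r : ℝ) := by
  simp only [Bool.and_eq_true, decide_eq_true_eq] at hc
  rw [Finset.mul_sum]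
  exact (Finset.sum_le_sum fun j _ => term_ge hc.1.2 (hs j)).trans
    ((sum_le_upM h f hc.1.1).trans (by exact_mod_cast hc.2))

end Vale.Agent.P348.F
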