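import Vale.Agent.P348.Mom
import Vale.Agent.P348.Filter

/-! Limits of power sums: transfer of the finite filter bounds. -/

namespace Vale.Agent.P348

open Filter Topology F

/-- `M L` is a limit of power sums of real numbers -/
def Fam (M : ℕ → ℝ) : Prop :=
  ∃ lam : (n : ℕ) → (Fin (n + 1) → Fin 4) → ℝ, ∀ L : ℕ, 2 ≤ L →
    Tendsto (fun n => ∑ i, lam n i ^ L) atTop (𝓝 (M L))

theorem Fam.scale {M : ℕ → ℝ} (h : Fam M) (c : ℝ) : Fam (fun L => c ^ L * M L) := by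
  obtain ⟨lam, h⟩ := h
  refine ⟨fun n i => c * lam n i, fun L hL => ?_⟩
  simp only [mul_pow, ← Finset.mul_sum]
  exact (h L hL).const_mul _

/-- the scaled moments of order `4, …, 10` lie strictly inside the given intervals -/
def MIn (M : ℕ → ℝ) (lo hi : List ℤ) : Prop :=
  lo.length = 7 ∧ hi.length = 7 ∧ ∀ k, k < 7 →
    (lo.getD k 0 : ℝ) < 100000 ^ (k + 4) * M (k + 4) ∧ 100000 ^ (k + 4) * M (k + 4) < (hi.getD k 0 : ℝ)

theorem ev_momIn {M : ℕ → ℝ} {lo hi : List ℤ} (hin : MIn M lo hi)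
    {lam : (n : ℕ) → (Fin (n + 1) → Fin 4) → ℝ}
    (h : ∀ L : ℕ, 2 ≤ L → Tendsto (fun n => ∑ i, lam n i ^ L) atTop (𝓝 (100000 ^ L * M L))) :
    ∀ᶠ n in atTop, MomIn (lam n) lo hi := by
  have : ∀ᶠ n in atTop, ∀ k ∈ Finset.range 7, (lo.getD k 0 : ℝ) ≤ ∑ i, lam n i ^ (k + 4) ∧
      ∑ i, lam n i ^ (k + 4) ≤ (hi.getD k 0 : ℝ) := by
    rw [eventually_all_finset]
    intro k hk
    have hk := Finset.mem_range.1 hk
    have h1 := (h (k + 4) (by omega)).eventually (lt_mem_nhds (hin.2.2 k hk).1)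
    have h2 := (h (k + 4) (by omega)).eventually (gt_mem_nhds (hin.2.2 k hk).2)
    filter_upwards [h1, h2] with n a b using ⟨a.le, b.le⟩
  filter_upwards [this] with n hn using ⟨hin.1, hin.2.1, fun k hk => hn k (Finset.mem_range.2 hk)⟩

theorem fam_le {M : ℕ → ℝ} (hM : Fam M) {lo hi : List ℤ} (hin : MIn M lo hi) {N : ℕ} (hN : 2 ≤ N)
    {p r : ℝ} (H : ∀ (n : ℕ) (X : (Fin (n + 1) → Fin 4) → ℝ), MomIn X lo hi →
      p * ∑ i, X i ^ N ≤ r) : p * (100000 ^ N * M N) ≤ r := by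
  obtain ⟨lam, h⟩ := hM.scale 100000
  refine le_of_tendsto ((h N hN).const_mul p) ?_
  filter_upwards [ev_momIn hin h] with n hn using H n _ hn

theorem fam_mom {M : ℕ → ℝ} (hM : Fam M) (P : Prop) {lo hi : List ℤ} {a : ℝ} (ha : 0 ≤ a)
    (hin : P → MIn M lo hi)
    (H : P → ∀ (n : ℕ) (X : (Fin (n + 1) → Fin 4) → ℝ), MomIn X lo hi →
      ∃ i0, ∑ i, X i ^ 16 ≤ a * X i0 ^ 16) :
    ∃ T, Mom (fun l => M (2 * l)) T ∧ (P → M 16 ≤ a * T ^ 8) := by
  obtain ⟨lam, h⟩ := hM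
  have hex : ∀ n, ∃ i0, ∀ i, lam n i ^ 2 ≤ lam n i0 ^ 2 := fun n => by
    obtain ⟨i0, -, hi⟩ := Finset.exists_max_image Finset.univ (fun i => lam n i ^ 2)
      Finset.univ_nonempty
    exact ⟨i0, fun i => hi i (Finset.mem_univ i)⟩
  choose i0 hi0 using hex
  have hm := fun n => (mom_of_family (fun i => lam n i ^ 2) (fun i => sq_nonneg _) (i0 n) (hi0 n)).1
  obtain ⟨φ, hφ, T, hT, hmom⟩ := mom_limit _ _ hm (fun l => M (2 * l)) (fun k hk => by
    simpa only [← pow_mul] using h (2 * k) (by omega))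
  refine ⟨T, hmom, fun hP => ?_⟩
  have h' : ∀ L : ℕ, 2 ≤ L → Tendsto (fun n => ∑ i, (100000 * lam n i) ^ L) atTop
      (𝓝 (100000 ^ L * M L)) := fun L hL => by
    simp only [mul_pow, ← Finset.mul_sum]
    exact (h L hL).const_mul _
  have hev : ∀ᶠ n in atTop, ∑ i, lam n i ^ 16 ≤ a * (lam n (i0 n) ^ 2) ^ 8 := by
    filter_upwards [ev_momIn (hin hP) h'] with n hn
    obtain ⟨j, hj⟩ := H hP n _ hn
    simp only [mul_pow, ← Finset.mul_sum] at hj
    have h1 : lam n j ^ 16 ≤ (lam n (i0 n) ^ 2) ^ 8 := by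
      rw [show lam n j ^ 16 = (lam n j ^ 2) ^ 8 by ring]
      exact pow_le_pow_left₀ (sq_nonneg _) (hi0 n j) 8
    have h2 : ∑ i, lam n i ^ 16 ≤ a * lam n j ^ 16 := by
      have : (100000 : ℝ) ^ 16 * ∑ i, lam n i ^ 16 ≤ 100000 ^ 16 * (a * lam n j ^ 16) := by
        linarith
      exact le_of_mul_le_mul_left this (by positivity)
    exact h2.trans (mul_le_mul_of_nonneg_left h1 ha)
  exact le_of_tendsto_of_tendsto ((h 16 (by norm_num)).comp hφ.tendsto_atTop)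
    ((hT.pow 8).const_mul a) (hφ.tendsto_atTop.eventually hev)

end Vale.Agent.P348
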