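import Vale.Agent.P348.Basic

/-! Uniqueness of the spin-one triple up to conjugation. -/

namespace Vale.Agent.P348

open Matrix
open scoped ComplexOrder

/-- the ladder relations of a spin-one triple -/
theorem ladder {S : Fin 3 → M3} (hS : IsSpinOne S) :
    S 2 * (S 0 + Complex.I • S 1) = (S 0 + Complex.I • S 1) * S 2 + (S 0 + Complex.I • S 1) ∧
    S 2 * (S 0 - Complex.I • S 1) = (S 0 - Complex.I • S 1) * S 2 - (S 0 - Complex.I • S 1) ∧
    (S 0 - Complex.I • S 1) * (S 0 + Complex.I • S 1) = (2 : ℂ) • 1 - S 2 * S 2 - S 2 ∧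
    (S 0 + Complex.I • S 1) * (S 0 - Complex.I • S 1) = (2 : ℂ) • 1 - S 2 * S 2 + S 2 ∧
    trace (S 2) = 0 := by
  obtain ⟨-, hc, hq⟩ := hS
  have h01 := hc 0 1
  have h12 := hc 1 2
  have h20 := hc 2 0
  simp [eps, Fin.sum_univ_three] at h01 h12 h20 hq
  have e01 : S 0 * S 1 = S 1 * S 0 + Complex.I • S 2 := by rw [← h01]; abel
  have e12 : S 2 * S 1 = S 1 * S 2 - Complex.I • S 0 := by rw [← h12]; abel
  have e20 : S 2 * S 0 = S 0 * S 2 + Complex.I • S 1 := by rw [← h20]; abel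
  have e00 : S 0 * S 0 = (2 : ℂ) • 1 - S 1 * S 1 - S 2 * S 2 := by rw [← hq]; abel
  refine ⟨?_, ?_, ?_, ?_, ?_⟩
  · simp only [mul_add, add_mul, Matrix.mul_smul, Matrix.smul_mul, e12, e20, smul_sub, smul_smul,
      Complex.I_mul_I]
    module
  · simp only [mul_sub, sub_mul, Matrix.mul_smul, Matrix.smul_mul, e12, e20, smul_sub, smul_smul,
      Complex.I_mul_I]
    module
  · simp only [mul_add, sub_mul, Matrix.mul_smul, Matrix.smul_mul, e01, e00, smul_sub, smul_add,
      smul_smul, Complex.I_mul_I]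
    module
  · simp only [mul_sub, add_mul, Matrix.mul_smul, Matrix.smul_mul, e01, e00, smul_sub, smul_add,
      smul_smul, Complex.I_mul_I]
    module
  · have := congrArg trace h01
    rw [trace_sub, trace_mul_comm, sub_self, trace_smul, smul_eq_mul] at this
    exact (mul_eq_zero.mp this.symm).resolve_left Complex.I_ne_zero

/-- a highest weight vector -/
theorem highest {S : Fin 3 → M3} (hS : IsSpinOne S) :
    ∃ v : Fin 3 → ℂ, v ≠ 0 ∧ S 2 *ᵥ v = v ∧ (S 0 + Complex.I • S 1) *ᵥ v = 0 := by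
  obtain ⟨h1, -, h3, -, h5⟩ := ladder hS
  have hZ := hS.1 2
  obtain ⟨i, -, hi⟩ := Finset.exists_max_image Finset.univ hZ.eigenvalues ⟨0, Finset.mem_univ _⟩
  set l := hZ.eigenvalues i with hl
  have hm : l ∈ evals (S 2) := by rw [evals_finite hZ]; exact ⟨i, rfl⟩
  obtain ⟨v, hv, hZv⟩ := hm
  have hP : (S 0 + Complex.I • S 1) *ᵥ v = 0 := by
    by_contra hne
    have : l + 1 ∈ evals (S 2) := by
      refine ⟨_, hne, ?_⟩
      rw [mulVec_mulVec, h1, add_mulVec (_ * _), ← mulVec_mulVec, hZv, mulVec_smul]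
      push_cast
      rw [add_smul, one_smul]
    rw [evals_finite hZ] at this
    obtain ⟨k, hk⟩ := this
    have := hi k (Finset.mem_univ k)
    linarith
  have h6 := congrArg (fun A => A *ᵥ v) h3
  simp only [← mulVec_mulVec, hP, mulVec_zero, sub_mulVec, smul_mulVec, one_mulVec, hZv,
    mulVec_smul, smul_smul, ← sub_smul] at h6
  have h7 : (2 : ℂ) - l * l - l = 0 := (smul_eq_zero.mp h6.symm).resolve_right hv
  have h8 : (2 : ℝ) - l * l - l = 0 := by exact_mod_cast h7
  have h9 : 0 ≤ l := by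
    rw [hZ.trace_eq_sum_eigenvalues] at h5
    have h10 : ∑ k, hZ.eigenvalues k = 0 := by simpa using congrArg Complex.re h5
    rw [Fin.sum_univ_three] at h10
    linarith [hi 0 (Finset.mem_univ _), hi 1 (Finset.mem_univ _), hi 2 (Finset.mem_univ _)]
  have h11 : l = 1 := by nlinarith
  refine ⟨v, hv, ?_, hP⟩
  rw [hZv, h11]
  simp

theorem mul_cols (c : Fin 3 → Fin 3 → ℂ) (A B : M3) (h : ∀ j, A *ᵥ c j = ∑ k, B k j • c k) :
    A * Matrix.of (fun i j => c j i) = Matrix.of (fun i j => c j i) * B := by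
  ext i j
  have := congrFun (h j) i
  simp only [mulVec, dotProduct, Finset.sum_apply, Pi.smul_apply, smul_eq_mul] at this
  simp only [Matrix.mul_apply, Matrix.of_apply, this]
  exact Finset.sum_congr rfl fun k _ => mul_comm _ _

theorem spin_conj {S : Fin 3 → M3} (hS : IsSpinOne S) :
    ∃ U V : M3, U * V = 1 ∧ S = fun a => U * std a * V := by
  obtain ⟨-, h2, -, h4, -⟩ := ladder hS
  obtain ⟨v, hv, hZ, hP⟩ := highest hS
  set r : ℂ := ((√2 : ℝ) : ℂ)⁻¹ with hr0
  have hr : r * r = 1 / 2 := by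
    rw [hr0, ← mul_inv, ← Complex.ofReal_mul, Real.mul_self_sqrt (by norm_num)]
    norm_num
  have hX : S 0 = (1 / 2 : ℂ) • ((S 0 + Complex.I • S 1) + (S 0 - Complex.I • S 1)) := by module
  have hY : S 1 = (-Complex.I / 2) • ((S 0 + Complex.I • S 1) - (S 0 - Complex.I • S 1)) := by
    have e : (S 0 + Complex.I • S 1) - (S 0 - Complex.I • S 1) = (2 * Complex.I) • S 1 := by module
    have e2 : -Complex.I / 2 * (2 * Complex.I) = 1 := by linear_combination -Complex.I_mul_I
    rw [e, smul_smul, e2, one_smul]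
  have hadj : (S 0 - Complex.I • S 1)ᴴ = S 0 + Complex.I • S 1 := by
    simp [conjTranspose_sub, conjTranspose_smul, (hS.1 0).eq, (hS.1 1).eq]
  set P := S 0 + Complex.I • S 1
  set M := S 0 - Complex.I • S 1
  have hZ0 : S 2 *ᵥ (M *ᵥ v) = 0 := by
    rw [mulVec_mulVec, h2, sub_mulVec, ← mulVec_mulVec, hZ, sub_self]
  have hZ1 : S 2 *ᵥ (M *ᵥ (M *ᵥ v)) = -(M *ᵥ (M *ᵥ v)) := by
    rw [mulVec_mulVec, h2, sub_mulVec, ← mulVec_mulVec, hZ0, mulVec_zero, zero_sub]
  have hP0 : P *ᵥ (M *ᵥ v) = (2 : ℂ) • v := by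
    rw [mulVec_mulVec, h4, add_mulVec, sub_mulVec, ← mulVec_mulVec, hZ, hZ, smul_mulVec,
      one_mulVec, sub_add_cancel]
  have hP1 : P *ᵥ (M *ᵥ (M *ᵥ v)) = (2 : ℂ) • (M *ᵥ v) := by
    rw [mulVec_mulVec, h4, add_mulVec, sub_mulVec, ← mulVec_mulVec, hZ0, mulVec_zero,
      smul_mulVec, one_mulVec, sub_zero, add_zero]
  have hP2 : P *ᵥ (M *ᵥ (M *ᵥ (M *ᵥ v))) = 0 := by
    rw [mulVec_mulVec, h4, add_mulVec, sub_mulVec, ← mulVec_mulVec, hZ1, mulVec_neg, hZ1,
      smul_mulVec, one_mulVec]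
    module
  have hM2 : M *ᵥ (M *ᵥ (M *ᵥ v)) = 0 := by
    rw [← dotProduct_star_self_eq_zero, star_mulVec, ← dotProduct_mulVec, hadj, hP2,
      dotProduct_zero]
  let c : Fin 3 → Fin 3 → ℂ := ![v, r • (M *ᵥ v), (1 / 2 : ℂ) • (M *ᵥ (M *ᵥ v))]
  have c0 : c 0 = v := rfl
  have c1 : c 1 = r • (M *ᵥ v) := rfl
  have c2 : c 2 = (1 / 2 : ℂ) • (M *ᵥ (M *ᵥ v)) := rfl
  have hr2 : (2 * r) * r = 1 := by linear_combination 2 * hr
  have eP := mul_cols c P !![0, 2 * r, 0; 0, 0, 2 * r; 0, 0, 0] (by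
    intro j
    fin_cases j
    · simp [c0, hP, Fin.sum_univ_three]
    · simp [c0, c1, hP0, Fin.sum_univ_three, mulVec_smul, smul_smul, mul_comm]
    · simp [-mulVec_mulVec, c1, c2, hP1, Fin.sum_univ_three, mulVec_smul, smul_smul, hr2])
  have eM := mul_cols c M !![0, 0, 0; 2 * r, 0, 0; 0, 2 * r, 0] (by
    intro j
    fin_cases j
    · simp [c0, c1, Fin.sum_univ_three, smul_smul, hr2]
    · simp [c1, c2, Fin.sum_univ_three, mulVec_smul, smul_smul, mul_right_comm (2 : ℂ) r]
    · simp [-mulVec_mulVec, c2, hM2, Fin.sum_univ_three, mulVec_smul])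
  have eZ := mul_cols c (S 2) !![1, 0, 0; 0, 0, 0; 0, 0, -1] (by
    intro j
    fin_cases j
    · simp [c0, hZ, Fin.sum_univ_three]
    · simp [c1, hZ0, Fin.sum_univ_three, mulVec_smul]
    · simp [-mulVec_mulVec, c2, hZ1, Fin.sum_univ_three, mulVec_smul])
  set U : M3 := Matrix.of (fun i j => c j i) with hU
  have hUx : ∀ x, U *ᵥ x = x 0 • c 0 + x 1 • c 1 + x 2 • c 2 := by
    intro x
    funext i
    simp [hU, mulVec, dotProduct, Fin.sum_univ_three, mul_comm]
  have hr1 : r ≠ 0 := fun h => by simp [h] at hr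
  have hinj : Function.Injective U.mulVec := by
    refine (injective_iff_map_eq_zero U.mulVecLin).mpr fun x hx => ?_
    rw [mulVecLin_apply, hUx, c0, c1, c2] at hx
    have k1 := congrArg (fun w => P *ᵥ w) hx
    simp only [mulVec_add, mulVec_smul, hP, hP0, hP1, mulVec_zero, smul_zero, zero_add] at k1
    have k2 := congrArg (fun w => P *ᵥ w) k1
    simp only [mulVec_add, mulVec_smul, hP, hP0, mulVec_zero, smul_zero, zero_add] at k2
    have x2 : x 2 = 0 := by simpa [hv] using k2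
    have x1 : x 1 = 0 := by simpa [hv, x2, hr1] using k1
    have x0 : x 0 = 0 := by simpa [hv, x2, x1] using hx
    funext i
    fin_cases i
    exacts [x0, x1, x2]
  obtain ⟨u, hu⟩ := Matrix.mulVec_injective_iff_isUnit.mp hinj
  have hUV : U * (u⁻¹ : M3ˣ) = 1 := by rw [← hu, Units.mul_inv]
  have fin : ∀ A B : M3, A * U = U * B → A = U * B * (u⁻¹ : M3ˣ) := fun A B h => by
    rw [← h, Matrix.mul_assoc, hUV, Matrix.mul_one]
  refine ⟨U, (u⁻¹ : M3ˣ), hUV, funext fun a => fin _ _ ?_⟩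
  fin_cases a
  · change S 0 * U = U * std 0
    rw [hX, Matrix.smul_mul, add_mul, eP, eM, ← mul_add, ← Matrix.mul_smul]
    congr 1
    ext b d
    fin_cases b <;> fin_cases d <;> simp [std, ← hr0]
  · change S 1 * U = U * std 1
    rw [hY, Matrix.smul_mul, sub_mul, eP, eM, ← mul_sub, ← Matrix.mul_smul]
    congr 1
    ext b d
    fin_cases b <;> fin_cases d <;> simp [std, ← hr0] <;> ring
  · exact eZ

theorem ne_finRotate {L : ℕ} (hL : 2 ≤ L) (j : Fin L) : j ≠ finRotate L j := by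
  obtain ⟨n, rfl⟩ : ∃ n, L = n + 2 := ⟨L - 2, by omega⟩
  rw [finRotate_succ_apply]
  simp

theorem tens_two {L : ℕ} {j k : Fin L} (hjk : j ≠ k) (A B : M3) (s t : St L) :
    (site L j A * site L k B) s t = A (s j) (t j) * B (s k) (t k) *
      ∏ i ∈ (Finset.univ.erase j).erase k, (1 : M3) (s i) (t i) := by
  rw [site_eq_tens, site_eq_tens, tens_mul]
  simp only [tens, Matrix.of_apply]
  rw [← Finset.mul_prod_erase Finset.univ _ (Finset.mem_univ j),
    ← Finset.mul_prod_erase (Finset.univ.erase j) _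
      (Finset.mem_erase.mpr ⟨hjk.symm, Finset.mem_univ k⟩), ← mul_assoc]
  congr 1
  · simp [hjk, hjk.symm]
  · refine Finset.prod_congr rfl fun i hi => ?_
    have h1 := Finset.ne_of_mem_erase hi
    have h2 := Finset.ne_of_mem_erase (Finset.mem_of_mem_erase hi)
    simp [h1, h2]

/-- the fully polarised state has energy `L`, and the least eigenvalue is at most `0` -/
theorem ham_std_evals {L : ℕ} (hL : 2 ≤ L) : (L : ℝ) ∈ evals (ham std L) ∧ E0 (ham std L) ≤ 0 := by
  have hr : ((√2 : ℝ) : ℂ)⁻¹ * ((√2 : ℝ) : ℂ)⁻¹ = 1 / 2 := by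
    rw [← mul_inv, ← Complex.ofReal_mul, Real.mul_self_sqrt (by norm_num)]
    norm_num
  have hs : ∀ a, (std a).IsHermitian := by
    intro a
    ext b c
    fin_cases a <;> fin_cases b <;> fin_cases c <;> simp [std]
  constructor
  · refine ⟨Pi.single (fun _ => 0) 1, by simp, ?_⟩
    funext s
    have key : ∀ x y : Fin 3, ∑ a, std a x 0 * std a y 0 = (1 : M3) x 0 * (1 : M3) y 0 := by
      intro x y
      have hI := Complex.I_mul_I
      fin_cases x <;> fin_cases y <;> simp [std, Fin.sum_univ_three, Matrix.one_apply]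
      grind
    have bond : ∀ j : Fin L, ∑ a, (site L j (std a) * site L (finRotate L j) (std a)) s
        (fun _ => 0) = (1 : Op L) s (fun _ => 0) := by
      intro j
      have h1 := tens_two (ne_finRotate hL j) 1 1 s (fun _ => 0)
      simp only [site_eq_tens, ite_self, tens_one, Matrix.mul_one] at h1
      simp only [tens_two (ne_finRotate hL j), ← Finset.sum_mul, key, h1]
    rw [mulVec_single_one]
    simp only [ham, Matrix.col_apply, Matrix.sum_apply, bond, Finset.sum_const, Finset.card_univ,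
      Fintype.card_fin, Pi.smul_apply, Pi.single_apply, Matrix.one_apply]
    simp
  · have hH : (ham std L).IsHermitian := hamT_zero std L ▸ hamT_isHermitian hs hL 0
    refine (E0_le_of_trial hH (Pi.single (fun _ => 1) 1) (by simp) 0 ?_).2
    have e : ∀ a, std a 1 1 = 0 := by
      intro a
      fin_cases a <;> simp [std]
    rw [mulVec_single_one, Pi.star_single, star_one, single_one_dotProduct]
    simp only [ham, Matrix.col_apply, Matrix.sum_apply, tens_two (ne_finRotate hL _), e]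
    simp

end Vale.Agent.P348
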