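import Vale.Agent.P348.Base
import Vale.Agent.P348.Spin

/-! The gap of the spin-one ring. -/

namespace Vale.Agent.P348

open Filter

theorem cart_isSpinOne : IsSpinOne cart := by
  refine ⟨cart_isHermitian, fun a b => ?_, ?_⟩
  · ext i j
    fin_cases a <;> fin_cases b <;> fin_cases i <;> fin_cases j <;>
      simp [Fin.sum_univ_three, cart, eps, Matrix.mul_apply]
  · ext i j
    fin_cases i <;> fin_cases j <;>
      simp [Fin.sum_univ_three, cart_zero, cart_one, cart_two] <;> norm_num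

theorem evals_eq {S : Fin 3 → M3} (hS : IsSpinOne S) (L : ℕ) :
    evals (ham S L) = evals (ham std L) ∧ evals (ham std L) = evals (hamT cart L 0) := by
  obtain ⟨U, V, hUV, e⟩ := spin_conj hS
  obtain ⟨U', V', hUV', e'⟩ := std_conj
  constructor
  · rw [← hamT_zero, ← hamT_zero, e, evals_hamT_conj std hUV]
  · rw [← hamT_zero, e', evals_hamT_conj cart hUV']

theorem levels {S : Fin 3 → M3} (hS : IsSpinOne S) {L : ℕ} (hL : 2 ≤ L) :
    E0 (ham S L) ∈ evals (ham S L) ∧ E1 (ham S L) ∈ evals (ham S L) ∧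
      E0 (ham S L) < E1 (ham S L) ∧
      ∀ x ∈ evals (ham S L), x = E0 (ham S L) ∨ E1 (ham S L) ≤ x := by
  have hH : (ham S L).IsHermitian := hamT_zero S L ▸ hamT_isHermitian hS.1 hL 0
  have hfin : (evals (ham S L)).Finite := by
    rw [evals_finite hH]
    exact Set.finite_range _
  obtain ⟨h1, h2⟩ := ham_std_evals hL
  have e : E0 (ham std L) = E0 (ham S L) := by rw [E0, E0, (evals_eq hS L).1]
  rw [← (evals_eq hS L).1] at h1
  have hL' : (2 : ℝ) ≤ L := by exact_mod_cast hL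
  have hfin' : {x | x ∈ evals (ham S L) ∧ E0 (ham S L) < x}.Finite := hfin.subset fun _ h => h.1
  have hmem : E1 (ham S L) ∈ {x | x ∈ evals (ham S L) ∧ E0 (ham S L) < x} :=
    Set.Nonempty.csInf_mem ⟨L, h1, by linarith⟩ hfin'
  refine ⟨Set.Nonempty.csInf_mem ⟨_, h1⟩ hfin, hmem.1, hmem.2, fun x hx => ?_⟩
  rcases (E0_le hH hx).eq_or_lt with h | h
  · exact Or.inl h.symm
  · exact Or.inr (csInf_le hfin'.bddBelow ⟨hx, h⟩)

theorem gap_large {S : Fin 3 → M3} (hS : IsSpinOne S) {L : ℕ} (he : Even L) (hL : 32 ≤ L) :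
    1 / 100 ≤ gap (ham S L) := by
  obtain ⟨n, rfl⟩ := he.two_dvd
  obtain ⟨h0, h1, h2, -⟩ := levels hS (L := 2 * n) (by omega)
  have e := (evals_eq hS (2 * n)).1.trans (evals_eq hS (2 * n)).2
  have e0 : E0 (ham S (2 * n)) = E0 (hamT cart (2 * n) 0) := by rw [E0, E0, e]
  rw [e] at h0 h1
  rw [e0] at h0 h2
  have := gap_cart (by omega) h1 h0 h2
  rw [gap, e0]
  linarith

theorem gap_uniform {S : Fin 3 → M3} (hS : IsSpinOne S) :
    ∃ c : ℝ, 0 < c ∧ ∀ L : ℕ, Even L → 4 ≤ L → c ≤ gap (ham S L) := by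
  obtain ⟨m, hm, hmin⟩ := Finset.exists_min_image (Finset.Icc 4 32) (fun L => gap (ham S L))
    ⟨4, by simp⟩
  have hpos : 0 < gap (ham S m) :=
    sub_pos.2 (levels hS (by have := (Finset.mem_Icc.1 hm).1; omega)).2.2.1
  refine ⟨min (1 / 100) (gap (ham S m)), lt_min (by norm_num) hpos, fun L he hL => ?_⟩
  by_cases h : 32 ≤ L
  · exact (min_le_left _ _).trans (gap_large hS he h)
  · exact (min_le_right _ _).trans (hmin L (Finset.mem_Icc.2 ⟨hL, by omega⟩))

theorem gap_liminf {S : Fin 3 → M3} (hS : IsSpinOne S) :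
    ((1 / 100 : ℝ) : EReal) ≤ liminf (fun k : ℕ => ((gap (ham S (2 * k)) : ℝ) : EReal)) atTop := by
  refine le_liminf_of_le (by isBoundedDefault) ?_
  filter_upwards [eventually_ge_atTop 16] with k hk
  exact EReal.coe_le_coe_iff.2 (gap_large hS (even_two_mul k) (by omega))

end Vale.Agent.P348
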