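/-! Computational part of the quadrature certificates (core only). -/

namespace Vale.Agent.P348.Q

/-- scale of the nodes -/
def DD : Nat := 1000000

/-- descending coefficients `7^k * DD^(N-k) * N!/k!` for `k = n, …, 0`; call with `n = N`, `P = 1` -/
def tay : Nat → Nat → List Nat
  | 0, P => [P]
  | n + 1, P => (7 ^ (n + 1) * P) :: tay n (P * (DD * (n + 1)))

/-- synthetic division by `y - X` of the polynomial with descending coefficients `r :: l`:
quotient and remainder -/
def sdiv (X : Nat) : Nat → List Nat → List Nat × Nat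
  | r, [] => ([], r)
  | r, c :: l => let p := sdiv X (c + X * r) l; (r :: p.1, p.2)

/-- multiply the measure by `DD * u + a` -/
def mstep (a : Int) : List Int → List Int
  | x :: y :: l => (DD * y + a * x) :: mstep a (y :: l)
  | _ => []

/-- Newton form of the remainder integrated against the moments; `S = DD * s` -/
def newton (S : Nat) : List Nat → List Nat → List Int → Int
  | X :: Xs, r :: l, m =>
      let p := sdiv X r l
      (p.2 : Int) * m.headD 0 + newton S Xs p.1 (mstep ((S : Int) - X) m)
  | _, _, _ => 0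

def mfold (S : Nat) : List Nat → List Int → List Int
  | [], m => m
  | X :: Xs, m => mfold S Xs (mstep ((S : Int) - X) m)

def dbl : List Nat → List Nat
  | [] => []
  | X :: Xs => X :: X :: dbl Xs

def prodB (B : Nat) : List Nat → Nat
  | [] => 1
  | X :: Xs => (B - X) * prodB B Xs

def tl (N y : Nat) : Nat := 2 * (7 * y) ^ (N + 1)

structure Cert where
  s : Nat
  j : Nat
  N : Nat
  B : Nat
  Xg : List Nat
  Xr : List Nat

/-- `mu` = doubled moments; conclusion `lo / 10^8 ≤ ∑ w exp (7 (u - 2.4015 L)) ≤ hi / 10^8` -/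
def check (L : Nat) (mu : List Int) (c : Cert) (lo hi : Nat) : Bool :=
  let S := DD * c.s
  let Y := S + 2401500 * L
  let F := tay c.N 1
  let FY := (sdiv Y (F.headD 0) F.tail).2
  decide (2 * c.j < mu.length) && decide (mu.getD (2 * c.j) 0 < 2 * (c.s : Int) ^ (2 * c.j)) &&
  decide (2 * c.Xg.length ≤ mu.length) && decide (2 * c.Xr.length + 1 ≤ mu.length) &&
  decide (mu.length ≤ c.N) &&
  decide (14 * c.B ≤ DD * (c.N + 2)) && decide (14 * Y ≤ DD * (c.N + 2)) &&
  c.Xr.all (fun X => decide (X ≤ c.B)) &&
  decide ((mfold S (dbl c.Xr) mu).headD 0 < 2 * (prodB c.B c.Xr : Int) ^ 2) &&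
  decide (((lo * 2 * (FY + tl c.N Y) : Nat) : Int) ≤ newton S (dbl c.Xg) F mu * 100000000) &&
  decide ((newton S (dbl c.Xr ++ [c.B]) F mu + (tl c.N c.B : Int) * mu.headD 0) * 100000000 ≤
    ((hi * 2 * FY : Nat) : Int))

end Vale.Agent.P348.Q
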