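import Vale.Agent.P348.Basic
import Vale.Agent.P348.QuadDefs

/-! Spectral measures of commuting projections and soundness of the quadrature certificates. -/

namespace Vale.Agent.P348

open Matrix

theorem measure_of_proj {n : Type} [Fintype n] [DecidableEq n] (M P : Matrix n n ℂ)
    (hM : M.IsHermitian) (hP : P.IsHermitian) (hPP : P * P = P) (hc : P * M = M * P) :
    ∃ w u : n → ℝ, (∀ i, 0 ≤ w i) ∧
      (∀ k : ℕ, (trace (P * M ^ k)).re = ∑ i, w i * u i ^ k) ∧
      (∀ c : ℝ, (trace (P * NormedSpace.exp ((c : ℂ) • M))).re = ∑ i, w i * Real.exp (c * u i)) ∧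
      ∀ (f : ℝ → ℝ) (i : n), w i ≠ 0 → f (u i) ^ 2 ≤ ∑ j, w j * f (u j) ^ 2 := by
  obtain ⟨U, hU, hD⟩ := spec_of_herm hM
  have hU' := mul_eq_one_comm.mp hU
  set u := hM.eigenvalues
  obtain ⟨R, hR⟩ : ∃ R, R = Uᴴ * P * U := ⟨_, rfl⟩
  have hRH : ∀ i j, star (R j i) = R i j := fun i j => by
    have : Rᴴ = R := by
      rw [hR, conjTranspose_mul, conjTranspose_mul, conjTranspose_conjTranspose, hP.eq,
        Matrix.mul_assoc]
    exact congrFun (congrFun this i) j
  have hRR : R * R = R := by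
    rw [hR]
    calc _ = Uᴴ * (P * (U * Uᴴ) * P) * U := by simp only [Matrix.mul_assoc]
      _ = _ := by rw [hU, Matrix.mul_one, hPP]
  have htr : ∀ d : n → ℝ, (trace (P * (U * diagonal (fun i => (d i : ℂ)) * Uᴴ))).re =
      ∑ i, (R i i).re * d i := fun d => by
    rw [← Matrix.mul_assoc, trace_mul_comm, ← Matrix.mul_assoc, ← Matrix.mul_assoc, ← hR, trace,
      Complex.re_sum]
    simp
  have hw : ∀ i, (R i i).re = ∑ k, ‖R k i‖ ^ 2 := fun i => by
    conv_lhs => rw [← hRR, mul_apply, Complex.re_sum]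
    refine Finset.sum_congr rfl fun k _ => ?_
    rw [← hRH i k, Complex.star_def, Complex.conj_mul', ← Complex.ofReal_pow, Complex.ofReal_re]
  have hw0 : ∀ i, 0 ≤ (R i i).re := fun i => by rw [hw]; positivity
  have hcs : ∀ i j, ‖R j i‖ ^ 2 ≤ (R j j).re * (R i i).re := fun i j => by
    rw [hw, hw]
    refine le_trans (pow_le_pow_left₀ (norm_nonneg _) ?_ 2) (Finset.sum_mul_sq_le_sq_mul_sq _ _ _)
    conv_lhs => rw [← hRR, mul_apply]
    refine (norm_sum_le _ _).trans (le_of_eq (Finset.sum_congr rfl fun k _ => ?_))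
    rw [norm_mul, ← hRH j k, norm_star]
  have hcm : ∀ i j, u j ≠ u i → R j i = 0 := fun i j h => by
    have h1 : R * diagonal (fun i => (u i : ℂ)) = diagonal (fun i => (u i : ℂ)) * R := by
      have h2 : Uᴴ * M * U = diagonal (fun i => (u i : ℂ)) := by
        rw [hD]
        calc _ = Uᴴ * U * diagonal (fun i => (u i : ℂ)) * (Uᴴ * U) := by
              simp only [Matrix.mul_assoc]
          _ = _ := by rw [hU', Matrix.mul_one, Matrix.one_mul]
      rw [← h2, hR]
      calc _ = Uᴴ * (P * (U * Uᴴ) * M) * U := by simp only [Matrix.mul_assoc]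
        _ = Uᴴ * (M * (U * Uᴴ) * P) * U := by rw [hU, Matrix.mul_one, Matrix.mul_one, hc]
        _ = _ := by simp only [Matrix.mul_assoc]
    have h3 := congrFun (congrFun h1 j) i
    rw [mul_diagonal, diagonal_mul, mul_comm] at h3
    exact (mul_eq_mul_right_iff.mp h3).resolve_left fun h4 => h (by exact_mod_cast h4.symm)
  refine ⟨fun i => (R i i).re, u, hw0, fun k => ?_, fun c => ?_, fun f i hi => ?_⟩
  · rw [← htr]
    have : M ^ k = U * diagonal (fun i => ((u i ^ k : ℝ) : ℂ)) * Uᴴ := by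
      rw [hD]
      refine (Units.conj_pow ⟨U, Uᴴ, hU, hU'⟩ _ k).trans ?_
      rw [diagonal_pow]
      simp [Pi.pow_def]
    rw [this]
  · rw [← htr, hD, ← Matrix.smul_mul, ← Matrix.mul_smul, exp_conj_of hU, ← diagonal_smul,
      Matrix.exp_diagonal, Pi.exp_def]
    simp [← Complex.exp_eq_exp_ℂ]
  · have h1 : (R i i).re * f (u i) ^ 2 ≤ (R i i).re * ∑ j, (R j j).re * f (u j) ^ 2 := by
      conv_lhs => rw [hw]
      rw [Finset.sum_mul, Finset.mul_sum]
      refine Finset.sum_le_sum fun j _ => ?_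
      by_cases h : u j = u i
      · rw [h, ← mul_assoc, mul_comm (R i i).re]
        exact mul_le_mul_of_nonneg_right (hcs i j) (sq_nonneg _)
      · rw [hcm i j h, norm_zero, zero_pow two_ne_zero, zero_mul]
        exact mul_nonneg (hw0 i) (mul_nonneg (hw0 j) (sq_nonneg _))
    exact le_of_mul_le_mul_left h1 ((hw0 i).lt_of_ne' hi)

namespace Q

/-- Horner evaluation of descending coefficients -/
def ed (y : ℝ) : ℝ → List ℕ → ℝ
  | r, [] => r
  | r, c :: l => ed y (c + y * r) l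

theorem ed_nonneg {y : ℝ} (hy : 0 ≤ y) (l : List ℕ) : ∀ {r : ℝ}, 0 ≤ r → 0 ≤ ed y r l := by
  induction l with
  | nil => exact id
  | cons c l ih => exact fun hr => ih (by positivity)

theorem ed_sdiv (y : ℝ) (X : ℕ) (l : List ℕ) : ∀ (r : ℕ) (t : ℝ),
    ed y (r + (y - X) * t) l = (sdiv X r l).2 + (y - X) * ed y t (sdiv X r l).1 := by
  induction l with
  | nil => intro r t; rfl
  | cons c l ih =>
    intro r t
    simp only [ed, sdiv]
    rw [← ih]
    congr 1
    push_cast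
    ring

theorem ed_cons (y : ℝ) (X r : ℕ) (l : List ℕ) :
    ed y 0 (r :: l) = (sdiv X r l).2 + (y - X) * ed y 0 (sdiv X r l).1 := by
  rw [← ed_sdiv, ed, mul_zero, mul_zero]

theorem ed_tay (y : ℝ) (n : ℕ) : ∀ (P : ℕ) (t : ℝ), ed y t (tay n P) = t * y ^ (n + 1) +
    P * (DD ^ n * n.factorial) * ∑ k ∈ Finset.range (n + 1), (7 * y / DD) ^ k / k.factorial := by
  induction n with
  | zero => intro P t; simp [tay, ed]; ring
  | succ n ih =>
    intro P t
    have h1 : (DD : ℝ) ≠ 0 := by simp [DD]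
    rw [tay, ed, ih, Finset.sum_range_succ _ (n + 1), Nat.factorial_succ, div_pow]
    push_cast
    field_simp
    ring

theorem tay_le {y : ℝ} (hy : 0 ≤ y) (N : ℕ) :
    ed y 0 (tay N 1) ≤ DD ^ N * N.factorial * Real.exp (7 * y / DD) := by
  rw [ed_tay, zero_mul, zero_add, Nat.cast_one, one_mul]
  exact mul_le_mul_of_nonneg_left (Real.sum_le_exp_of_nonneg (by positivity) _) (by positivity)

theorem le_tay {y : ℝ} (hy : 0 ≤ y) {N B : ℕ} (hB : y ≤ B) (h : 14 * B ≤ DD * (N + 2)) :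
    DD ^ N * N.factorial * Real.exp (7 * y / DD) ≤ ed y 0 (tay N 1) + tl N B := by
  have hD : (1 : ℝ) ≤ DD := by simp [DD]
  have h0 : 0 ≤ 7 * y / DD := by positivity
  have h1 : (14 : ℝ) * B ≤ DD * (N + 2) := by exact_mod_cast h
  have h2 := Complex.exp_bound' (x := (7 * y / DD : ℝ)) (n := N + 1) (by
    rw [Complex.norm_real, Real.norm_of_nonneg h0, div_div, div_le_iff₀ (by positivity)]
    push_cast
    linarith)
  have h3 : Real.exp (7 * y / DD) - ∑ k ∈ Finset.range (N + 1), (7 * y / DD) ^ k / k.factorial ≤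
      (7 * y / DD) ^ (N + 1) / (N + 1).factorial * 2 := by
    rw [Complex.norm_real, Real.norm_of_nonneg h0] at h2
    refine (le_abs_self _).trans (le_trans (le_of_eq ?_) h2)
    rw [← Real.norm_eq_abs, ← Complex.norm_real]
    push_cast
    rfl
  have h4 : (DD : ℝ) ^ N * N.factorial * ((7 * y / DD) ^ (N + 1) / (N + 1).factorial * 2) ≤
      tl N B := by
    rw [tl, Nat.factorial_succ, div_pow]
    push_cast
    calc _ = 2 * (7 * y) ^ (N + 1) / (DD * (N + 1)) := by field_simp; ring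
      _ ≤ 2 * (7 * y) ^ (N + 1) := div_le_self (by positivity) (one_le_mul_of_one_le_of_one_le hD
        (by linarith [N.cast_nonneg (α := ℝ)]))
      _ ≤ _ := by gcongr
  rw [ed_tay, zero_mul, zero_add, Nat.cast_one, one_mul]
  have h5 := mul_le_mul_of_nonneg_left h3
    (show (0 : ℝ) ≤ DD ^ N * N.factorial by positivity)
  linarith

variable {ι : Type} [Fintype ι] (u : ι → ℝ)

/-- the list holds the first `n` doubled moments of the weights -/
def Rep (m : List ℤ) (n : ℕ) (g : ι → ℝ) : Prop :=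
  n ≤ m.length ∧ ∀ k, k < n → 2 * ∑ i, g i * u i ^ k = (m.getD k 0 : ℝ)

theorem mstep_spec (a : ℤ) (m : List ℤ) : m.length ≤ (mstep a m).length + 1 ∧
    ∀ k, k + 1 < m.length → (mstep a m).getD k 0 = DD * m.getD (k + 1) 0 + a * m.getD k 0 := by
  induction m with
  | nil => simp
  | cons x m ih =>
    cases m with
    | nil => simp
    | cons y l =>
      refine ⟨Nat.succ_le_succ ih.1, fun k hk => ?_⟩
      cases k with
      | zero => rfl
      | succ k => exact ih.2 k (Nat.lt_of_succ_lt_succ hk)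

variable {u}

theorem Rep.step {m : List ℤ} {n : ℕ} {g : ι → ℝ} (h : Rep u m (n + 1) g) (S X : ℕ) :
    Rep u (mstep ((S : ℤ) - X) m) n fun i => g i * (DD * u i + S - X) := by
  refine ⟨Nat.le_of_succ_le_succ (h.1.trans (mstep_spec _ m).1), fun k hk => ?_⟩
  rw [(mstep_spec _ m).2 k ((Nat.succ_lt_succ hk).trans_le h.1)]
  push_cast
  rw [← h.2 (k + 1) (Nat.succ_lt_succ hk), ← h.2 k (Nat.lt_succ_of_lt hk)]
  simp only [Finset.mul_sum, ← Finset.sum_add_distrib]
  exact Finset.sum_congr rfl fun i _ => by ring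

theorem Rep.head {m : List ℤ} {n : ℕ} {g : ι → ℝ} (h : Rep u m (n + 1) g) :
    (m.headD 0 : ℝ) = 2 * ∑ i, g i := by
  have := h.2 0 n.succ_pos
  simp only [pow_zero, mul_one] at this
  rw [this]
  cases m <;> rfl

/-- the node polynomial -/
def np (y : ℝ) : List ℕ → ℝ
  | [] => 1
  | X :: Xs => (y - X) * np y Xs

theorem np_dbl (y : ℝ) (Xs l : List ℕ) : np y (dbl Xs ++ l) = np y Xs ^ 2 * np y l := by
  induction Xs with
  | nil => simp [dbl, np]
  | cons X Xs ih => simp only [dbl, List.cons_append, np, ih]; ring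

theorem np_dbl' (y : ℝ) (Xs : List ℕ) : np y (dbl Xs) = np y Xs ^ 2 := by
  simpa [np] using np_dbl y Xs []

theorem length_dbl (Xs : List ℕ) : (dbl Xs).length = 2 * Xs.length := by
  induction Xs with
  | nil => rfl
  | cons X Xs ih => simp only [dbl, List.length_cons, ih]; ring

theorem prodB_le {y : ℝ} {B : ℕ} (hy : (B : ℝ) ≤ y) (Xs : List ℕ) (h : ∀ X ∈ Xs, X ≤ B) :
    (prodB B Xs : ℝ) ≤ np y Xs := by
  induction Xs with
  | nil => simp [prodB, np]
  | cons X Xs ih =>
    have h1 := h X List.mem_cons_self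
    have h2 : (X : ℝ) ≤ B := Nat.cast_le.mpr h1
    rw [prodB, np, Nat.cast_mul, Nat.cast_sub h1]
    exact mul_le_mul (by linarith) (ih fun Z hZ => h Z (List.mem_cons_of_mem _ hZ))
      (Nat.cast_nonneg _) (by linarith)

theorem Rep.mfold (S n : ℕ) (Xs : List ℕ) : ∀ {m : List ℤ} {g : ι → ℝ},
    Rep u m (n + Xs.length) g → Rep u (mfold S Xs m) n fun i => g i * np (DD * u i + S) Xs := by
  induction Xs with
  | nil => intro m g h; simpa [np, Q.mfold] using h
  | cons X Xs ih =>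
    intro m g h
    simpa only [np, Q.mfold, mul_assoc] using ih (h.step S X)

theorem newton_spec (S : ℕ) (Xs : List ℕ) : ∀ (F : List ℕ) {m : List ℤ} {g : ι → ℝ},
    Rep u m Xs.length g → ∃ q : List ℕ, 2 * ∑ i, g i * ed (DD * u i + S) 0 F = newton S Xs F m +
      2 * ∑ i, g i * np (DD * u i + S) Xs * ed (DD * u i + S) 0 q := by
  induction Xs with
  | nil => intro F m g _; exact ⟨F, by simp [newton, np]⟩
  | cons X Xs ih =>
    rintro (_ | ⟨r, l⟩) m g h
    · exact ⟨[], by simp [newton, ed]⟩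
    · obtain ⟨q, hq⟩ := ih (sdiv X r l).1 (h.step S X)
      refine ⟨q, ?_⟩
      simp only [newton, np, ed_cons _ X, mul_add (g _), Finset.sum_add_distrib, ← mul_assoc,
        ← Finset.sum_mul] at hq ⊢
      push_cast
      rw [h.head]
      linarith

theorem tay_cons (N P : ℕ) : tay N P = (tay N P).headD 0 :: (tay N P).tail := by
  cases N <;> rfl

end Q

open Q in
theorem quad_sound {ι : Type} [Fintype ι] (w u : ι → ℝ) (hw : ∀ i, 0 ≤ w i)
    (hint : ∀ (f : ℝ → ℝ) (i : ι), w i ≠ 0 → f (u i) ^ 2 ≤ ∑ j, w j * f (u j) ^ 2)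
    (mu : List ℤ) (hmu : ∀ k, k < mu.length → 2 * ∑ i, w i * u i ^ k = (mu.getD k 0 : ℝ))
    (L : ℕ) (c : Q.Cert) (lo hi : ℕ) (h : Q.check L mu c lo hi = true) :
    (lo : ℝ) / 10 ^ 8 ≤ Real.exp (-(7 * (24015 / 10000 * L))) * ∑ i, w i * Real.exp (7 * u i) ∧
    Real.exp (-(7 * (24015 / 10000 * L))) * ∑ i, w i * Real.exp (7 * u i) ≤ (hi : ℝ) / 10 ^ 8 := by
  simp only [check, Bool.and_eq_true, decide_eq_true_eq, List.all_eq_true] at h
  obtain ⟨⟨⟨⟨⟨⟨⟨⟨⟨⟨h1, h2⟩, h3⟩, h4⟩, -⟩, h5⟩, h6⟩, h7⟩, h8⟩, h9⟩, h10⟩ := h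
  have hR : ∀ n ≤ mu.length, Rep u mu n w := fun n hn => ⟨hn, fun k hk => hmu k (hk.trans_le hn)⟩
  set S := DD * c.s with hS
  set Y := S + 2401500 * L with hY
  have hD : (DD : ℝ) = 1000000 := by simp [DD]
  have hy : ∀ i, w i ≠ 0 → 0 ≤ DD * u i + S ∧ DD * u i + S ≤ c.B := fun i hi => by
    constructor
    · have k1 := hint (· ^ c.j) i hi
      have k2 : (mu.getD (2 * c.j) 0 : ℝ) < 2 * (c.s : ℝ) ^ (2 * c.j) := by exact_mod_cast h2
      simp only [← pow_mul'] at k1
      rw [← hmu _ h1] at k2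
      have k3 := lt_of_pow_lt_pow_left₀ (2 * c.j) (Nat.cast_nonneg c.s) (show |u i| ^ _ < _ by
        rw [Even.pow_abs (even_two_mul _)]; linarith)
      rw [hS, Nat.cast_mul, hD]
      linarith [(abs_lt.mp k3).1]
    · refine not_lt.mp fun hB => ?_
      have k1 := hint (fun x => np (DD * x + S) c.Xr) i hi
      have k2 := (Rep.mfold S (0 + 1) (dbl c.Xr) (hR _ (by rw [length_dbl]; omega))).head
      have k3 := (Int.cast_lt (R := ℝ)).mpr h8
      have k4 := pow_le_pow_left₀ (Nat.cast_nonneg _) (prodB_le hB.le c.Xr h7) 2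
      simp only [np_dbl'] at k2
      rw [k2] at k3
      push_cast at k3
      linarith
  have hle : ∀ {f g : ι → ℝ}, (∀ i, w i ≠ 0 → f i ≤ g i) → ∑ i, w i * f i ≤ ∑ i, w i * g i :=
    fun h => Finset.sum_le_sum fun i _ => by
      by_cases hi : w i = 0
      · simp [hi]
      · exact mul_le_mul_of_nonneg_left (h i hi) (hw i)
  obtain ⟨q1, e1⟩ := newton_spec S (dbl c.Xg) (tay c.N 1) (hR _ (by rwa [length_dbl]))
  obtain ⟨q2, e2⟩ := newton_spec S (dbl c.Xr ++ [c.B]) (tay c.N 1)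
    (hR _ (by rwa [List.length_append, length_dbl]))
  simp only [mul_assoc (w _), np_dbl, np_dbl'] at e1 e2
  have e3 := hle (f := fun _ => 0) fun i hi =>
    mul_nonneg (sq_nonneg (np (DD * u i + S) c.Xg)) (ed_nonneg (hy i hi).1 q1 le_rfl)
  have e4 := hle (g := fun _ => 0) fun i hi => mul_nonpos_of_nonpos_of_nonneg
    (mul_nonpos_of_nonneg_of_nonpos (sq_nonneg (np (DD * u i + S) c.Xr))
      (show np (DD * u i + S) [c.B] ≤ 0 by simpa [np] using (hy i hi).2))
    (ed_nonneg (hy i hi).1 q2 le_rfl)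
  have e5 := hle fun i hi => tay_le (hy i hi).1 c.N
  have e6 := hle fun i hi => le_tay (hy i hi).1 (hy i hi).2 h5
  have e7 := tay_le (Nat.cast_nonneg Y) c.N
  have e8 := le_tay (Nat.cast_nonneg Y) le_rfl h6
  have e9 : ed Y 0 (tay c.N 1) = (sdiv Y ((tay c.N 1).headD 0) (tay c.N 1).tail).2 := by
    conv_lhs => rw [tay_cons]
    rw [ed_cons _ Y, sub_self, zero_mul, add_zero]
  have e10 := (hR (0 + 1) (by omega)).head
  have h9 := (Int.cast_le (R := ℝ)).mpr h9
  have h10 := (Int.cast_le (R := ℝ)).mpr h10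
  push_cast at h9 h10
  rw [← e9] at h9 h10
  set K : ℝ := DD ^ c.N * c.N.factorial * Real.exp (7 * Y / DD) with hKd
  have hK : 0 < K := by rw [hKd, hD]; positivity
  have e11 : ∑ i, w i * (DD ^ c.N * c.N.factorial * Real.exp (7 * (DD * u i + S) / DD)) =
      K * (Real.exp (-(7 * (24015 / 10000 * L))) * ∑ i, w i * Real.exp (7 * u i)) := by
    simp only [Finset.mul_sum]
    refine Finset.sum_congr rfl fun i _ => ?_
    have : 7 * (DD * u i + S) / DD = 7 * Y / DD + -(7 * (24015 / 10000 * L)) + 7 * u i := by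
      rw [hY, Nat.cast_add, hD]
      push_cast
      ring
    rw [this, Real.exp_add, Real.exp_add, hKd]
    ring
  simp only [mul_zero, Finset.sum_const_zero, mul_add (w _), Finset.sum_add_distrib,
    ← Finset.sum_mul] at e3 e4 e6
  rw [e11] at e5 e6
  have lo0 : (0 : ℝ) ≤ lo := Nat.cast_nonneg _
  have hi0 : (0 : ℝ) ≤ hi := Nat.cast_nonneg _
  constructor
  · rw [div_le_iff₀ (by norm_num)]
    refine le_of_mul_le_mul_left ?_ hK
    nlinarith [mul_le_mul_of_nonneg_left e8 lo0]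
  · rw [le_div_iff₀ (by norm_num)]
    refine le_of_mul_le_mul_left ?_ hK
    rw [e10] at h10
    nlinarith [mul_le_mul_of_nonneg_left e7 hi0]

end Vale.Agent.P348
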