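import Vale.Agent.P348.Mz
import Vale.Agent.P348.Quad

/-! From the twisted partition functions to sector traces of the integer matrix `Mz`. -/

namespace Vale.Agent.P348

open Matrix

/-- `Mz` as a complex matrix -/
def Mc (L : ℕ) (σ : ℤ) : Op L := (Mz L σ).map (fun x => (x : ℂ))

/-- projection on the states whose digit sum satisfies `p` -/
def Pi (L : ℕ) (p : ℕ → Bool) : Op L := diagonal (fun s => if p (dsum s) then 1 else 0)

/-- the global flip -/
def Fl (L : ℕ) : Op L := Matrix.of fun s t => if t = flip s then 1 else 0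

/-- projections on the flip-even and flip-odd states of magnetisation zero -/
noncomputable def Pf (L : ℕ) (e : ℤ) : Op L :=
  (1 / 2 : ℂ) • (Pi L (fun n => n == L) * (1 + (e : ℂ) • Fl L))

/-- normalised trace -/
noncomputable def zz (L : ℕ) (σ : ℤ) (P : Op L) : ℝ :=
  Real.exp (-(7 * (24015 / 10000 * L))) *
    (trace (P * NormedSpace.exp (((7 : ℝ) : ℂ) • Mc L σ))).re

/-- normalised partition function at inverse temperature 7 -/
noncomputable def Zn (L : ℕ) (g h : Fin 4) : ℝ :=
  Real.exp (-(7 * (14015 / 10000 * L))) * Zf cart L 7 g h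

/-- positive even magnetisation -/
def pE (L n : ℕ) : Bool := decide (n < L) && ((L - n) % 2 == 0)
/-- positive odd magnetisation -/
def pA (L n : ℕ) : Bool := decide (n < L) && ((L - n) % 2 == 1)
/-- magnetisation one -/
def p1 (L n : ℕ) : Bool := n + 1 == L
/-- odd magnetisation at least three -/
def pO (L n : ℕ) : Bool := decide (n + 1 < L) && ((L - n) % 2 == 1)

theorem dsum_flip {L : ℕ} (s : St L) : dsum (flip s) + dsum s = 2 * L := by
  simp only [dsum, flip, ← Finset.sum_add_distrib]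
  rw [Finset.sum_congr rfl (g := fun _ => 2)]
  · simp [mul_comm]
  · intro j _
    have := (s j).isLt
    rw [Fin.val_rev]
    omega

theorem Fl_mul {L : ℕ} (A : Op L) (s t : St L) : (Fl L * A) s t = A (flip s) t := by
  simp [Fl, Matrix.mul_apply]

theorem mul_Fl {L : ℕ} (A : Op L) (s t : St L) : (A * Fl L) s t = A s (flip t) := by
  rw [Matrix.mul_apply, Finset.sum_eq_single (flip t)]
  · simp [Fl, flip_flip]
  · intro u _ hu
    have : t ≠ flip u := fun e => hu (by rw [e, flip_flip])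
    simp [Fl, this]
  · simp

theorem Fl_mul_Fl (L : ℕ) : Fl L * Fl L = 1 := by
  ext s t
  rw [Fl_mul]
  simp [Fl, flip_flip, Matrix.one_apply, eq_comm]

theorem Fl_herm (L : ℕ) : (Fl L)ᴴ = Fl L := by
  ext s t
  simp only [Fl, conjTranspose_apply, Matrix.of_apply]
  by_cases h : t = flip s
  · rw [if_pos h, if_pos (by rw [h, flip_flip]), star_one]
  · rw [if_neg h, if_neg (fun e => h (by rw [e, flip_flip])), star_zero]

theorem Mc_pow (L : ℕ) (σ : ℤ) (k : ℕ) (s t : St L) :
    (Mc L σ ^ k) s t = (((Mz L σ ^ k) s t : ℤ) : ℂ) := by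
  have : Mc L σ = (Int.castRingHom ℂ).mapMatrix (Mz L σ) := rfl
  rw [this, ← map_pow]
  rfl

theorem Mc_herm {L : ℕ} (hL : 2 ≤ L) (σ : ℤ) : (Mc L σ).IsHermitian := by
  ext s t
  simp [Mc, conjTranspose_apply, Mz_symm hL σ s t]

theorem Fl_comm (L : ℕ) (σ : ℤ) : Fl L * Mc L σ = Mc L σ * Fl L := by
  ext s t
  rw [Fl_mul, mul_Fl]
  simp only [Mc, Matrix.map_apply]
  rw [← Mz_flip σ s (flip t), flip_flip]

theorem diag_comm {L : ℕ} (hL : 2 ≤ L) (σ : ℤ) (f : ℕ → ℂ) :
    diagonal (fun s => f (dsum s)) * Mc L σ = Mc L σ * diagonal (fun s => f (dsum s)) := by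
  ext s t
  rw [diagonal_mul, mul_diagonal]
  by_cases h : dsum s = dsum t
  · rw [h, mul_comm]
  · simp [Mc, Mz_dsum hL σ s t h]

/-- the heat kernel -/
noncomputable def Ex (L : ℕ) (σ : ℤ) : Op L := NormedSpace.exp (((7 : ℝ) : ℂ) • Mc L σ)

theorem comm_Ex {L : ℕ} {σ : ℤ} {A : Op L} (h : A * Mc L σ = Mc L σ * A) :
    A * Ex L σ = Ex L σ * A := by
  have h1 : Commute A (((7 : ℝ) : ℂ) • Mc L σ) := Commute.smul_right h _
  exact h1.exp_right

theorem Ex_flip (L : ℕ) (σ : ℤ) (s : St L) : Ex L σ (flip s) (flip s) = Ex L σ s s := by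
  have h := congrFun (congrFun (comm_Ex (Fl_comm L σ)) s) (flip s)
  rwa [Fl_mul, mul_Fl, flip_flip] at h

theorem Ex_dsum {L : ℕ} (hL : 2 ≤ L) (σ : ℤ) (s t : St L) (h : dsum s ≠ dsum t) :
    Ex L σ s t = 0 := by
  have h1 := congrFun (congrFun (comm_Ex (diag_comm hL σ (fun n => (n : ℂ)))) s) t
  rw [diagonal_mul, mul_diagonal] at h1
  have h2 : ((dsum s : ℂ) - dsum t) * Ex L σ s t = 0 := by linear_combination h1
  refine (mul_eq_zero.1 h2).resolve_left fun e => h ?_
  exact_mod_cast sub_eq_zero.1 e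

theorem trace_diag {L : ℕ} (w : St L → ℂ) (A : Op L) :
    trace (diagonal w * A) = ∑ s, w s * A s s := by
  simp [trace, diagonal_mul]

theorem trace_Pi {L : ℕ} (p : ℕ → Bool) (A : Op L) :
    trace (Pi L p * A) = ∑ s, if p (dsum s) then A s s else 0 := by
  rw [Pi, trace_diag]
  refine Finset.sum_congr rfl fun s _ => ?_
  split_ifs <;> simp

theorem trace_Pf {L : ℕ} (e : ℤ) (A : Op L) :
    trace (Pf L e * A) =
      (1 / 2 : ℂ) * ∑ s, if dsum s = L then A s s + e * A (flip s) s else 0 := by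
  rw [Pf, Matrix.smul_mul, trace_smul, Matrix.mul_assoc, trace_Pi, smul_eq_mul]
  congr 1
  refine Finset.sum_congr rfl fun s _ => ?_
  simp only [beq_iff_eq, Matrix.add_mul, Matrix.one_mul, Matrix.smul_mul, Matrix.add_apply,
    Matrix.smul_apply, Fl_mul, smul_eq_mul]

/-- the Marshall gauge -/
def gau {L : ℕ} (s : St L) : ℂ := ∏ j : Fin L, (-1) ^ (j.val * (s j).val)

theorem gau_sq {L : ℕ} (s : St L) : gau s * gau s = 1 := by
  rw [gau, ← Finset.prod_mul_distrib]
  refine Finset.prod_eq_one fun j _ => ?_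
  rw [← pow_add, ← two_mul, pow_mul]
  simp

theorem gau_flip {L : ℕ} (s : St L) : gau (flip s) * gau s = 1 := by
  rw [gau, gau, ← Finset.prod_mul_distrib]
  refine Finset.prod_eq_one fun j _ => ?_
  have h : (flip s j).val + (s j).val = 2 := by
    have := (s j).isLt
    simp only [flip, Fin.val_rev]
    omega
  rw [← pow_add, ← mul_add, h, mul_comm, pow_mul]
  simp

theorem gau_agr {L : ℕ} {j k : Fin L} (hjk : j ≠ k) {s t : St L} (h : Agr j k s t) :
    gau s * gau t =
      (-1) ^ (j.val * ((s j).val + (t j).val)) * (-1) ^ (k.val * ((s k).val + (t k).val)) := by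
  rw [gau, gau, ← Finset.prod_mul_distrib]
  simp only [← pow_add, ← mul_add]
  rw [pow_add]
  refine Finset.prod_eq_mul j k hjk (fun i _ hi => ?_) (by simp) (by simp)
  rw [h i hi.1 hi.2, ← two_mul, mul_left_comm, pow_mul]
  simp

theorem site_mul_site {L : ℕ} {j k : Fin L} (hjk : j ≠ k) (A B : M3) (s t : St L) :
    (site L j A * site L k B) s t =
      if Agr j k s t then A (s j) (t j) * B (s k) (t k) else 0 := by
  rw [Matrix.mul_apply, Finset.sum_eq_single (Function.update s j (t j))]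
  · simp only [site, Matrix.of_apply, Function.update_self, Function.update_of_ne hjk.symm]
    rw [if_pos (fun i hi => (Function.update_of_ne hi _ _).symm)]
    by_cases h : Agr j k s t
    · rw [if_pos h, if_pos]
      intro i hi
      by_cases hij : i = j
      · subst hij; exact Function.update_self _ _ _
      · rw [Function.update_of_ne hij]; exact h i hij hi
    · rw [if_neg h, if_neg, mul_zero]
      intro h'
      exact h fun i h1 h2 => by rw [← h' i h2, Function.update_of_ne h1]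
  · intro u _ hu
    simp only [site, Matrix.of_apply]
    by_cases h1 : ∀ i, i ≠ j → s i = u i
    · rw [if_neg (c := ∀ i, i ≠ k → u i = t i), mul_zero]
      intro h2
      apply hu
      funext i
      by_cases hij : i = j
      · subst hij; rw [Function.update_self]; exact h2 i hjk
      · rw [Function.update_of_ne hij]; exact (h1 i hij).symm
    · rw [if_neg h1, zero_mul]
  · simp

theorem std_xy (a b c d : Fin 3) :
    std 0 a c * std 0 b d + std 1 a c * std 1 b d =
      if (c.val = a.val + 1 ∧ b.val = d.val + 1) ∨ (a.val = c.val + 1 ∧ d.val = b.val + 1) then 1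
      else 0 := by
  have h2 : ((√2 : ℝ) : ℂ)⁻¹ * ((√2 : ℝ) : ℂ)⁻¹ = 1 / 2 := by
    rw [← mul_inv, ← Complex.ofReal_mul, Real.mul_self_sqrt (by norm_num)]
    norm_num
  have e : std 0 a c * std 0 b d + std 1 a c * std 1 b d =
      (1 / 2 : ℂ) * ((!![0, 1, 0; 1, 0, 1; 0, 1, 0] : M3) a c * (!![0, 1, 0; 1, 0, 1; 0, 1, 0] : M3) b d +
        (!![0, -Complex.I, 0; Complex.I, 0, -Complex.I; 0, Complex.I, 0] : M3) a c *
        (!![0, -Complex.I, 0; Complex.I, 0, -Complex.I; 0, Complex.I, 0] : M3) b d) := by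
    rw [← h2]
    simp only [std, Matrix.cons_val_zero, Matrix.cons_val_one, Matrix.smul_apply, smul_eq_mul]
    ring
  rw [e]
  fin_cases a <;> fin_cases b <;> fin_cases c <;> fin_cases d <;> simp <;> norm_num

theorem std_z (a c : Fin 3) : std 2 a c = if a = c then 1 - (a.val : ℂ) else 0 := by
  fin_cases a <;> fin_cases c <;> simp [std]
  norm_num

theorem bond_eq (ε : ℤ) (x y : ℕ) (a b c d : Fin 3) :
    (-1 : ℂ) ^ (x * (a.val + c.val)) * (-1) ^ (y * (b.val + d.val)) *
      ((if a = c ∧ b = d then 1 else 0) -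
        (ε * (std 0 a c * std 0 b d + std 1 a c * std 1 b d) + std 2 a c * std 2 b d)) =
      (bz (-ε * (-1) ^ (x + y)) a b c d : ℤ) := by
  rw [std_xy, std_z, std_z, bz]
  by_cases h : a = c ∧ b = d
  · obtain ⟨rfl, rfl⟩ := h
    have e : ∀ z w : ℕ, (-1 : ℂ) ^ (z * (w + w)) = 1 := fun z w => by
      rw [← two_mul, mul_left_comm, pow_mul]; simp
    rw [e, e]
    simp
  · rw [if_neg h, if_neg h]
    have hz : (if a = c then 1 - (a.val : ℂ) else 0) * (if b = d then 1 - (b.val : ℂ) else 0) = 0 := by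
      by_cases h1 : a = c
      · rw [if_neg (c := b = d) (fun h2 => h ⟨h1, h2⟩), mul_zero]
      · rw [if_neg h1, zero_mul]
    rw [hz]
    have e : ∀ z w w' : ℕ, w = w' + 1 ∨ w' = w + 1 → (-1 : ℂ) ^ (z * (w + w')) = (-1) ^ z := by
      intro z w w' hw
      have : Odd (w + w') := by
        rcases hw with rfl | rfl
        · exact ⟨w', by ring⟩
        · exact ⟨w, by ring⟩
      rw [mul_comm, pow_mul, this.neg_one_pow]
    split_ifs with h1
    · rw [e x _ _ (by omega), e y _ _ (by omega)]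
      push_cast
      rw [pow_add]
      ring
    · simp

theorem sgn_sig {L : ℕ} (hL : 2 ≤ L) (h : Fin 4) (j : Fin L) :
    sgn L (sig L h) j = -(if (finRotate L j).val = 0 then (if h = 0 then 1 else -1) else 1) *
      (-1) ^ (j.val + (finRotate L j).val) := by
  obtain ⟨n, rfl⟩ : ∃ n, L = n + 1 := ⟨L - 1, by omega⟩
  unfold sgn sig
  by_cases hj : j = Fin.last n
  · subst hj
    rw [finRotate_last]
    simp only [Fin.val_zero, if_true, Fin.val_last, add_zero, pow_succ]
    ring
  · rw [coe_finRotate_of_ne_last hj, if_neg (by omega), if_neg (by omega),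
      (show Odd (j.val + (j.val + 1)) from ⟨j.val, by ring⟩).neg_one_pow]
    norm_num

theorem gauge_ham {L : ℕ} (hL : 2 ≤ L) {h : Fin 4} (hh : h = 0 ∨ h = 3) :
    hamT std L h = diagonal gau * ((L : ℂ) • 1 - Mc L (sig L h)) * diagonal gau := by
  have key : ∀ s t : St L, gau s * gau t * (((L : ℂ) • 1 - hamT std L h : Op L) s t) =
      Mc L (sig L h) s t := by
    intro s t
    have e1 : ((L : ℂ) • 1 - hamT std L h : Op L) s t = ∑ j : Fin L, ((1 : Op L) s t -
        ∑ a : Fin 3, (if (finRotate L j).val = 0 then ((sg h a : ℝ) : ℂ) else 1) *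
          (site L j (std a) * site L (finRotate L j) (std a)) s t) := by
      rw [Finset.sum_sub_distrib]
      simp only [hamT, Matrix.sub_apply, Matrix.smul_apply, Matrix.sum_apply, smul_eq_mul,
        Finset.sum_const, Finset.card_univ, Fintype.card_fin, nsmul_eq_mul]
    rw [e1, Finset.mul_sum]
    simp only [Mc, Mz, Matrix.map_apply, Matrix.sum_apply, Int.cast_sum]
    refine Finset.sum_congr rfl fun j _ => ?_
    have hne := (rot_ne hL j).symm
    rw [Bz_apply hL, sgn_sig hL]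
    simp only [site_mul_site hne]
    generalize finRotate L j = k at hne ⊢
    by_cases hA : Agr j k s t
    · simp only [if_pos hA]
      rw [gau_agr hne hA, ← bond_eq]
      have e2 : (1 : Op L) s t = if s j = t j ∧ s k = t k then 1 else 0 := by
        rw [Matrix.one_apply]
        refine if_congr ⟨fun e => by rw [e]; exact ⟨rfl, rfl⟩, fun e => ?_⟩ rfl rfl
        funext i
        by_cases h1 : i = j
        · rw [h1]; exact e.1
        · by_cases h2 : i = k
          · rw [h2]; exact e.2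
          · exact hA i h1 h2
      rw [e2, Fin.sum_univ_three]
      congr 2
      by_cases hk : k.val = 0
      · rcases hh with rfl | rfl
        · simp [hk, sg]
        · have s0 : sg 3 0 = -1 := by simp [sg]
          have s1 : sg 3 1 = -1 := by simp [sg]
          have s2 : sg 3 2 = 1 := by simp [sg]
          simp only [if_pos hk, s0, s1, s2, show ¬ ((3 : Fin 4) = 0) by decide, if_false]
          push_cast
          ring
      · simp only [if_neg hk]
        push_cast
        ring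
    · have hst : s ≠ t := fun e => hA (fun i _ _ => by rw [e])
      simp [if_neg hA, Matrix.one_apply_ne hst]
  ext s t
  rw [mul_diagonal, diagonal_mul, Matrix.sub_apply, ← key, Matrix.sub_apply, Matrix.smul_apply,
    Matrix.one_apply]
  have h1 := gau_sq s
  have h2 := gau_sq t
  split_ifs with hst
  · subst hst
    simp only [smul_eq_mul, mul_one]
    linear_combination (-(hamT std L h s s) * (1 + gau s * gau s) + L * (gau s * gau s)) * h1
  · simp only [smul_zero]
    linear_combination (-(hamT std L h s t) * (gau t * gau t)) * h1 - (hamT std L h s t) * h2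

theorem gau_mul_gau (L : ℕ) : (diagonal gau * diagonal gau : Op L) = 1 := by
  rw [diagonal_mul_diagonal]
  simp only [gau_sq]
  exact diagonal_one

theorem exp_hamT {L : ℕ} (hL : 2 ≤ L) {h : Fin 4} (hh : h = 0 ∨ h = 3) :
    NormedSpace.exp ((-((7 : ℝ) : ℂ)) • hamT std L h) =
      ((Real.exp (-(7 * L)) : ℝ) : ℂ) • (diagonal gau * Ex L (sig L h) * diagonal gau) := by
  let U : (Op L)ˣ := ⟨diagonal gau, diagonal gau, gau_mul_gau L, gau_mul_gau L⟩
  have e1 : (-((7 : ℝ) : ℂ)) • hamT std L h =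
      (U : Op L) * (diagonal (fun _ => ((-(7 * L) : ℝ) : ℂ)) + ((7 : ℝ) : ℂ) • Mc L (sig L h)) *
        ((U⁻¹ : (Op L)ˣ) : Op L) := by
    rw [gauge_ham hL hh, ← Matrix.smul_mul, ← Matrix.mul_smul]
    congr 2
    rw [← smul_one_eq_diagonal, smul_sub, smul_smul, neg_smul ((7 : ℝ) : ℂ) (Mc L (sig L h)),
      sub_neg_eq_add]
    push_cast
    rw [neg_mul]
  have hc : Commute (diagonal (fun _ : St L => ((-(7 * L) : ℝ) : ℂ)))
      (((7 : ℝ) : ℂ) • Mc L (sig L h)) := by
    rw [← smul_one_eq_diagonal]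
    exact (Commute.one_left _).smul_left _
  rw [e1, Matrix.exp_units_conj, Matrix.exp_add_of_commute _ _ hc, Matrix.exp_diagonal]
  have e2 : (diagonal (NormedSpace.exp fun _ : St L => ((-(7 * L) : ℝ) : ℂ)) : Op L) =
      ((Real.exp (-(7 * L)) : ℝ) : ℂ) • 1 := by
    rw [smul_one_eq_diagonal]
    congr 1
    funext s
    rw [Pi.coe_exp, ← Complex.exp_eq_exp_ℂ, Complex.ofReal_exp]
  rw [e2, Matrix.smul_mul, Matrix.one_mul, Matrix.mul_smul, Matrix.smul_mul]
  rfl

theorem Zn_trace {L : ℕ} (hL : 2 ≤ L) (g : Fin 4) {h : Fin 4} (hh : h = 0 ∨ h = 3) :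
    Zn L g h = zz L (sig L h)
      (diagonal gau * tens (fun _ : Fin L => rot std g) * diagonal gau) := by
  obtain ⟨U, V, hUV, hs⟩ := std_conj
  have e : Zf cart L 7 g h = Zf std L 7 g h := by rw [hs, Zf_conj cart hUV]
  rw [Zn, e, Zf, exp_hamT hL hh, Matrix.mul_smul, trace_smul, smul_eq_mul, Complex.re_ofReal_mul,
    ← mul_assoc, ← Real.exp_add, zz, ← Matrix.mul_assoc, trace_mul_comm, ← Matrix.mul_assoc,
    ← Matrix.mul_assoc]
  congr 2
  ring

theorem tens_diag {L : ℕ} (w : Fin 3 → ℂ) :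
    tens (fun _ : Fin L => diagonal w) = diagonal (fun s => ∏ j, w (s j)) := by
  ext s t
  simp only [tens, Matrix.of_apply]
  by_cases h : s = t
  · subst h; simp
  · rw [diagonal_apply_ne _ h]
    obtain ⟨j, hj⟩ := Function.ne_iff.1 h
    exact Finset.prod_eq_zero (Finset.mem_univ j) (diagonal_apply_ne _ hj)

theorem rot_std_three : rot std 3 = diagonal (fun a => (-1) ^ (1 + a.val)) := by
  have e : rot std 3 = 1 - (2 : ℂ) • (std 2 * std 2) := rfl
  rw [e]
  ext a c
  fin_cases a <;> fin_cases c <;> simp [Matrix.mul_apply, std_z] <;> norm_num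

theorem rot_std_one (a c : Fin 3) : rot std 1 a c = if c = Fin.rev a then -1 else 0 := by
  have e : rot std 1 = 1 - (2 : ℂ) • (std 0 * std 0) := rfl
  have h2 : ((√2 : ℝ) : ℂ)⁻¹ * ((√2 : ℝ) : ℂ)⁻¹ = 1 / 2 := by
    rw [← mul_inv, ← Complex.ofReal_mul, Real.mul_self_sqrt (by norm_num)]
    norm_num
  have e0 : std 0 = ((√2 : ℝ) : ℂ)⁻¹ • (!![0, 1, 0; 1, 0, 1; 0, 1, 0] : M3) := rfl
  rw [e, e0, Matrix.smul_mul, Matrix.mul_smul, smul_smul ((√2 : ℝ) : ℂ)⁻¹, h2, smul_smul]
  fin_cases a <;> fin_cases c <;> simp [Fin.rev]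

theorem gau_rot_zero (L : ℕ) :
    diagonal gau * tens (fun _ : Fin L => rot std 0) * diagonal gau = diagonal (fun _ => 1) := by
  have e : rot std 0 = diagonal (fun _ => 1) := diagonal_one.symm
  rw [e, tens_diag, diagonal_mul_diagonal, diagonal_mul_diagonal]
  congr 1
  funext s
  simp [gau_sq]

theorem gau_rot_three (L : ℕ) :
    diagonal gau * tens (fun _ : Fin L => rot std 3) * diagonal gau =
      diagonal (fun s => (-1) ^ (L + dsum s)) := by
  rw [rot_std_three, tens_diag, diagonal_mul_diagonal, diagonal_mul_diagonal]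
  congr 1
  funext s
  rw [mul_right_comm, gau_sq, one_mul, Finset.prod_pow_eq_pow_sum, Finset.sum_add_distrib]
  simp [dsum]

theorem gau_rot_one (L : ℕ) :
    diagonal gau * tens (fun _ : Fin L => rot std 1) * diagonal gau =
      (((-1) ^ L : ℝ) : ℂ) • Fl L := by
  ext s t
  rw [mul_diagonal, diagonal_mul]
  simp only [tens, Fl, Matrix.of_apply, Matrix.smul_apply, rot_std_one, smul_eq_mul]
  by_cases h : t = flip s
  · subst h
    have := gau_flip s
    simp only [flip, if_true, Finset.prod_const, Finset.card_univ, Fintype.card_fin]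
    push_cast
    linear_combination (-1) ^ L * this
  · obtain ⟨j, hj⟩ := Function.ne_iff.1 h
    rw [if_neg h, Finset.prod_eq_zero (Finset.mem_univ j) (if_neg hj)]
    simp

/-- a weight that is symmetric about `L` splits into the sectors -/
theorem trace_split {L : ℕ} (σ : ℤ) (η : ℂ) (w : ℕ → ℂ)
    (hw : ∀ n, n ≤ 2 * L → w n = (if n = L then 1 else 0) +
      ((if pE L n then 1 else 0) + η * (if pA L n then 1 else 0)) +
      ((if pE L (2 * L - n) then 1 else 0) + η * (if pA L (2 * L - n) then 1 else 0))) :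
    trace (diagonal (fun s => w (dsum s)) * Ex L σ) = trace (Pf L 1 * Ex L σ) +
      trace (Pf L (-1) * Ex L σ) + 2 * trace (Pi L (pE L) * Ex L σ) +
      η * (2 * trace (Pi L (pA L) * Ex L σ)) := by
  have hrev : ∀ p : ℕ → Bool, ∑ s : St L, (if p (2 * L - dsum s) then 1 else 0) * Ex L σ s s =
      trace (Pi L p * Ex L σ) := by
    intro p
    let e : St L ≃ St L := ⟨flip, flip, flip_flip, flip_flip⟩
    rw [Pi, trace_diag, ← Equiv.sum_comp e]
    refine Finset.sum_congr rfl fun s _ => ?_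
    have h1 : 2 * L - dsum (e s) = dsum s := by
      have := dsum_flip s
      change 2 * L - dsum (flip s) = dsum s
      omega
    rw [h1]
    exact congrArg _ (Ex_flip L σ s)
  have hPf : trace (Pf L 1 * Ex L σ) + trace (Pf L (-1) * Ex L σ) =
      ∑ s : St L, (if dsum s = L then 1 else 0) * Ex L σ s s := by
    rw [trace_Pf, trace_Pf, ← mul_add, ← Finset.sum_add_distrib, Finset.mul_sum]
    refine Finset.sum_congr rfl fun s _ => ?_
    split_ifs
    · push_cast; ring
    · simp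
  have hE := hrev (pE L)
  have hA := hrev (pA L)
  have hE' : ∑ s : St L, (if pE L (dsum s) then 1 else 0) * Ex L σ s s =
    trace (Pi L (pE L) * Ex L σ) := by rw [Pi, trace_diag]
  have hA' : ∑ s : St L, (if pA L (dsum s) then 1 else 0) * Ex L σ s s =
    trace (Pi L (pA L) * Ex L σ) := by rw [Pi, trace_diag]
  rw [hPf, two_mul, two_mul]
  nth_rewrite 1 [← hE, ← hA]
  rw [← hE', ← hA', trace_diag]
  simp only [← Finset.sum_add_distrib, Finset.mul_sum]
  refine Finset.sum_congr rfl fun s _ => ?_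
  rw [hw _ (by have := dsum_flip s; omega)]
  ring

theorem zz_eq (L : ℕ) (σ : ℤ) (P : Op L) :
    zz L σ P = Real.exp (-(7 * (24015 / 10000 * L))) * (trace (P * Ex L σ)).re := rfl

theorem zz_pA (L : ℕ) (σ : ℤ) :
    zz L σ (Pi L (pA L)) = zz L σ (Pi L (p1 L)) + zz L σ (Pi L (pO L)) := by
  have e : Pi L (pA L) = Pi L (p1 L) + Pi L (pO L) := by
    rw [Pi, Pi, Pi, diagonal_add]
    congr 1
    funext s
    simp only [pA, p1, pO, Bool.and_eq_true, decide_eq_true_eq, beq_iff_eq]
    split_ifs <;> first | omega | simp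
  rw [zz_eq, zz_eq, zz_eq, e, Matrix.add_mul, trace_add, Complex.add_re, mul_add]

theorem Zn_eq {L : ℕ} (hL : 3 ≤ L) {h : Fin 4} (hh : h = 0 ∨ h = 3) :
    Zn L 0 h = zz L (sig L h) (Pf L 1) + zz L (sig L h) (Pf L (-1)) +
      2 * zz L (sig L h) (Pi L (pE L)) + 2 * zz L (sig L h) (Pi L (pA L)) ∧
    Zn L 3 h = zz L (sig L h) (Pf L 1) + zz L (sig L h) (Pf L (-1)) +
      2 * zz L (sig L h) (Pi L (pE L)) - 2 * zz L (sig L h) (Pi L (pA L)) ∧
    Zn L 1 h = (-1) ^ L * (zz L (sig L h) (Pf L 1) - zz L (sig L h) (Pf L (-1))) := by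
  have hL2 : 2 ≤ L := by omega
  have two_re : ∀ z : ℂ, (2 * z).re = 2 * z.re := fun z => by simp
  refine ⟨?_, ?_, ?_⟩
  · rw [Zn_trace hL2 0 hh, gau_rot_zero]
    simp only [zz_eq]
    rw [trace_split (sig L h) 1 (fun _ => 1), one_mul]
    · simp only [Complex.add_re, two_re]
      ring
    · intro n hn
      simp only [pE, pA, Bool.and_eq_true, decide_eq_true_eq, beq_iff_eq]
      split_ifs <;> first | omega | simp
  · rw [Zn_trace hL2 3 hh, gau_rot_three]
    simp only [zz_eq]
    rw [trace_split (sig L h) (-1) (fun n => (-1) ^ (L + n)), neg_one_mul]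
    · simp only [Complex.add_re, Complex.neg_re, two_re]
      ring
    · intro n hn
      simp only [pE, pA, Bool.and_eq_true, decide_eq_true_eq, beq_iff_eq]
      rcases Nat.even_or_odd (L + n) with hp | hp
      · rw [hp.neg_one_pow]
        rw [Nat.even_iff] at hp
        split_ifs <;> first | omega | simp
      · rw [hp.neg_one_pow]
        rw [Nat.odd_iff] at hp
        split_ifs <;> first | omega | simp
  · rw [Zn_trace hL2 1 hh, gau_rot_one]
    simp only [zz_eq]
    have e : trace (Fl L * Ex L (sig L h)) =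
        trace (Pf L 1 * Ex L (sig L h)) - trace (Pf L (-1) * Ex L (sig L h)) := by
      rw [trace_Pf, trace_Pf, ← mul_sub, ← Finset.sum_sub_distrib, Finset.mul_sum]
      simp only [trace, Matrix.diag_apply, Fl_mul]
      refine Finset.sum_congr rfl fun s _ => ?_
      split_ifs with hs
      · push_cast; ring
      · rw [Ex_dsum hL2 _ _ _ (by have := dsum_flip s; omega)]
        simp
    rw [Matrix.smul_mul, trace_smul, smul_eq_mul, Complex.re_ofReal_mul, e, Complex.sub_re]
    ring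

theorem Pi_herm (L : ℕ) (p : ℕ → Bool) : (Pi L p)ᴴ = Pi L p := by
  rw [Pi, diagonal_conjTranspose]
  congr 1
  funext s
  simp only [Pi.star_apply]
  split_ifs <;> simp

theorem Pi_mul_Pi (L : ℕ) (p : ℕ → Bool) : Pi L p * Pi L p = Pi L p := by
  rw [Pi, diagonal_mul_diagonal]
  congr 1
  funext s
  split_ifs <;> simp

theorem Pi_comm {L : ℕ} (hL : 2 ≤ L) (σ : ℤ) (p : ℕ → Bool) :
    Pi L p * Mc L σ = Mc L σ * Pi L p :=
  diag_comm hL σ (fun n => if p n then 1 else 0)

theorem Pi_Fl (L : ℕ) : Pi L (fun n => n == L) * Fl L = Fl L * Pi L (fun n => n == L) := by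
  ext s t
  rw [Pi, diagonal_mul, mul_diagonal]
  simp only [Fl, Matrix.of_apply, beq_iff_eq]
  by_cases h : t = flip s
  · have := dsum_flip s
    have e : dsum s = L ↔ dsum t = L := by rw [h]; omega
    simp only [e, mul_comm]
  · simp [h]

theorem zz_Pi_bound {L : ℕ} (hL : 3 ≤ L) (σ : ℤ) (p : ℕ → Bool) (mu : List ℤ)
    (hmu : ∀ k, k < mu.length →
      2 * ∑ s, (if p (dsum s) then (Mz L σ ^ k) s s else 0) = mu.getD k 0)
    (c : Q.Cert) (lo hi : ℕ) (h : Q.check L mu c lo hi = true) :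
    (lo : ℝ) / 10 ^ 8 ≤ zz L σ (Pi L p) ∧ zz L σ (Pi L p) ≤ (hi : ℝ) / 10 ^ 8 := by
  have hL2 : 2 ≤ L := by omega
  obtain ⟨w, u, hw, hk, hexp, hint⟩ := measure_of_proj (Mc L σ) (Pi L p) (Mc_herm hL2 σ)
    (Pi_herm L p) (Pi_mul_Pi L p) (Pi_comm hL2 σ p)
  rw [zz, hexp 7]
  refine quad_sound w u hw hint mu (fun k hk' => ?_) L c lo hi h
  rw [← hk k, ← hmu k hk', trace_Pi, Complex.re_sum]
  push_cast
  congr 1
  refine Finset.sum_congr rfl fun s _ => ?_
  split_ifs
  · rw [Mc_pow, Complex.intCast_re]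
  · simp

theorem zz_Pf_bound {L : ℕ} (hL : 3 ≤ L) (σ : ℤ) {e : ℤ} (he : e = 1 ∨ e = -1) (mu : List ℤ)
    (hmu : ∀ k, k < mu.length →
      ∑ s, (if dsum s = L then (Mz L σ ^ k) s s + e * (Mz L σ ^ k) (flip s) s else 0) = mu.getD k 0)
    (c : Q.Cert) (lo hi : ℕ) (h : Q.check L mu c lo hi = true) :
    (lo : ℝ) / 10 ^ 8 ≤ zz L σ (Pf L e) ∧ zz L σ (Pf L e) ≤ (hi : ℝ) / 10 ^ 8 := by
  have hL2 : 2 ≤ L := by omega
  have he2 : (e : ℂ) * e = 1 := by rcases he with rfl | rfl <;> simp
  have hc : Commute (Pi L (fun n => n == L)) (1 + (e : ℂ) • Fl L) :=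
    (Commute.one_right _).add_right (Commute.smul_right (Pi_Fl L) _)
  have hH : (Pf L e).IsHermitian := by
    have e1 : (1 + (e : ℂ) • Fl L)ᴴ = 1 + (e : ℂ) • Fl L := by
      rw [conjTranspose_add, conjTranspose_one, conjTranspose_smul, Fl_herm, star_intCast]
    unfold Matrix.IsHermitian Pf
    rw [conjTranspose_smul, conjTranspose_mul, Pi_herm, e1, hc.eq]
    congr 1
    simp
  have hPP : Pf L e * Pf L e = Pf L e := by
    have e1 : (1 + (e : ℂ) • Fl L) * (1 + (e : ℂ) • Fl L) = (2 : ℂ) • (1 + (e : ℂ) • Fl L) := by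
      rw [Matrix.add_mul, Matrix.one_mul, Matrix.mul_add, Matrix.mul_one, Matrix.smul_mul,
        Matrix.mul_smul, Fl_mul_Fl, smul_smul, he2, one_smul, two_smul, add_comm _ (1 : Op L)]
    unfold Pf
    rw [Matrix.smul_mul, Matrix.mul_smul, hc.symm.mul_mul_mul_comm, Pi_mul_Pi, e1, Matrix.mul_smul,
      smul_smul, smul_smul]
    congr 1
    norm_num
  have hcm : Pf L e * Mc L σ = Mc L σ * Pf L e := by
    have c1 : Commute (Pi L (fun n => n == L)) (Mc L σ) := Pi_comm hL2 σ _
    have c2 : Commute (Fl L) (Mc L σ) := Fl_comm L σ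
    exact (c1.mul_left ((Commute.one_left _).add_left (c2.smul_left _))).smul_left _
  obtain ⟨w, u, hw, hk, hexp, hint⟩ := measure_of_proj (Mc L σ) (Pf L e) (Mc_herm hL2 σ) hH hPP hcm
  rw [zz, hexp 7]
  refine quad_sound w u hw hint mu (fun k hk' => ?_) L c lo hi h
  have e1 : 2 * trace (Pf L e * Mc L σ ^ k) = ((mu.getD k 0 : ℤ) : ℂ) := by
    rw [← hmu k hk', trace_Pf, ← mul_assoc]
    push_cast
    simp only [Mc_pow]
    norm_num
  rw [← hk k, ← Complex.intCast_re, ← e1]
  simp

/-- an integer trial vector bounds the least eigenvalue -/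
theorem E0_le_of_int {L : ℕ} (hL : 3 ≤ L) {h : Fin 4} (hh : h = 0 ∨ h = 3) (ψ : St L → ℤ) (p q : ℤ)
    (hq : 0 < q) (h0 : 0 < ∑ s, ψ s ^ 2)
    (h1 : p * ∑ s, ψ s ^ 2 ≤ q * ∑ s, ∑ t, ψ s * Mz L (sig L h) s t * ψ t) :
    E0 (hamT cart L h) ∈ evals (hamT cart L h) ∧ E0 (hamT cart L h) ≤ L - (p : ℝ) / q := by
  have hL2 : 2 ≤ L := by omega
  obtain ⟨U, V, hUV, hs⟩ := std_conj
  have e1 : evals (hamT cart L h) = evals ((L : ℂ) • 1 - Mc L (sig L h)) := by
    rw [← evals_hamT_conj cart hUV, ← hs, gauge_ham hL2 hh, evals_conj _ (gau_mul_gau L)]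
  have hH : ((L : ℂ) • 1 - Mc L (sig L h) : Op L).IsHermitian := by
    refine Matrix.IsHermitian.sub ?_ (Mc_herm hL2 _)
    unfold Matrix.IsHermitian
    rw [conjTranspose_smul, conjTranspose_one, star_natCast]
  have hv : (fun s => (ψ s : ℂ)) ≠ 0 := by
    intro e
    have : ∀ s, ψ s = 0 := fun s => by
      have h2 : (ψ s : ℂ) = 0 := congrFun e s
      exact_mod_cast h2
    simp [this] at h0
  have n1 : star (fun s => (ψ s : ℂ)) ⬝ᵥ (fun s => (ψ s : ℂ)) = ((∑ s, ψ s ^ 2 : ℤ) : ℂ) := by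
    simp [dotProduct, sq]
  have n2 : star (fun s => (ψ s : ℂ)) ⬝ᵥ (Mc L (sig L h) *ᵥ (fun s => (ψ s : ℂ))) =
      ((∑ s, ∑ t, ψ s * Mz L (sig L h) s t * ψ t : ℤ) : ℂ) := by
    simp [dotProduct, Matrix.mulVec, Mc, Finset.mul_sum, mul_assoc]
  have := E0_le_of_trial hH _ hv (L - (p : ℝ) / q) (by
    rw [Matrix.sub_mulVec, Matrix.smul_mulVec, Matrix.one_mulVec, dotProduct_sub, dotProduct_smul,
      n1, n2, smul_eq_mul, ← Complex.ofReal_natCast, Complex.sub_re, Complex.re_ofReal_mul,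
      Complex.intCast_re, Complex.intCast_re, sub_mul, sub_le_sub_iff_left, div_mul_eq_mul_div,
      div_le_iff₀ (by exact_mod_cast hq), mul_comm _ (q : ℝ)]
    exact_mod_cast h1)
  unfold E0 at this ⊢
  rw [e1]
  exact this

end Vale.Agent.P348
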