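import Vale.Agent.P348.MPSData

/-! Kernel computation for the matrix product trial states. -/

namespace Vale.Agent.P348.MPS

noncomputable section

/-- vectors of length 18 -/
structure V (α : Type) where
  x0 : α
  x1 : α
  x2 : α
  x3 : α
  x4 : α
  x5 : α
  x6 : α
  x7 : α
  x8 : α
  x9 : α
  x10 : α
  x11 : α
  x12 : α
  x13 : α
  x14 : α
  x15 : α
  x16 : α
  x17 : α

abbrev LI := List (List Int)
abbrev VN := V (V Nat)

def V.get {α : Type} (v : V α) (i : Nat) : α :=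
  match i with
  | 0 => v.x0
  | 1 => v.x1
  | 2 => v.x2
  | 3 => v.x3
  | 4 => v.x4
  | 5 => v.x5
  | 6 => v.x6
  | 7 => v.x7
  | 8 => v.x8
  | 9 => v.x9
  | 10 => v.x10
  | 11 => v.x11
  | 12 => v.x12
  | 13 => v.x13
  | 14 => v.x14
  | 15 => v.x15
  | 16 => v.x16
  | _ => v.x17

def V.of {α : Type} (f : Nat → α) : V α :=
  ⟨f 0, f 1, f 2, f 3, f 4, f 5, f 6, f 7, f 8, f 9, f 10, f 11, f 12, f 13, f 14, f 15, f 16, f 17⟩

def V.toList {α : Type} (v : V α) : List α :=
  V.rec (motive := fun _ => List α) (fun a0 a1 a2 a3 a4 a5 a6 a7 a8 a9 a10 a11 a12 a13 a14 a15 a16 a17 =>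
    [a0, a1, a2, a3, a4, a5, a6, a7, a8, a9, a10, a11, a12, a13, a14, a15, a16, a17]) v

def V.map {α β : Type} (f : α → β) (v : V α) : V β :=
  V.rec (motive := fun _ => V β) (fun a0 a1 a2 a3 a4 a5 a6 a7 a8 a9 a10 a11 a12 a13 a14 a15 a16 a17 =>
    ⟨f a0, f a1, f a2, f a3, f a4, f a5, f a6, f a7, f a8, f a9, f a10, f a11, f a12, f a13, f a14, f a15, f a16, f a17⟩) v

def V.map2 {α β γ : Type} (f : α → β → γ) (v : V α) (w : V β) : V γ :=
  V.rec (motive := fun _ => V γ) (fun a0 a1 a2 a3 a4 a5 a6 a7 a8 a9 a10 a11 a12 a13 a14 a15 a16 a17 =>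
    V.rec (motive := fun _ => V γ) (fun b0 b1 b2 b3 b4 b5 b6 b7 b8 b9 b10 b11 b12 b13 b14 b15 b16 b17 =>
      ⟨f a0 b0, f a1 b1, f a2 b2, f a3 b3, f a4 b4, f a5 b5, f a6 b6, f a7 b7, f a8 b8,
       f a9 b9, f a10 b10, f a11 b11, f a12 b12, f a13 b13, f a14 b14, f a15 b15, f a16 b16, f a17 b17⟩) w) v

/-- transposition -/
def V.tr (X : VN) : VN :=
  ⟨X.map V.x0, X.map V.x1, X.map V.x2, X.map V.x3, X.map V.x4, X.map V.x5,
   X.map V.x6, X.map V.x7, X.map V.x8, X.map V.x9, X.map V.x10, X.map V.x11,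
   X.map V.x12, X.map V.x13, X.map V.x14, X.map V.x15, X.map V.x16, X.map V.x17⟩

def fN {α : Type} (n : Nat) (k : Nat → α) : α :=
  Nat.rec (motive := fun _ => α) (k 0) (fun m _ => k (Nat.succ m)) n

def fI {α : Type} (x : Int) (k : Int → α) : α :=
  Int.rec (motive := fun _ => α) (fun n => fN n fun n => k (Int.ofNat n))
    (fun n => fN n fun n => k (Int.negSucc n)) x

def fL {α : Type} (fe : α → (α → Bool) → Bool) (l : List α) : (List α → Bool) → Bool :=
  List.rec (motive := fun _ => (List α → Bool) → Bool) (fun k => k [])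
    (fun x _ ih k => fe x fun x => ih fun r => k (x :: r)) l

def fV {α : Type} (fe : α → (α → Bool) → Bool) (v : V α) (k : V α → Bool) : Bool :=
  V.rec (motive := fun _ => Bool) (fun a0 a1 a2 a3 a4 a5 a6 a7 a8 a9 a10 a11 a12 a13 a14 a15 a16 a17 =>
    fe a0 fun a0 => fe a1 fun a1 => fe a2 fun a2 => fe a3 fun a3 => fe a4 fun a4 =>
    fe a5 fun a5 => fe a6 fun a6 => fe a7 fun a7 => fe a8 fun a8 => fe a9 fun a9 =>
    fe a10 fun a10 => fe a11 fun a11 => fe a12 fun a12 => fe a13 fun a13 => fe a14 fun a14 =>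
    fe a15 fun a15 => fe a16 fun a16 => fe a17 fun a17 =>
    k ⟨a0, a1, a2, a3, a4, a5, a6, a7, a8, a9, a10, a11, a12, a13, a14, a15, a16, a17⟩) v

def fM (X : VN) (k : VN → Bool) : Bool := fV (fV fN) X k

def fMI (X : LI) (k : LI → Bool) : Bool := fL (fL fI) X k

/-- slot base, half base and modulus -/
def BB : Nat := 2 ^ 392
def HH : Nat := 2 ^ 391
def MM : Nat := 2 ^ (392 * 71)

/-- `acc + c * row` -/
def ax (c : Nat) (v w : V Nat) : V Nat :=
  V.rec (motive := fun _ => V Nat) (fun a0 a1 a2 a3 a4 a5 a6 a7 a8 a9 a10 a11 a12 a13 a14 a15 a16 a17 =>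
    V.rec (motive := fun _ => V Nat) (fun b0 b1 b2 b3 b4 b5 b6 b7 b8 b9 b10 b11 b12 b13 b14 b15 b16 b17 =>
      ⟨Nat.add b0 (Nat.mul c a0), Nat.add b1 (Nat.mul c a1), Nat.add b2 (Nat.mul c a2),
       Nat.add b3 (Nat.mul c a3), Nat.add b4 (Nat.mul c a4), Nat.add b5 (Nat.mul c a5),
       Nat.add b6 (Nat.mul c a6), Nat.add b7 (Nat.mul c a7), Nat.add b8 (Nat.mul c a8),
       Nat.add b9 (Nat.mul c a9), Nat.add b10 (Nat.mul c a10), Nat.add b11 (Nat.mul c a11),
       Nat.add b12 (Nat.mul c a12), Nat.add b13 (Nat.mul c a13), Nat.add b14 (Nat.mul c a14),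
       Nat.add b15 (Nat.mul c a15), Nat.add b16 (Nat.mul c a16), Nat.add b17 (Nat.mul c a17)⟩) w) v

/-- one term of a signed combination of rows -/
def axI (c : Int) (r nr acc : V Nat) : V Nat :=
  Int.rec (motive := fun _ => V Nat)
    (fun n => Nat.rec (motive := fun _ => V Nat) acc (fun _ _ => ax n r acc) n)
    (fun n => ax (Nat.succ n) nr acc) c

/-- `acc + ∑ k, cs k * X k`, the rows of `X` being paired with those of `-X` -/
def lc (X : List (V Nat × V Nat)) (cs : List Int) : V Nat → V Nat :=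
  List.rec (motive := fun _ => List (V Nat × V Nat) → V Nat → V Nat) (fun _ acc => acc)
    (fun c _ ih X acc => List.rec (motive := fun _ => V Nat) acc
      (fun r X _ => ih X (axI c r.1 r.2 acc)) X) cs X

def Z1 : V Nat := V.of fun _ => 0
def Z2 : VN := V.of fun _ => Z1

def red (X : VN) : VN := X.map fun r => r.map fun x => Nat.mod x MM

def ng (X : VN) : VN := X.map fun r => r.map fun x => cond (Nat.beq x 0) 0 (Nat.sub MM x)

/-- the rows of `Xᵀ` and of `-Xᵀ` -/
def prep (X : VN) : List (V Nat × V Nat) := (V.map2 Prod.mk X.tr (ng X.tr)).toList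

abbrev VI := V (List Int)

/-- `Acc + ∑ B * X * Cᵀ` from the rows of `Xᵀ` and `-Xᵀ` -/
def genL (Xt : List (V Nat × V Nat)) (L : List (VI × VI)) : VN → (VN → Bool) → Bool :=
  List.rec (motive := fun _ => VN → (VN → Bool) → Bool) (fun Acc k => k Acc)
    (fun p _ ih Acc k => ih (V.map2 (lc (prep (red (V.map2 (lc Xt) p.2 Z2)))) p.1 Acc) k) L

def gen (L : List (VI × VI)) (X Acc : VN) (k : VN → Bool) : Bool :=
  genL (prep X) L Acc fun Z => fM (red Z) k

def a0 : VI := V.of fun i => A0.getD i []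
def a1 : VI := V.of fun i => A1.getD i []
def a2 : VI := V.of fun i => A2.getD i []
def negI (A : VI) : VI := A.map fun r => r.map Int.neg

def LE : List (VI × VI) := [(a0, a0), (a1, a1), (a2, a2)]
def Lz : List (VI × VI) := [(a0, a0), (negI a2, a2)]
def Lz' : List (VI × VI) := [(negI a0, a0), (a2, a2)]
def Lp : List (VI × VI) := [(a0, a1), (a1, a2)]
def Lm : List (VI × VI) := [(a1, a0), (a2, a1)]

def iter (n : Nat) : VN → (VN → Bool) → Bool :=
  Nat.rec (motive := fun _ => VN → (VN → Bool) → Bool) (fun X k => k X)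
    (fun _ ih X k => gen LE X Z2 fun Y => ih Y k) n

def consCols {α : Type} (z : α) (C : List (List α)) : List α → List (List α) :=
  List.rec (motive := fun _ => List α → List (List α)) (fun _ => [])
    (fun c _ ih r => List.rec (motive := fun _ => List (List α)) ((z :: c) :: ih [])
      (fun x r _ => (x :: c) :: ih r) r) C

/-- the first `n` columns -/
def tr {α : Type} (z : α) (n : Nat) (X : List (List α)) : List (List α) :=
  List.rec (motive := fun _ => List (List α)) (List.replicate n [])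
    (fun r _ ih => consCols z ih r) X

/-- signed digits in base `BB` -/
def peel (n : Nat) : Nat → List Int :=
  Nat.rec (motive := fun _ => Nat → List Int) (fun _ => [])
    (fun _ ih x => Int.subNatNat (Nat.mod x BB) HH :: fN (Nat.shiftRight x 392) ih) n

/-- the offset `∑ k < n, HH * BB ^ k` -/
def off (n : Nat) : Nat := Nat.rec 0 (fun _ ih => Nat.add HH (Nat.mul BB ih)) n

def dot (x : List Int) : List Int → Int :=
  List.rec (motive := fun _ => List Int → Int) (fun _ => 0)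
    (fun a _ ih y => List.casesOn (motive := fun _ => Int) y 0
      (fun b y => Int.add (Int.mul a b) (ih y))) x

def ent {α : Type} (z : α) (X : List (List α)) (i j : Nat) : α := (X.getD i []).getD j z

/-- virtual charge block -/
def blk (i : Nat) : Nat := [0, 1, 1, 1, 2, 2, 2, 2, 2, 3, 3, 3, 3, 3, 4, 4, 4, 5].getD i 0

def allP : List (Fin 18 × Fin 18) :=
  (List.finRange 18).flatMap fun i => (List.finRange 18).map fun j => (i, j)

def secL (s : Nat) : List (Fin 18 × Fin 18) :=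
  allP.filter fun p => Nat.beq (blk p.1.val + 5) (blk p.2.val + s)

/-- position of a pair in its sector -/
def idxT : List (List Nat) :=
  [[0, 0, 1, 2, 0, 1, 2, 3, 4, 0, 1, 2, 3, 4, 0, 1, 2, 0],
   [0, 1, 2, 3, 3, 4, 5, 6, 7, 5, 6, 7, 8, 9, 5, 6, 7, 3],
   [1, 4, 5, 6, 8, 9, 10, 11, 12, 10, 11, 12, 13, 14, 8, 9, 10, 4],
   [2, 7, 8, 9, 13, 14, 15, 16, 17, 15, 16, 17, 18, 19, 11, 12, 13, 5],
   [0, 3, 4, 5, 10, 11, 12, 13, 14, 18, 19, 20, 21, 22, 20, 21, 22, 14],
   [1, 6, 7, 8, 15, 16, 17, 18, 19, 23, 24, 25, 26, 27, 23, 24, 25, 15],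
   [2, 9, 10, 11, 20, 21, 22, 23, 24, 28, 29, 30, 31, 32, 26, 27, 28, 16],
   [3, 12, 13, 14, 25, 26, 27, 28, 29, 33, 34, 35, 36, 37, 29, 30, 31, 17],
   [4, 15, 16, 17, 30, 31, 32, 33, 34, 38, 39, 40, 41, 42, 32, 33, 34, 18],
   [0, 5, 6, 7, 18, 19, 20, 21, 22, 35, 36, 37, 38, 39, 43, 44, 45, 35],
   [1, 8, 9, 10, 23, 24, 25, 26, 27, 40, 41, 42, 43, 44, 46, 47, 48, 36],
   [2, 11, 12, 13, 28, 29, 30, 31, 32, 45, 46, 47, 48, 49, 49, 50, 51, 37],
   [3, 14, 15, 16, 33, 34, 35, 36, 37, 50, 51, 52, 53, 54, 52, 53, 54, 38],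
   [4, 17, 18, 19, 38, 39, 40, 41, 42, 55, 56, 57, 58, 59, 55, 56, 57, 39],
   [0, 5, 6, 7, 20, 21, 22, 23, 24, 43, 44, 45, 46, 47, 60, 61, 62, 58],
   [1, 8, 9, 10, 25, 26, 27, 28, 29, 48, 49, 50, 51, 52, 63, 64, 65, 59],
   [2, 11, 12, 13, 30, 31, 32, 33, 34, 53, 54, 55, 56, 57, 66, 67, 68, 60],
   [0, 3, 4, 5, 14, 15, 16, 17, 18, 35, 36, 37, 38, 39, 58, 59, 60, 69]]

/-- the packed start matrix (slot `0` is filled with harmless numbers) -/
def X0 : VN := V.of fun i => V.of fun j => (18 * i + j) * 3 + 7 + BB ^ (ent 0 idxT i j + 1)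

/-- the digits of the entries of `Z` along a sector -/
def digs (Z : VN) (l : List (Fin 18 × Fin 18)) : LI :=
  l.map fun p => (peel (l.length + 1) (Nat.add ((Z.get p.1.val).get p.2.val) (off 71))).tail

def wt (p : Fin 18 × Fin 18) : Int := vdiag.getD p.1.val 0 * vdiag.getD p.2.val 0

/-- the weight and the four diagonal numbers of each pair of a sector -/
def quads (l : List (Fin 18 × Fin 18)) (rP rR : LI) : LI :=
  (List.range l.length).map fun k => [wt (l.getD k (0, 0)), ent 0 rP k k, ent 0 rR k k,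
    dot (rP.getD k []) ((tr 0 l.length rP).getD k []),
    dot (rR.getD k []) ((tr 0 l.length rP).getD k [])]

def allQ (P R : VN) : LI :=
  (List.range 11).flatMap fun s => quads (secL s) (digs P (secL s)) (digs R (secL s))

def sm (Q : LI) (j : Nat) : Int := (Q.map fun q => q.getD j 0).sum

def smw (Q : LI) (j : Nat) : Int := (Q.map fun q => q.getD 0 0 * q.getD j 0).sum

def ok (N p n h : Int) : Bool := decide (0 < n) && decide (p * n ≤ 10000 * (N * (n + h)))

def fin (Q : LI) : Bool :=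
  ok 16 384460 (sm Q 1) (sm Q 2) && ok 16 384147 (smw Q 1) (smw Q 2) &&
    ok 32 768470 (sm Q 3) (sm Q 4) && ok 32 768458 (smw Q 3) (smw Q 4)

def chk : Bool :=
  fM (red X0) fun X => iter 14 X fun Y => iter 2 Y fun P =>
    gen Lz Y Z2 fun Yz => gen Lz' Yz Z2 fun R => gen Lm Y Z2 fun Ym => gen Lp Ym R fun R =>
      gen Lp Y Z2 fun Yp => gen Lm Yp R fun R => fMI (allQ P R) fin

end

end Vale.Agent.P348.MPS
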