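/-! Integer tensors of the matrix product trial state (bond dimension 18). -/

namespace Vale.Agent.P348.MPS

/-- twice the virtual charge; `A a` is supported on `chg j = chg i + 2 (a - 1)` -/
def chg : List Int := [-5, -3, -3, -3, -1, -1, -1, -1, -1, 1, 1, 1, 1, 1, 3, 3, 3, 5]

/-- diagonal of the twist matrix for boundary sign `-1` -/
def vdiag : List Int := [1, -1, -1, -1, 1, 1, 1, 1, 1, -1, -1, -1, -1, -1, 1, 1, 1, -1]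

def A0 : List (List Int) :=
  [[0, 0, 0, 0, 0, 0, 0, 0, 0, 0, 0, 0, 0, 0, 0, 0, 0, 0],
   [-73, 0, 0, 0, 0, 0, 0, 0, 0, 0, 0, 0, 0, 0, 0, 0, 0, 0],
   [-294, 0, 0, 0, 0, 0, 0, 0, 0, 0, 0, 0, 0, 0, 0, 0, 0, 0],
   [972, 0, 0, 0, 0, 0, 0, 0, 0, 0, 0, 0, 0, 0, 0, 0, 0, 0],
   [0, -92, 29, -5, 0, 0, 0, 0, 0, 0, 0, 0, 0, 0, 0, 0, 0, 0],
   [0, 224, -188, 31, 0, 0, 0, 0, 0, 0, 0, 0, 0, 0, 0, 0, 0, 0],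
   [0, 66, 313, -153, 0, 0, 0, 0, 0, 0, 0, 0, 0, 0, 0, 0, 0, 0],
   [0, -765, 532, -229, 0, 0, 0, 0, 0, 0, 0, 0, 0, 0, 0, 0, 0, 0],
   [0, 2, 389, 944, 0, 0, 0, 0, 0, 0, 0, 0, 0, 0, 0, 0, 0, 0],
   [0, 0, 0, 0, -97, -45, 0, 9, 0, 0, 0, 0, 0, 0, 0, 0, 0, 0],
   [0, 0, 0, 0, -163, -226, -54, 35, -2, 0, 0, 0, 0, 0, 0, 0, 0, 0],
   [0, 0, 0, 0, -5, -203, -77, 90, -4, 0, 0, 0, 0, 0, 0, 0, 0, 0],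
   [0, 0, 0, 0, 538, 595, 413, -267, -67, 0, 0, 0, 0, 0, 0, 0, 0, 0],
   [0, 0, 0, 0, -1, 224, 137, 544, 825, 0, 0, 0, 0, 0, 0, 0, 0, 0],
   [0, 0, 0, 0, 0, 0, 0, 0, 0, -91, 62, 5, -12, 0, 0, 0, 0, 0],
   [0, 0, 0, 0, 0, 0, 0, 0, 0, 100, -181, 81, 30, -3, 0, 0, 0, 0],
   [0, 0, 0, 0, 0, 0, 0, 0, 0, 299, -532, 702, 228, 116, 0, 0, 0, 0],
   [0, 0, 0, 0, 0, 0, 0, 0, 0, 0, 0, 0, 0, 0, 72, 83, 15, 0]]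

def A1 : List (List Int) :=
  [[112, 0, 0, 0, 0, 0, 0, 0, 0, 0, 0, 0, 0, 0, 0, 0, 0, 0],
   [0, -67, 56, -10, 0, 0, 0, 0, 0, 0, 0, 0, 0, 0, 0, 0, 0, 0],
   [0, 197, 222, -37, 0, 0, 0, 0, 0, 0, 0, 0, 0, 0, 0, 0, 0, 0],
   [0, -593, -648, 281, 0, 0, 0, 0, 0, 0, 0, 0, 0, 0, 0, 0, 0, 0],
   [0, 0, 0, 0, 22, 65, 3, -12, 0, 0, 0, 0, 0, 0, 0, 0, 0, 0],
   [0, 0, 0, 0, 232, -83, -74, 12, -2, 0, 0, 0, 0, 0, 0, 0, 0, 0],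
   [0, 0, 0, 0, 36, -274, 45, 126, 2, 0, 0, 0, 0, 0, 0, 0, 0, 0],
   [0, 0, 0, 0, -748, 202, 580, -96, -95, 0, 0, 0, 0, 0, 0, 0, 0, 0],
   [0, 0, 0, 0, 0, -321, 86, -770, 583, 0, 0, 0, 0, 0, 0, 0, 0, 0],
   [0, 0, 0, 0, 0, 0, 0, 0, 0, 22, 65, 3, -12, 0, 0, 0, 0, 0],
   [0, 0, 0, 0, 0, 0, 0, 0, 0, 232, -83, -74, 12, 2, 0, 0, 0, 0],
   [0, 0, 0, 0, 0, 0, 0, 0, 0, 36, -274, 45, 126, -2, 0, 0, 0, 0],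
   [0, 0, 0, 0, 0, 0, 0, 0, 0, -748, 202, 580, -96, 95, 0, 0, 0, 0],
   [0, 0, 0, 0, 0, 0, 0, 0, 0, 0, 321, -86, 770, 583, 0, 0, 0, 0],
   [0, 0, 0, 0, 0, 0, 0, 0, 0, 0, 0, 0, 0, 0, -67, 56, 10, 0],
   [0, 0, 0, 0, 0, 0, 0, 0, 0, 0, 0, 0, 0, 0, 197, 222, 37, 0],
   [0, 0, 0, 0, 0, 0, 0, 0, 0, 0, 0, 0, 0, 0, 593, 648, 281, 0],
   [0, 0, 0, 0, 0, 0, 0, 0, 0, 0, 0, 0, 0, 0, 0, 0, 0, 112]]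

def A2 : List (List Int) :=
  [[0, -72, -83, 15, 0, 0, 0, 0, 0, 0, 0, 0, 0, 0, 0, 0, 0, 0],
   [0, 0, 0, 0, -91, 62, 5, -12, 0, 0, 0, 0, 0, 0, 0, 0, 0, 0],
   [0, 0, 0, 0, 100, -181, 81, 30, 3, 0, 0, 0, 0, 0, 0, 0, 0, 0],
   [0, 0, 0, 0, -299, 532, -702, -228, 116, 0, 0, 0, 0, 0, 0, 0, 0, 0],
   [0, 0, 0, 0, 0, 0, 0, 0, 0, -97, -45, 0, 9, 0, 0, 0, 0, 0],
   [0, 0, 0, 0, 0, 0, 0, 0, 0, -163, -226, -54, 35, 2, 0, 0, 0, 0],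
   [0, 0, 0, 0, 0, 0, 0, 0, 0, -5, -203, -77, 90, 4, 0, 0, 0, 0],
   [0, 0, 0, 0, 0, 0, 0, 0, 0, 538, 595, 413, -267, 67, 0, 0, 0, 0],
   [0, 0, 0, 0, 0, 0, 0, 0, 0, 1, -224, -137, -544, 825, 0, 0, 0, 0],
   [0, 0, 0, 0, 0, 0, 0, 0, 0, 0, 0, 0, 0, 0, -92, 29, 5, 0],
   [0, 0, 0, 0, 0, 0, 0, 0, 0, 0, 0, 0, 0, 0, 224, -188, -31, 0],
   [0, 0, 0, 0, 0, 0, 0, 0, 0, 0, 0, 0, 0, 0, 66, 313, 153, 0],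
   [0, 0, 0, 0, 0, 0, 0, 0, 0, 0, 0, 0, 0, 0, -765, 532, 229, 0],
   [0, 0, 0, 0, 0, 0, 0, 0, 0, 0, 0, 0, 0, 0, -2, -389, 944, 0],
   [0, 0, 0, 0, 0, 0, 0, 0, 0, 0, 0, 0, 0, 0, 0, 0, 0, 73],
   [0, 0, 0, 0, 0, 0, 0, 0, 0, 0, 0, 0, 0, 0, 0, 0, 0, 294],
   [0, 0, 0, 0, 0, 0, 0, 0, 0, 0, 0, 0, 0, 0, 0, 0, 0, 972],
   [0, 0, 0, 0, 0, 0, 0, 0, 0, 0, 0, 0, 0, 0, 0, 0, 0, 0]]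

end Vale.Agent.P348.MPS
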