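import Mathlib
import Vale.Agent.P348.MPSComp

/-! Soundness of the packed computation: arithmetic modulo `MM`. -/

namespace Vale.Agent.P348.MPS

open Matrix

noncomputable section

theorem fN_eq {α : Type} (n : ℕ) (k : ℕ → α) : fN n k = k n := by cases n <;> rfl

theorem fI_eq {α : Type} (x : ℤ) (k : ℤ → α) : fI x k = k x := by
  cases x with
  | ofNat n => exact fN_eq n fun n => k (Int.ofNat n)
  | negSucc n => exact fN_eq n fun n => k (Int.negSucc n)

theorem fL_eq {α : Type} (fe : α → (α → Bool) → Bool) (h : ∀ x k, fe x k = k x) (l : List α)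
    (k : List α → Bool) : fL fe l k = k l := by
  induction l generalizing k with
  | nil => rfl
  | cons x l ih =>
    show fe x (fun x => fL fe l fun r => k (x :: r)) = _
    rw [h, ih]

theorem fV_eq {α : Type} (fe : α → (α → Bool) → Bool) (h : ∀ x k, fe x k = k x) (v : V α)
    (k : V α → Bool) : fV fe v k = k v := by
  cases v
  simp only [fV, h]

theorem fM_eq (X : VN) (k : VN → Bool) : fM X k = k X :=
  fV_eq _ (fun x k => fV_eq _ fN_eq x k) X k

theorem fMI_eq (X : LI) (k : LI → Bool) : fMI X k = k X :=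
  fL_eq _ (fun x k => fL_eq _ fI_eq x k) X k

theorem get_of {α : Type} (f : ℕ → α) (i : Fin 18) : (V.of f).get i = f i := by
  fin_cases i <;> rfl

theorem get_map {α β : Type} (f : α → β) (v : V α) (i : Fin 18) :
    (v.map f).get i = f (v.get i) := by
  cases v
  fin_cases i <;> rfl

theorem get_map2 {α β γ : Type} (f : α → β → γ) (v : V α) (w : V β) (i : Fin 18) :
    (V.map2 f v w).get i = f (v.get i) (w.get i) := by
  cases v
  cases w
  fin_cases i <;> rfl

theorem get_tr (X : VN) (i j : Fin 18) : (X.tr.get i).get j = (X.get j).get i := by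
  fin_cases i <;> exact get_map _ X j

theorem get_ax (c : ℕ) (v w : V ℕ) (i : Fin 18) : (ax c v w).get i = w.get i + c * v.get i := by
  cases v
  cases w
  fin_cases i <;> rfl

theorem toList_eq {α : Type} (v : V α) : v.toList = List.ofFn fun k : Fin 18 => v.get k := by
  cases v
  simp only [List.ofFn_succ, List.ofFn_zero]
  rfl

abbrev Mt := Matrix (Fin 18) (Fin 18) ℤ

abbrev K := ℤ ⧸ Ideal.span {((MM : ℕ) : ℤ)}

theorem K_eq {a b : ℤ} : (a : K) = b ↔ ((MM : ℕ) : ℤ) ∣ a - b := by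
  rw [← Ideal.mem_span_singleton, ← Ideal.Quotient.eq]
  rfl

theorem hK : ((MM : ℕ) : K) = 0 := by
  rw [← Int.cast_natCast, ← Int.cast_zero, K_eq, sub_zero]

def Rp (X : VN) (Y : Mt) : Prop := ∀ i j : Fin 18, (((X.get i).get j : ℕ) : K) = ((Y i j : ℤ) : K)

def Le (X : VN) : Prop := ∀ i j : Fin 18, (X.get i).get j ≤ MM

theorem MM_pos : 0 < MM := by
  unfold MM
  generalize 392 * 71 = n
  exact Nat.two_pow_pos n

theorem get_red (X : VN) (i j : Fin 18) : ((red X).get i).get j = (X.get i).get j % MM := by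
  rw [red, get_map, get_map]
  rfl

theorem le_red (X : VN) : Le (red X) := fun i j => by
  rw [get_red]
  exact (Nat.mod_lt _ MM_pos).le

theorem Rp.red {X : VN} {Y : Mt} (h : Rp X Y) : Rp (red X) Y := fun i j => by
  rw [get_red, ← h]
  conv_rhs => rw [← Nat.mod_add_div ((X.get i).get j) MM, Nat.cast_add, Nat.cast_mul, hK, zero_mul,
    add_zero]

theorem rep_Z2 : Rp Z2 0 := fun i j => by
  rw [Z2, get_of, Z1, get_of]
  simp

theorem get_ng (X : VN) (i j : Fin 18) (h : (X.get i).get j ≤ MM) :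
    ((((ng X).get i).get j : ℕ) : K) = -(((X.get i).get j : ℕ) : K) := by
  rw [ng, get_map, get_map]
  generalize (X.get i).get j = x at h
  cases x with
  | zero => simp
  | succ x =>
    show (((MM - (x + 1) : ℕ)) : K) = _
    rw [Nat.cast_sub h, hK, zero_sub]

theorem get_axI (c : ℤ) (r nr acc : V ℕ) (i : Fin 18)
    (h : ((nr.get i : ℕ) : K) = -((r.get i : ℕ) : K)) :
    (((axI c r nr acc).get i : ℕ) : K) = (acc.get i : ℕ) + (c : K) * (r.get i : ℕ) := by
  cases c with
  | ofNat n =>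
    cases n with
    | zero =>
      show ((acc.get i : ℕ) : K) = _
      simp
    | succ n =>
      show (((ax (n + 1) r acc).get i : ℕ) : K) = _
      rw [get_ax]
      simp
  | negSucc n =>
    show (((ax (n + 1) nr acc).get i : ℕ) : K) = _
    rw [get_ax, Int.cast_negSucc, Nat.cast_add, Nat.cast_mul, h]
    ring

theorem get_lc {n : ℕ} (f : Fin n → V ℕ × V ℕ) (cs : List ℤ) (acc : V ℕ) (i : Fin 18)
    (h : ∀ k, (((f k).2.get i : ℕ) : K) = -(((f k).1.get i : ℕ) : K)) :
    (((lc (List.ofFn f) cs acc).get i : ℕ) : K) =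
      (acc.get i : ℕ) + ∑ k : Fin n, ((cs.getD k 0 : ℤ) : K) * ((f k).1.get i : ℕ) := by
  induction n generalizing cs acc with
  | zero =>
    rw [List.ofFn_zero]
    cases cs with
    | nil => show ((acc.get i : ℕ) : K) = _; simp
    | cons c cs => show ((acc.get i : ℕ) : K) = _; simp
  | succ n ih =>
    rw [List.ofFn_succ]
    cases cs with
    | nil => show ((acc.get i : ℕ) : K) = _; simp
    | cons c cs =>
      show (((lc (List.ofFn fun k => f k.succ) cs (axI c (f 0).1 (f 0).2 acc)).get i : ℕ) : K) = _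
      rw [ih _ _ _ (fun k => h k.succ), get_axI _ _ _ _ _ (h 0), Fin.sum_univ_succ]
      simp only [Fin.val_zero, Fin.val_succ, List.getD_cons_zero, List.getD_cons_succ]
      ring

def mat (A : VI) : Mt := Matrix.of fun i j => (A.get i).getD j 0

theorem rep_mul {X Acc : VN} {Y Z : Mt} (A : VI) (hX : Rp X Y) (hL : Le X) (hA : Rp Acc Z) :
    Rp (V.map2 (lc (prep X)) A Acc) (Z + mat A * Yᵀ) := fun i j => by
  rw [get_map2, prep, toList_eq, get_lc]
  · simp only [get_map2, get_tr, hX j, hA i j, Matrix.add_apply, Matrix.mul_apply, mat,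
      Matrix.of_apply, Matrix.transpose_apply]
    push_cast
    rfl
  · intro k
    rw [get_map2]
    exact get_ng _ _ _ (by rw [get_tr]; exact hL j k)

/-- `X ↦ B * X * Cᵀ` -/
def sw (B C : Mt) : Module.End ℤ Mt where
  toFun X := B * X * Cᵀ
  map_add' X Y := by rw [Matrix.mul_add, Matrix.add_mul]
  map_smul' c X := by rw [Matrix.mul_smul, Matrix.smul_mul]; rfl

theorem sw_apply (B C X : Mt) : sw B C X = B * X * Cᵀ := rfl

def G (L : List (VI × VI)) : Module.End ℤ Mt := (L.map fun p => sw (mat p.1) (mat p.2)).sum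

theorem genL_sound {X : VN} {Y : Mt} (hX : Rp X Y) (hL : Le X) (L : List (VI × VI)) (Acc : VN)
    (Z : Mt) (hA : Rp Acc Z) (k : VN → Bool) (h : genL (prep X) L Acc k = true) :
    ∃ W, Rp W (Z + G L Y) ∧ k W = true := by
  induction L generalizing Acc Z with
  | nil => exact ⟨Acc, by simpa [G] using hA, h⟩
  | cons p L ih =>
    have h1 := rep_mul p.1 (rep_mul p.2 hX hL rep_Z2).red (le_red _) hA
    obtain ⟨W, hW, hk⟩ := ih _ _ h1 h
    refine ⟨W, ?_, hk⟩
    have e : Z + G (p :: L) Y = Z + mat p.1 * (0 + mat p.2 * Yᵀ)ᵀ + G L Y := by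
      simp only [G, List.map_cons, List.sum_cons, LinearMap.add_apply, sw_apply, zero_add,
        Matrix.transpose_mul, Matrix.transpose_transpose, Matrix.mul_assoc, add_assoc]
    rw [e]
    exact hW

theorem gen_sound {X : VN} {Y : Mt} (hX : Rp X Y) (hL : Le X) {L : List (VI × VI)} {Acc : VN}
    {Z : Mt} (hA : Rp Acc Z) {k : VN → Bool} (h : gen L X Acc k = true) :
    ∃ W, Rp W (Z + G L Y) ∧ Le W ∧ k W = true := by
  obtain ⟨W, hW, hk⟩ := genL_sound hX hL L Acc Z hA _ h
  rw [fM_eq] at hk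
  exact ⟨_, hW.red, le_red _, hk⟩

theorem iter_sound (n : ℕ) {X : VN} {Y : Mt} (hX : Rp X Y) (hL : Le X) {k : VN → Bool}
    (h : iter n X k = true) : ∃ W, Rp W ((G LE ^ n) Y) ∧ Le W ∧ k W = true := by
  induction n generalizing X Y with
  | zero => exact ⟨X, hX, hL, h⟩
  | succ n ih =>
    obtain ⟨W, hW, hWL, hk⟩ := gen_sound hX hL rep_Z2 (k := fun Y => iter n Y k) h
    rw [zero_add] at hW
    rw [pow_succ]
    exact ih hW hWL hk

def idx (p : Fin 18 × Fin 18) : ℕ := ent 0 idxT p.1 p.2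

def Y0 : Mt := Matrix.of fun i j => (((18 * i.val + j.val) * 3 + 7 + BB ^ (idx (i, j) + 1) : ℕ) : ℤ)

theorem rep_X0 : Rp X0 Y0 := fun i j => by
  rw [X0, get_of, get_of, Y0, Matrix.of_apply, Int.cast_natCast]
  rfl

def TP : Module.End ℤ Mt := G LE ^ 16

def R0 : Module.End ℤ Mt := G Lz' * G Lz + G Lp * G Lm + G Lm * G Lp

def TR : Module.End ℤ Mt := R0 * G LE ^ 14

theorem chk_sound (h : chk = true) :
    ∃ P R, Rp P (TP Y0) ∧ Rp R (TR Y0) ∧ fin (allQ P R) = true := by
  rw [chk, fM_eq] at h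
  obtain ⟨Y, hY, hYL, h⟩ := iter_sound 14 rep_X0.red (le_red _) h
  obtain ⟨P, hP, -, h⟩ := iter_sound 2 hY hYL h
  obtain ⟨Yz, hz, hzL, h⟩ := gen_sound hY hYL rep_Z2 h
  obtain ⟨R1, h1, -, h⟩ := gen_sound hz hzL rep_Z2 h
  obtain ⟨Ym, hm, hmL, h⟩ := gen_sound hY hYL rep_Z2 h
  obtain ⟨R2, h2, -, h⟩ := gen_sound hm hmL h1 h
  obtain ⟨Yp, hp, hpL, h⟩ := gen_sound hY hYL rep_Z2 h
  obtain ⟨R3, h3, -, h⟩ := gen_sound hp hpL h2 h
  rw [fMI_eq] at h
  refine ⟨P, R3, ?_, ?_, h⟩
  · rw [TP, show 16 = 2 + 14 from rfl, pow_add]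
    exact hP
  · simp only [zero_add] at h3
    exact h3

end

end Vale.Agent.P348.MPS
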