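import Vale.Agent.P348.Basic

/-! Abstract moment sequences with a top atom, and the space-time purity recursion. -/

namespace Vale.Agent.P348

open Filter Topology

/-- closed properties of `m k = ∑ μ i ^ k` with `0 ≤ μ i ≤ t` and `t` one of the atoms -/
structure Mom (m : ℕ → ℝ) (t : ℝ) : Prop where
  t0 : 0 ≤ t
  le : ∀ k, 1 ≤ k → t ^ k ≤ m k
  rr : ∀ j k, 1 ≤ j → 1 ≤ k → m (j + k) - t ^ (j + k) ≤ (m j - t ^ j) * (m k - t ^ k)
  tr : ∀ j k, 1 ≤ k → m (j + k) - t ^ (j + k) ≤ t ^ j * (m k - t ^ k)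

theorem mom_of_family {ι : Type} [Fintype ι] (μ : ι → ℝ) (h0 : ∀ i, 0 ≤ μ i) (i0 : ι)
    (hm : ∀ i, μ i ≤ μ i0) :
    Mom (fun k => ∑ i, μ i ^ k) (μ i0) ∧
      ∀ i, μ i ≠ μ i0 → ∀ k, μ i ^ k ≤ ∑ j, μ j ^ k - μ i0 ^ k := by
  classical
  have e : ∀ k, ∑ j, μ j ^ k - μ i0 ^ k = ∑ j ∈ Finset.univ.erase i0, μ j ^ k := by
    intro k
    rw [← Finset.add_sum_erase _ _ (Finset.mem_univ i0)]; ring
  refine ⟨⟨h0 i0, fun k _ => ?_, fun j k _ _ => ?_, fun j k _ => ?_⟩, fun i hi k => ?_⟩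
  · exact Finset.single_le_sum (f := fun i => μ i ^ k) (fun i _ => pow_nonneg (h0 i) k)
      (Finset.mem_univ i0)
  · rw [e, e, e, Finset.sum_mul]
    refine Finset.sum_le_sum fun i hi => ?_
    rw [pow_add]
    exact mul_le_mul_of_nonneg_left (Finset.single_le_sum (f := fun i => μ i ^ k)
      (fun i _ => pow_nonneg (h0 i) k) hi) (pow_nonneg (h0 i) j)
  · rw [e, e, Finset.mul_sum]
    refine Finset.sum_le_sum fun i _ => ?_
    rw [pow_add]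
    exact mul_le_mul_of_nonneg_right (pow_le_pow_left₀ (h0 i) (hm i) j) (pow_nonneg (h0 i) k)
  · rw [e]
    exact Finset.single_le_sum (f := fun i => μ i ^ k) (fun i _ => pow_nonneg (h0 i) k)
      (Finset.mem_erase.2 ⟨fun h => hi (by rw [h]), Finset.mem_univ i⟩)

theorem mom_limit (m : ℕ → ℕ → ℝ) (t : ℕ → ℝ) (h : ∀ n, Mom (m n) (t n)) (M : ℕ → ℝ)
    (hM : ∀ k, 1 ≤ k → Tendsto (fun n => m n k) atTop (𝓝 (M k))) :
    ∃ φ : ℕ → ℕ, StrictMono φ ∧ ∃ T, Tendsto (fun n => t (φ n)) atTop (𝓝 T) ∧ Mom M T := by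
  obtain ⟨C, hC⟩ := (hM 1 le_rfl).bddAbove_range
  have hmem : ∀ n, t n ∈ Set.Icc (0 : ℝ) C := fun n =>
    ⟨(h n).t0, le_trans (by simpa using (h n).le 1 le_rfl) (hC ⟨n, rfl⟩)⟩
  obtain ⟨T, hT, φ, hφ, hl⟩ := isCompact_Icc.tendsto_subseq hmem
  have hl' : Tendsto (fun n => t (φ n)) atTop (𝓝 T) := hl
  have hM' : ∀ k, 1 ≤ k → Tendsto (fun n => m (φ n) k) atTop (𝓝 (M k)) := fun k hk =>
    (hM k hk).comp hφ.tendsto_atTop
  refine ⟨φ, hφ, T, hl', hT.1, fun k hk => ?_, fun j k hj hk => ?_, fun j k hk => ?_⟩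
  · exact le_of_tendsto_of_tendsto' (hl'.pow k) (hM' k hk) fun n => (h _).le k hk
  · exact le_of_tendsto_of_tendsto' ((hM' _ (by omega)).sub (hl'.pow _))
      (((hM' j hj).sub (hl'.pow j)).mul ((hM' k hk).sub (hl'.pow k))) fun n => (h _).rr j k hj hk
  · exact le_of_tendsto_of_tendsto' ((hM' _ (by omega)).sub (hl'.pow _))
      ((hl'.pow j).mul ((hM' k hk).sub (hl'.pow k))) fun n => (h _).tr j k hk

theorem Mom.congr {m m' : ℕ → ℝ} {t : ℝ} (h : Mom m t) (e : ∀ k, 1 ≤ k → m' k = m k) :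
    Mom m' t := by
  refine ⟨h.t0, fun k hk => ?_, fun j k hj hk => ?_, fun j k hk => ?_⟩
  · rw [e k hk]; exact h.le k hk
  · rw [e _ (by omega), e j hj, e k hk]; exact h.rr j k hj hk
  · rw [e _ (by omega), e k hk]; exact h.tr j k hk

theorem Mom.scale {m : ℕ → ℝ} {t : ℝ} (h : Mom m t) {c : ℝ} (hc : 0 ≤ c) :
    Mom (fun k => c ^ k * m k) (c * t) := by
  refine ⟨mul_nonneg hc h.t0, fun k hk => ?_, fun j k hj hk => ?_, fun j k hk => ?_⟩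
  · rw [mul_pow]; exact mul_le_mul_of_nonneg_left (h.le k hk) (pow_nonneg hc k)
  · have := mul_le_mul_of_nonneg_left (h.rr j k hj hk) (pow_nonneg hc (j + k))
    simp only [mul_pow, pow_add] at this ⊢
    linarith
  · have := mul_le_mul_of_nonneg_left (h.tr j k hk) (pow_nonneg hc (j + k))
    simp only [mul_pow, pow_add] at this ⊢
    linarith

theorem Mom.nonneg {m : ℕ → ℝ} {t : ℝ} (h : Mom m t) {k : ℕ} (hk : 1 ≤ k) : 0 ≤ m k :=
  (pow_nonneg h.t0 k).trans (h.le k hk)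

theorem Mom.two_le {m : ℕ → ℝ} {t : ℝ} (h : Mom m t) {k : ℕ} (hk : 1 ≤ k) :
    m (2 * k) ≤ m k ^ 2 := by
  have h1 := h.rr k k hk hk
  have h2 := mul_nonneg (pow_nonneg h.t0 k) (sub_nonneg.2 (h.le k hk))
  rw [pow_add, ← two_mul] at h1
  nlinarith

theorem Mom.purity {m : ℕ → ℝ} {t : ℝ} (h : Mom m t) {k : ℕ} (hk : 1 ≤ k) {a : ℝ} (ha : 0 ≤ a)
    (ha1 : a ≤ 1) (hp : (1 + a ^ 2) * m k ^ 2 ≤ (1 + a) ^ 2 * m (2 * k)) :
    m k ≤ (1 + a) * t ^ k ∧ m (2 * k) ≤ (1 + a ^ 2) * (t ^ k) ^ 2 := by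
  have h1 := h.rr k k hk hk
  have h2 := h.tr k k hk
  have h3 := h.le k hk
  have h4 := pow_nonneg h.t0 k
  rw [pow_add, ← two_mul] at h1 h2
  set E := t ^ k
  obtain ⟨r, hr⟩ : ∃ r, m k = E + r := ⟨m k - E, by ring⟩
  rw [hr] at h1 h2 h3 hp ⊢
  have hr0 : 0 ≤ r := by linarith
  have key : r ≤ a * E := by
    by_contra hc
    push Not at hc
    have a1 : 0 < E + r := by nlinarith
    have a2 : (1 + a ^ 2) * (E + r) * (E + r) ≤ (1 + a) ^ 2 * E * (E + r) := by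
      nlinarith [mul_le_mul_of_nonneg_left h2 (sq_nonneg (1 + a))]
    have a3 := le_of_mul_le_mul_right a2 a1
    have a4 : r ≤ E := by
      by_contra h5
      push Not at h5
      nlinarith [mul_nonneg (sq_nonneg (1 - a)) h4, mul_pos (by positivity : 0 < 1 + a ^ 2)
        (sub_pos.2 h5)]
    have a5 : (r - a * E) * (E - a * r) ≤ 0 := by
      nlinarith [mul_le_mul_of_nonneg_left h1 (sq_nonneg (1 + a))]
    have a6 : 0 < E - a * r := by nlinarith [mul_le_mul_of_nonneg_left a4 ha]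
    nlinarith [mul_pos (sub_pos.2 hc) a6]
  exact ⟨by linarith, by nlinarith [mul_le_mul key key hr0 (mul_nonneg ha h4)]⟩

theorem chi_cases (x g : Fin 4) : chi x g = 1 ∨ (chi x g = -1 ∧ g ≠ 0) := by
  unfold chi; split_ifs with h
  · exact Or.inl rfl
  · exact Or.inr ⟨rfl, fun e => h (Or.inr (Or.inl e))⟩

theorem chi_zero (g : Fin 4) : chi 0 g = 1 := by simp [chi]

theorem chi_zero' (g : Fin 4) : chi g 0 = 1 := by simp [chi]

theorem chi_inv (f : Fin 4 → ℝ) (h : Fin 4) :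
    f h = ∑ x, chi x h * ((1 / 4) * ∑ g, chi x g * f g) := by
  fin_cases h <;> simp [chi, Fin.sum_univ_four] <;> ring

theorem chi_pars (f : Fin 4 → ℝ) :
    ∑ x, ((1 / 4) * ∑ g, chi x g * f g) ^ 2 = (1 / 4) * ∑ g, f g ^ 2 := by
  simp [chi, Fin.sum_univ_four]; ring

theorem sum_chi {x : Fin 4} (hx : x ≠ 0) : ∑ g, chi x g = 0 := by
  fin_cases x <;> simp [chi, Fin.sum_univ_four] at hx ⊢

theorem sum_le_four {f : Fin 4 → ℝ} {a b : ℝ} (h0 : f 0 ≤ a) (h : ∀ x, x ≠ 0 → f x ≤ b) :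
    ∑ x, f x ≤ a + 3 * b := by
  rw [Fin.sum_univ_four]
  linarith [h 1 (by decide), h 2 (by decide), h 3 (by decide)]

theorem sq_avg_le (f : Fin 4 → ℝ) : ((1 / 4) * ∑ x, f x) ^ 2 ≤ (1 / 4) * ∑ x, f x ^ 2 := by
  simp only [Fin.sum_univ_four]
  nlinarith [sq_nonneg (f 0 - f 1), sq_nonneg (f 0 - f 2), sq_nonneg (f 0 - f 3),
    sq_nonneg (f 1 - f 2), sq_nonneg (f 1 - f 3), sq_nonneg (f 2 - f 3)]

theorem chi_lower {f : Fin 4 → ℝ} {a b : ℝ} (h0 : a ≤ f 0) (hb : 0 ≤ b)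
    (h : ∀ x, x ≠ 0 → 0 ≤ f x ∧ f x ≤ b) (g : Fin 4) : a - 2 * b ≤ ∑ x, chi x g * f x := by
  have h1 := h 1 (by decide)
  have h2 := h 2 (by decide)
  have h3 := h 3 (by decide)
  fin_cases g <;> simp [chi, Fin.sum_univ_four] <;> linarith [h1.1, h1.2, h2.1, h2.2, h3.1, h3.2]

theorem chi_upper {f : Fin 4 → ℝ} {a b : ℝ} (h0 : f 0 ≤ a)
    (h : ∀ x, x ≠ 0 → 0 ≤ f x ∧ f x ≤ b) {g : Fin 4} (hg : g ≠ 0) :
    ∑ x, chi x g * f x ≤ a + b := by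
  have h1 := h 1 (by decide)
  have h2 := h 2 (by decide)
  have h3 := h 3 (by decide)
  fin_cases g <;> simp [chi, Fin.sum_univ_four] at hg ⊢ <;>
    linarith [h1.1, h1.2, h2.1, h2.2, h3.1, h3.2]

theorem chi_conv {f : Fin 4 → ℝ} {a b : ℝ} (h00 : 0 ≤ f 0) (h0 : f 0 ≤ a)
    (h : ∀ x, x ≠ 0 → 0 ≤ f x ∧ f x ≤ b) {x : Fin 4} (hx : x ≠ 0) :
    (1 / 4) * ∑ g, chi x g * (∑ z, chi z g * f z) ^ 2 ≤ 2 * a * b + 2 * b ^ 2 := by
  have h1 := h 1 (by decide)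
  have h2 := h 2 (by decide)
  have h3 := h 3 (by decide)
  have ha := h00.trans h0
  have hb := h1.1.trans h1.2
  fin_cases x <;> simp [chi, Fin.sum_univ_four] at hx ⊢ <;>
    nlinarith [mul_le_mul h0 h1.2 h1.1 ha, mul_le_mul h0 h2.2 h2.1 ha, mul_le_mul h0 h3.2 h3.1 ha,
      mul_le_mul h1.2 h2.2 h2.1 hb, mul_le_mul h1.2 h3.2 h3.1 hb, mul_le_mul h2.2 h3.2 h3.1 hb]

theorem chi_side {F : Fin 4 → Fin 4 → ℝ} {b : Fin 4 → ℝ} {K1 K2 : ℝ}
    (h0 : ∀ g, F g 0 ≤ b g) (h0' : ∀ g, g ≠ 0 → b g - 2 * K1 ≤ F g 0)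
    (h : ∀ g z, z ≠ 0 → 0 ≤ F g z ∧ F g z ≤ K2) {x : Fin 4} (hx : x ≠ 0) (w : Fin 4) :
    (1 / 4) * ∑ g, chi x g * ∑ z, chi z w * F g z ≤
      (1 / 4) * ∑ g, chi x g * b g + K1 + 3 / 2 * K2 := by
  have e : ∀ g, chi x g * ∑ z, chi z w * F g z ≤ chi x g * b g + (1 - chi x g) * K1 +
      (3 + chi x g * (chi 1 w + chi 2 w + chi 3 w)) / 2 * K2 := by
    intro g
    have h1 := h g 1 (by decide)
    have h2 := h g 2 (by decide)
    have h3 := h g 3 (by decide)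
    have h4 := h0 g
    rw [Fin.sum_univ_four, chi_zero]
    rcases chi_cases x g with c | ⟨c, hg⟩
    · rcases chi_cases 1 w with c1 | ⟨c1, -⟩ <;> rcases chi_cases 2 w with c2 | ⟨c2, -⟩ <;>
        rcases chi_cases 3 w with c3 | ⟨c3, -⟩ <;> rw [c, c1, c2, c3] <;>
        linarith [h1.1, h1.2, h2.1, h2.2, h3.1, h3.2]
    · have h5 := h0' g hg
      rcases chi_cases 1 w with c1 | ⟨c1, -⟩ <;> rcases chi_cases 2 w with c2 | ⟨c2, -⟩ <;>
        rcases chi_cases 3 w with c3 | ⟨c3, -⟩ <;> rw [c, c1, c2, c3] <;>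
        linarith [h1.1, h1.2, h2.1, h2.2, h3.1, h3.2]
  have e2 := Finset.sum_le_sum fun g (_ : g ∈ Finset.univ) => e g
  have e3 := sum_chi hx
  rw [Fin.sum_univ_four] at e3
  simp only [Fin.sum_univ_four (fun g => chi x g * b g + _ + _),
    Fin.sum_univ_four (fun g => chi x g * b g)] at e2 ⊢
  have e4 : (chi x 0 + chi x 1 + chi x 2 + chi x 3) * K1 = 0 := by rw [e3, zero_mul]
  have e5 : (chi x 0 + chi x 1 + chi x 2 + chi x 3) * ((chi 1 w + chi 2 w + chi 3 w) * K2) = 0 := by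
    rw [e3, zero_mul]
  linarith

theorem young {s r : ℝ} (hs : 0 ≤ s) (hr : 0 ≤ r) {p d : ℕ} (hp : 1 ≤ p) :
    ((p : ℝ) + d) * (s ^ p * r ^ d) ≤ p * s ^ (p + d) + d * r ^ (p + d) := by
  have hn : (0 : ℝ) < (p : ℝ) + d := by positivity
  have h := Real.geom_mean_le_arith_mean2_weighted (w₁ := p / (p + d)) (w₂ := d / (p + d))
    (p₁ := s ^ (p + d)) (p₂ := r ^ (p + d)) (by positivity) (by positivity) (by positivity)
    (by positivity) (by field_simp)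
  rw [← Real.rpow_natCast s (p + d), ← Real.rpow_natCast r (p + d), ← Real.rpow_mul hs,
    ← Real.rpow_mul hr, Nat.cast_add, mul_div_cancel₀ _ hn.ne', mul_div_cancel₀ _ hn.ne',
    ← Nat.cast_add] at h
  simp only [Real.rpow_natCast] at h
  rw [Nat.cast_add, div_mul_eq_mul_div, div_mul_eq_mul_div, ← add_div, le_div_iff₀ hn] at h
  linarith

theorem pow_mean {w s : Fin 4 → ℝ} (hw : ∀ g, 0 ≤ w g) (hw1 : ∑ g, w g = 1) (hs : ∀ g, 0 ≤ s g)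
    {C r : ℝ} (hC : 1 ≤ C) (hr : 0 ≤ r) {p d : ℕ} (hp : 1 ≤ p)
    (h : ∑ g, w g * s g ^ (p + d) ≤ C * r ^ (p + d)) : ∑ g, w g * s g ^ p ≤ C * r ^ p := by
  rcases hr.eq_or_lt with rfl | hr0
  · rw [zero_pow (by omega), mul_zero] at h ⊢
    refine (Finset.sum_eq_zero fun g _ => ?_).le
    have h1 := (Finset.single_le_sum (f := fun g => w g * s g ^ (p + d))
      (fun g _ => mul_nonneg (hw g) (pow_nonneg (hs g) _)) (Finset.mem_univ g)).trans h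
    rcases mul_eq_zero.1 (le_antisymm h1 (mul_nonneg (hw g) (pow_nonneg (hs g) _))) with h2 | h2
    · rw [h2, zero_mul]
    · rw [pow_eq_zero_iff (by omega) |>.1 h2, zero_pow (by omega), mul_zero]
  · have h1 := Finset.sum_le_sum fun g (_ : g ∈ Finset.univ) =>
      mul_le_mul_of_nonneg_left (young (hs g) hr (d := d) hp) (hw g)
    have e1 : ∑ g, w g * (((p : ℝ) + d) * (s g ^ p * r ^ d)) =
        (∑ g, w g * s g ^ p) * (((p : ℝ) + d) * r ^ d) := by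
      rw [Finset.sum_mul]; exact Finset.sum_congr rfl fun g _ => by ring
    have e2 : ∑ g, w g * (p * s g ^ (p + d) + d * r ^ (p + d)) =
        p * ∑ g, w g * s g ^ (p + d) + (∑ g, w g) * (d * r ^ (p + d)) := by
      rw [Finset.mul_sum, Finset.sum_mul, ← Finset.sum_add_distrib]
      exact Finset.sum_congr rfl fun g _ => by ring
    rw [e1, e2, hw1] at h1
    refine le_of_mul_le_mul_right (h1.trans ?_) (by positivity)
    have h2 := mul_le_mul_of_nonneg_left h (by positivity : (0 : ℝ) ≤ p)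
    have h3 := mul_le_mul_of_nonneg_right hC (by positivity : (0 : ℝ) ≤ d * r ^ (p + d))
    rw [pow_add] at h2 h3 ⊢
    linarith

theorem pow_half {s ρ q : ℝ} (hs : 0 ≤ s) (hρ : 0 ≤ ρ) (hq : 1 ≤ q) {d f : ℕ} (hn : 1 ≤ 2 * d + f)
    (h : s ^ (2 * d + f) ≤ q ^ 2 * ρ ^ (2 * d + f)) : s ^ d ≤ q * ρ ^ d := by
  rcases le_or_gt s ρ with h1 | h1
  · exact (pow_le_pow_left₀ hs h1 d).trans (le_mul_of_one_le_left (pow_nonneg hρ d) hq)
  · rcases hρ.eq_or_lt with rfl | hρ0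
    · rw [zero_pow (by omega), mul_zero] at h
      exact absurd h (not_le.2 (pow_pos h1 _))
    · have h2 : (s ^ d) ^ 2 * ρ ^ f ≤ (q * ρ ^ d) ^ 2 * ρ ^ f :=
        calc (s ^ d) ^ 2 * ρ ^ f ≤ (s ^ d) ^ 2 * s ^ f := by gcongr
          _ = s ^ (2 * d + f) := by ring
          _ ≤ _ := h
          _ = _ := by ring
      exact le_of_sq_le_sq (le_of_mul_le_mul_right h2 (pow_pos hρ0 f)) (by positivity)

/-- A doubly twisted family `W g h l k` (`g` twist in time, `h` twist in space, `l` spatial size,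
`k` temporal size) that is a moment sequence in both channels, sector by sector. -/
structure Torus where
  W : Fin 4 → Fin 4 → ℕ → ℕ → ℝ
  e : Fin 4 → Fin 4 → ℕ → ℝ
  s : Fin 4 → Fin 4 → ℕ → ℝ
  he : ∀ h x l, 1 ≤ l → Mom (fun k => (1 / 4) * ∑ g, chi x g * W g h l k) (e h x l)
  hs : ∀ g x k, 1 ≤ k → Mom (fun l => (1 / 4) * ∑ h, chi x h * W g h l k) (s g x k)

namespace Torus

/-- time-channel sector -/
noncomputable def A (T : Torus) (h x : Fin 4) (l k : ℕ) : ℝ := (1 / 4) * ∑ g, chi x g * T.W g h l k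

/-- space-channel sector -/
noncomputable def B (T : Torus) (g x : Fin 4) (l k : ℕ) : ℝ := (1 / 4) * ∑ h, chi x h * T.W g h l k

def swap (T : Torus) : Torus where
  W g h l k := T.W h g k l
  e := T.s
  s := T.e
  he := T.hs
  hs := T.he

def TS (T : Torus) (l k : ℕ) (a y : ℝ) : Prop :=
  ∀ h, T.A h 0 l k ≤ (1 + a) * T.e h 0 l ^ k ∧ ∀ x, x ≠ 0 → T.A h x l k ≤ y * T.e h 0 l ^ k

def SS (T : Torus) (l k : ℕ) (a y : ℝ) : Prop :=
  ∀ g, T.B g 0 l k ≤ (1 + a) * T.s g 0 k ^ l ∧ ∀ x, x ≠ 0 → T.B g x l k ≤ y * T.s g 0 k ^ l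

theorem SS_iff (T : Torus) (l k : ℕ) (a y : ℝ) : T.SS l k a y ↔ T.swap.TS k l a y := Iff.rfl

theorem TS.mono {T : Torus} {l k : ℕ} (hl : 1 ≤ l) {a y a' y' : ℝ} (h : T.TS l k a y) (ha : a ≤ a')
    (hy : y ≤ y') : T.TS l k a' y' := by
  intro g
  have h0 := pow_nonneg (T.he g 0 l hl).t0 k
  exact ⟨(h g).1.trans (by gcongr), fun x hx => ((h g).2 x hx).trans (by gcongr)⟩

theorem TS.sq {T : Torus} {l k : ℕ} (hl : 1 ≤ l) (hk : 1 ≤ k) {a y : ℝ} (h : T.TS l k a y) :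
    T.TS l (2 * k) (a ^ 2) (y ^ 2) := by
  intro g
  refine ⟨?_, fun x hx => ?_⟩
  · have h1 := (T.he g 0 l hl).rr k k hk hk
    have h2 := (T.he g 0 l hl).le k hk
    have h3 := (h g).1
    rw [← two_mul, pow_mul'] at h1
    rw [pow_mul']
    change T.A g 0 l (2 * k) - _ ≤ (T.A g 0 l k - _) * (T.A g 0 l k - _) at h1
    change _ ≤ T.A g 0 l k at h2
    have h4 : T.A g 0 l k - T.e g 0 l ^ k ≤ a * T.e g 0 l ^ k := by linarith
    nlinarith [mul_le_mul h4 h4 (by linarith) (by linarith)]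
  · rw [pow_mul', ← mul_pow]
    exact ((T.he g x l hl).two_le hk).trans
      (pow_le_pow_left₀ ((T.he g x l hl).nonneg hk) ((h g).2 x hx) 2)

theorem TS.later {T : Torus} {l k k' : ℕ} (hl : 1 ≤ l) (hk : 1 ≤ k) (hkk : k ≤ k') {a y : ℝ}
    (hy : y ≤ 1) (h : T.TS l k a y) : T.TS l k' a y := by
  obtain ⟨j, rfl⟩ : ∃ j, k' = j + k := ⟨k' - k, by omega⟩
  intro g
  have h0 := (T.he g 0 l hl).t0
  refine ⟨?_, fun x hx => ?_⟩
  · have h1 := (T.he g 0 l hl).tr j k hk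
    change T.A g 0 l (j + k) - _ ≤ _ * (T.A g 0 l k - _) at h1
    have h2 := mul_le_mul_of_nonneg_left (h g).1 (pow_nonneg h0 j)
    rw [pow_add] at h1 ⊢
    linarith
  · have h1 := (T.he g x l hl).tr j k hk
    change T.A g x l (j + k) - _ ≤ _ * (T.A g x l k - _) at h1
    have h2 : T.e g x l ^ k ≤ T.e g 0 l ^ k := (((T.he g x l hl).le k hk).trans
      ((h g).2 x hx)).trans (mul_le_of_le_one_left (pow_nonneg h0 k) hy)
    have h3 := pow_le_pow_left₀ (T.he g x l hl).t0 (le_of_pow_le_pow_left₀ (by omega) h0 h2) j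
    have h4 := mul_le_mul h3 ((h g).2 x hx) ((T.he g x l hl).nonneg hk) (pow_nonneg h0 j)
    rw [pow_add] at h1 ⊢
    linarith

theorem W_eq_B (T : Torus) (g h : Fin 4) (l k : ℕ) :
    T.W g h l k = ∑ x, chi x h * T.B g x l k := chi_inv (fun h => T.W g h l k) h

theorem W_eq_A (T : Torus) (g h : Fin 4) (l k : ℕ) :
    T.W g h l k = ∑ x, chi x g * T.A h x l k := chi_inv (fun g => T.W g h l k) g

theorem A_zero (T : Torus) (h : Fin 4) (l k : ℕ) :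
    T.A h 0 l k = (1 / 4) * ∑ g, T.W g h l k := by simp only [A, chi_zero, one_mul]

theorem B_zero (T : Torus) (g : Fin 4) (l k : ℕ) :
    T.B g 0 l k = (1 / 4) * ∑ h, T.W g h l k := by simp only [B, chi_zero, one_mul]

theorem W_le_B (T : Torus) (g h : Fin 4) {l k : ℕ} (hl : 1 ≤ l) (hk : 1 ≤ k) :
    T.W g h l k ≤ ∑ x, T.B g x l k := by
  rw [W_eq_B]
  refine Finset.sum_le_sum fun x _ => ?_
  have : 0 ≤ T.B g x l k := (T.hs g x k hk).nonneg hl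
  rcases chi_cases x h with c | ⟨c, -⟩ <;> rw [c] <;> linarith

theorem side (T : Torus) {l k : ℕ} (hl : 1 ≤ l) (hk : 1 ≤ k) {a y as xs : ℝ}
    (h1 : T.TS l k a y) (h3 : T.SS l k as xs) (has : 0 ≤ as) (h : Fin 4) {x : Fin 4} (hx : x ≠ 0)
    {E1 : ℝ} (hE1 : E1 = (1 / 4) * ∑ h, T.e h 0 l ^ k) :
    T.A h x (2 * l) k ≤ (2 * y * (1 + a) + 2 * y ^ 2 + (1 + a + y) ^ 2 * as +
      3 / 2 * xs ^ 2 * (1 + a + 3 * y) ^ 2) * E1 ^ 2 := by
  have hAn : ∀ h x, 0 ≤ T.A h x l k := fun h x => (T.he h x l hl).nonneg hk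
  let f : Fin 4 → ℝ := fun z => (1 / 4) * ∑ h', T.A h' z l k
  have f0 : ∀ z, 0 ≤ f z := fun z => mul_nonneg (by norm_num) (Finset.sum_nonneg fun h _ => hAn h z)
  have f1 : f 0 ≤ (1 + a) * E1 := by
    have := Finset.sum_le_sum fun g (_ : g ∈ Finset.univ) => (h1 g).1
    rw [← Finset.mul_sum] at this
    rw [hE1]; simp only [f]; linarith
  have f2 : ∀ z, z ≠ 0 → 0 ≤ f z ∧ f z ≤ y * E1 := fun z hz => ⟨f0 z, by
    have := Finset.sum_le_sum fun g (_ : g ∈ Finset.univ) => (h1 g).2 z hz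
    rw [← Finset.mul_sum] at this
    rw [hE1]; simp only [f]; linarith⟩
  have f3 : ∀ g, T.B g 0 l k = ∑ z, chi z g * f z := by
    intro g
    simp only [B_zero, W_eq_A, f, Finset.mul_sum]
    rw [Finset.sum_comm]
    exact Finset.sum_congr rfl fun _ _ => Finset.sum_congr rfl fun _ _ => by ring
  have f4 : ∀ g, 0 ≤ T.B g 0 l k := fun g => (T.hs g 0 k hk).nonneg hl
  have f5 : ∀ g, T.B g 0 l k ≤ (1 + a + 3 * y) * E1 := by
    intro g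
    rw [f3]
    refine (sum_le_four (a := (1 + a) * E1) (b := y * E1) (by rw [chi_zero]; linarith)
      fun z hz => ?_).trans (le_of_eq (by ring))
    rcases chi_cases z g with c | ⟨c, -⟩ <;> rw [c] <;> linarith [(f2 z hz).1, (f2 z hz).2]
  have i5 := chi_side (F := fun g z => T.B g z (2 * l) k) (b := fun g => T.B g 0 l k ^ 2)
    (K1 := as * ((1 + a + y) * E1) ^ 2) (K2 := (xs * ((1 + a + 3 * y) * E1)) ^ 2)
    (fun g => (T.hs g 0 k hk).two_le hl) (fun g hg => by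
      have d1 := (T.hs g 0 k hk).le (2 * l) (by omega)
      have d2 : T.B g 0 l k ≤ (1 + a + y) * E1 := by
        rw [f3]; exact (chi_upper f1 f2 hg).trans (le_of_eq (by ring))
      have d3 := (h3 g).1
      have d4 := (T.hs g 0 k hk).le l hl
      have d5 := pow_nonneg (T.hs g 0 k hk).t0 l
      rw [pow_mul'] at d1
      change _ ≤ T.B g 0 (2 * l) k at d1
      change _ ≤ T.B g 0 l k at d4
      have d6 := mul_le_mul_of_nonneg_left (pow_le_pow_left₀ (f4 g) d2 2) has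
      have d7 : T.B g 0 l k - T.s g 0 k ^ l ≤ as * T.B g 0 l k := by
        nlinarith [mul_le_mul_of_nonneg_left d4 has]
      have d8 := mul_le_mul d7 (by linarith : T.B g 0 l k + T.s g 0 k ^ l ≤ 2 * T.B g 0 l k)
        (by linarith [f4 g]) (mul_nonneg has (f4 g))
      linarith)
    (fun g z hz => ⟨(T.hs g z k hk).nonneg (by omega), by
      have d1 := ((T.hs g z k hk).two_le hl).trans
        (pow_le_pow_left₀ ((T.hs g z k hk).nonneg hl) ((h3 g).2 z hz) 2)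
      have d2 := pow_le_pow_left₀ (pow_nonneg (T.hs g 0 k hk).t0 l)
        (((T.hs g 0 k hk).le l hl).trans (f5 g)) 2
      rw [mul_pow] at d1 ⊢
      exact d1.trans (mul_le_mul_of_nonneg_left d2 (sq_nonneg xs))⟩) hx h
  have i6 := chi_conv (f0 0) f1 f2 hx
  simp only [← W_eq_B] at i5
  simp only [← f3] at i6
  change T.A h x (2 * l) k ≤ _ at i5
  linarith

/-- the cross step -/
theorem cross (T : Torus) {l k : ℕ} (hl : 1 ≤ l) (hk : 1 ≤ k) {a y a' x' as xs a1 y1 v : ℝ}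
    (h1 : T.TS l k a y) (h2 : T.SS l (2 * k) a' x') (h3 : T.SS l k as xs)
    (ha : 0 ≤ a) (hy : 0 ≤ y) (hy1 : y ≤ 1) (ha' : 0 ≤ a') (has : 0 ≤ as)
    (ha1 : 0 ≤ a1) (ha1' : a1 ≤ 1) (hv : 0 < v)
    (c1 : (1 + a1 ^ 2) * ((1 + a) ^ 2 + 3 * y ^ 2) ^ 2 * (1 + a') ^ 2 ≤
      (1 - 2 * x' ^ 2) * (1 + a1) ^ 2)
    (c2 : v ^ 2 * (1 + a1 ^ 2) * (1 + a') ^ 2 ≤ 1 - 2 * x' ^ 2)
    (c3 : 2 * y * (1 + a) + 2 * y ^ 2 + (1 + a + y) ^ 2 * as +
      3 / 2 * xs ^ 2 * (1 + a + 3 * y) ^ 2 ≤ y1 * v) :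
    T.TS (2 * l) k a1 y1 := by
  have hAn : ∀ h x, 0 ≤ T.A h x l k := fun h x => (T.he h x l hl).nonneg hk
  have he0 : ∀ h, 0 ≤ T.e h 0 l ^ k := fun h => pow_nonneg (T.he h 0 l hl).t0 k
  obtain ⟨E2, hE2⟩ : ∃ E2, E2 = (1 / 4) * ∑ h, (T.e h 0 l ^ k) ^ 2 := ⟨_, rfl⟩
  obtain ⟨E1, hE1⟩ : ∃ E1, E1 = (1 / 4) * ∑ h, T.e h 0 l ^ k := ⟨_, rfl⟩
  have hE2n : 0 ≤ E2 := by rw [hE2]; positivity
  have hE1n : 0 ≤ E1 := hE1 ▸ mul_nonneg (by norm_num) (Finset.sum_nonneg fun h _ => he0 h)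
  have hE12 : E1 ^ 2 ≤ E2 := by rw [hE1, hE2]; exact sq_avg_le _
  have hx' : 0 < 1 - 2 * x' ^ 2 := lt_of_lt_of_le (by positivity) c2
  intro h
  have i1 : T.A h 0 (2 * l) k ≤ ((1 + a) ^ 2 + 3 * y ^ 2) * E2 := by
    have b1 : ∀ g, T.W g h (2 * l) k ≤ (1 / 4) * ∑ h', T.W g h' l k ^ 2 := fun g =>
      (T.W_le_B g h (by omega) hk).trans ((Finset.sum_le_sum fun x _ =>
        (T.hs g x k hk).two_le hl).trans (chi_pars _).le)
    have b2 : ∀ h', (1 / 4) * ∑ g, T.W g h' l k ^ 2 ≤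
        ((1 + a) ^ 2 + 3 * y ^ 2) * (T.e h' 0 l ^ k) ^ 2 := by
      intro h'
      rw [← chi_pars]
      refine (sum_le_four (pow_le_pow_left₀ (hAn h' 0) (h1 h').1 2) fun x hx =>
        pow_le_pow_left₀ (hAn h' x) ((h1 h').2 x hx) 2).trans (le_of_eq (by ring))
    have b3 := Finset.sum_le_sum fun g (_ : g ∈ Finset.univ) => b1 g
    have b4 := Finset.sum_le_sum fun g (_ : g ∈ Finset.univ) => b2 g
    rw [← Finset.mul_sum, Finset.sum_comm] at b3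
    rw [← Finset.mul_sum, ← Finset.mul_sum] at b4
    rw [A_zero, hE2]
    linarith
  have i2 : (1 - 2 * x' ^ 2) * E2 ^ 2 ≤ (1 + a') ^ 2 * T.A h 0 (2 * l) (2 * k) := by
    have b1 : ∀ g, (1 - 2 * x' ^ 2) * T.B g 0 l (2 * k) ^ 2 ≤
        (1 + a') ^ 2 * T.W g h (2 * l) (2 * k) := by
      intro g
      have d1 := chi_lower (f := fun x => T.B g x (2 * l) (2 * k))
        ((T.hs g 0 (2 * k) (by omega)).le (2 * l) (by omega))
        (b := (x' * T.s g 0 (2 * k) ^ l) ^ 2) (sq_nonneg _)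
        (fun x hx => ⟨(T.hs g x (2 * k) (by omega)).nonneg (by omega),
          ((T.hs g x (2 * k) (by omega)).two_le hl).trans (pow_le_pow_left₀
            ((T.hs g x (2 * k) (by omega)).nonneg hl) ((h2 g).2 x hx) 2)⟩) h
      rw [← W_eq_B, pow_mul'] at d1
      have d2 := mul_le_mul_of_nonneg_left (pow_le_pow_left₀
        ((T.hs g 0 (2 * k) (by omega)).nonneg hl) (h2 g).1 2) hx'.le
      have d3 := mul_le_mul_of_nonneg_left d1 (sq_nonneg (1 + a'))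
      change _ * T.B g 0 l (2 * k) ^ 2 ≤ _ at d2
      linarith
    have b2 : E2 ≤ (1 / 4) * ∑ g, T.B g 0 l (2 * k) := by
      have d1 : ∑ g, T.B g 0 l (2 * k) = ∑ h', T.A h' 0 l (2 * k) := by
        simp only [A_zero, B_zero, ← Finset.mul_sum]; rw [Finset.sum_comm]
      rw [d1, hE2]
      refine mul_le_mul_of_nonneg_left (Finset.sum_le_sum fun h' _ => ?_) (by norm_num)
      rw [← pow_mul']
      exact (T.he h' 0 l hl).le _ (by omega)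
    have b3 := mul_le_mul_of_nonneg_left ((pow_le_pow_left₀ hE2n b2 2).trans (sq_avg_le _)) hx'.le
    have b4 := Finset.sum_le_sum fun g (_ : g ∈ Finset.univ) => b1 g
    rw [← Finset.mul_sum, ← Finset.mul_sum] at b4
    rw [A_zero]
    linarith
  have hM := T.he h 0 (2 * l) (by omega)
  have i3 := hM.purity hk ha1 ha1' (by
    change _ * T.A h 0 (2 * l) k ^ 2 ≤ _ * T.A h 0 (2 * l) (2 * k)
    have d1 := pow_le_pow_left₀ (hM.nonneg hk) i1 2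
    change T.A h 0 (2 * l) k ^ 2 ≤ _ at d1
    refine le_of_mul_le_mul_left ?_ (by positivity : 0 < (1 + a') ^ 2)
    have d2 := mul_le_mul_of_nonneg_left d1 (by positivity : 0 ≤ (1 + a') ^ 2 * (1 + a1 ^ 2))
    have d3 := mul_le_mul_of_nonneg_right c1 (sq_nonneg E2)
    have d4 := mul_le_mul_of_nonneg_left i2 (sq_nonneg (1 + a1))
    linarith)
  refine ⟨i3.1, fun x hx => ?_⟩
  have i4 : v * E2 ≤ T.e h 0 (2 * l) ^ k := by
    refine le_of_sq_le_sq (le_of_mul_le_mul_left ?_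
      (by positivity : 0 < (1 + a') ^ 2 * (1 + a1 ^ 2))) (pow_nonneg hM.t0 k)
    have d1 := mul_le_mul_of_nonneg_left i3.2 (sq_nonneg (1 + a'))
    change _ * T.A h 0 (2 * l) (2 * k) ≤ _ at d1
    have d3 := mul_le_mul_of_nonneg_right c2 (sq_nonneg E2)
    linarith
  have i5 := T.side hl hk h1 h3 has h hx hE1
  have i7 : 0 ≤ 2 * y * (1 + a) + 2 * y ^ 2 + (1 + a + y) ^ 2 * as +
      3 / 2 * xs ^ 2 * (1 + a + 3 * y) ^ 2 := by positivity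
  have i8 := mul_le_mul c3 hE12 (sq_nonneg _) (i7.trans c3)
  have i9 : 0 ≤ y1 := nonneg_of_mul_nonneg_left (i7.trans c3) hv
  have i10 := mul_le_mul_of_nonneg_left i4 i9
  exact i5.trans (i8.trans (le_of_eq_of_le (mul_assoc _ _ _) i10))

/-- interpolation to intermediate sizes (only the untwisted ring) -/
theorem interp (T : Torus) {n n' k : ℕ} (hn' : 1 ≤ n') (hk : 1 ≤ k) (h1 : n' ≤ n) (h2 : n ≤ 2 * n')
    {a y as xs a' x' q a1 v θ : ℝ}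
    (hT : T.TS n k a y) (hS : T.SS n' k as xs) (hS' : T.SS n (2 * k) a' x')
    (ha : 0 ≤ a) (hy : 0 ≤ y) (has : 0 ≤ as) (hxs : 0 ≤ xs) (ha' : 0 ≤ a') (hx' : 0 ≤ x')
    (hq : 1 ≤ q) (ha1 : 0 ≤ a1) (ha1' : a1 ≤ 1) (hv : 0 < v)
    (c0 : 1 + a ^ 2 + 3 * y ^ 2 ≤ q ^ 2)
    (c1 : (1 + a1 ^ 2) * ((1 + as + 3 * xs) * (1 + a)) ^ 2 * ((1 + a' + 3 * x') * q) ≤ (1 + a1) ^ 2)
    (c2 : v ^ 2 * (1 + a1 ^ 2) * ((1 + a' + 3 * x') * q) ≤ 1)
    (c3 : (1 + as + 3 * xs) * (1 + a + y) ≤ (1 + θ) * v) :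
    T.A 0 0 n' k ≤ (1 + a1) * T.e 0 0 n' ^ k ∧ ∀ x, x ≠ 0 → T.A 0 x n' k ≤ θ * T.e 0 0 n' ^ k := by
  have hn : 1 ≤ n := by omega
  have he0 := (T.he 0 0 n hn).t0
  obtain ⟨r, hr0, hr⟩ : ∃ r : ℝ, 0 ≤ r ∧ r ^ n = T.e 0 0 n ^ k :=
    ⟨(T.e 0 0 n ^ k) ^ ((n : ℝ)⁻¹), by positivity, Real.rpow_inv_natCast_pow (by positivity)
      (by omega)⟩
  obtain ⟨d, rfl⟩ : ∃ d, n = n' + d := ⟨n - n', by omega⟩
  have hW : ∀ g l k, 1 ≤ l → 1 ≤ k → T.s g 0 k ^ l ≤ T.W g 0 l k := by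
    intro g l k hl hk
    rw [W_eq_B]
    simp only [chi_zero', one_mul]
    exact ((T.hs g 0 k hk).le l hl).trans (Finset.single_le_sum (f := fun x => T.B g x l k)
      (fun x _ => (T.hs g x k hk).nonneg hl) (Finset.mem_univ 0))
  have hW' : ∀ {l k a y}, 1 ≤ l → 1 ≤ k → T.SS l k a y → ∀ g,
      T.W g 0 l k ≤ (1 + a + 3 * y) * T.s g 0 k ^ l := fun hl hk H g =>
    (T.W_le_B g 0 hl hk).trans ((sum_le_four (H g).1 (H g).2).trans (le_of_eq (by ring)))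
  have up : ∀ (w : Fin 4 → ℝ) (C : ℝ), (∀ g, 0 ≤ w g) → ∑ g, w g = 1 → 1 ≤ C →
      ∑ g, w g * T.W g 0 (n' + d) k ≤ C * T.e 0 0 (n' + d) ^ k →
      ∑ g, w g * T.W g 0 n' k ≤ (1 + as + 3 * xs) * C * r ^ n' := by
    intro w C w0 w1 hC H
    have b1 := pow_mean w0 w1 (fun g => (T.hs g 0 k hk).t0) hC hr0 hn' (d := d)
      ((Finset.sum_le_sum fun g _ => mul_le_mul_of_nonneg_left (hW g _ k hn hk) (w0 g)).trans
        (hr ▸ H))
    refine (Finset.sum_le_sum fun g _ => mul_le_mul_of_nonneg_left (hW' hn' hk hS g) (w0 g)).trans ?_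
    rw [mul_assoc]
    refine le_trans (le_of_eq ?_) (mul_le_mul_of_nonneg_left b1 (by positivity))
    rw [Finset.mul_sum]; exact Finset.sum_congr rfl fun _ _ => by ring
  have i1 : T.A 0 0 n' k ≤ (1 + as + 3 * xs) * (1 + a) * r ^ n' := by
    rw [A_zero, Finset.mul_sum]
    refine up _ _ (fun _ => by norm_num) (by simp) (by linarith) ?_
    rw [← Finset.mul_sum, ← A_zero]; exact (hT 0).1
  have i2 : (r ^ n') ^ 2 ≤ (1 + a' + 3 * x') * q * T.A 0 0 n' (2 * k) := by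
    have b0 : 0 ≤ T.A 0 0 n' (2 * k) := (T.he 0 0 n' hn').nonneg (by omega)
    rcases hr0.eq_or_lt with rfl | hr1
    · rw [zero_pow (by omega), zero_pow (by norm_num)]; positivity
    have b1 : ∀ g, T.s g 0 (2 * k) ^ d ≤ q * (r ^ 2) ^ d := by
      intro g
      obtain ⟨f, hf⟩ : ∃ f, n' + d = 2 * d + f := ⟨n' - d, by omega⟩
      refine pow_half (f := f) (T.hs g 0 _ (by omega)).t0 (by positivity) hq (by omega) ?_
      rw [← hf, ← pow_mul, pow_mul', hr, ← pow_mul']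
      have d1 := hT.sq hn hk 0
      refine (hW g _ _ hn (by omega)).trans ((T.swap.W_le_B 0 g (by omega) hn).trans
        ((sum_le_four d1.1 d1.2).trans ?_))
      have := mul_le_mul_of_nonneg_right c0 (pow_nonneg he0 (2 * k))
      linarith
    have b2 : ∀ g, T.W g 0 (n' + d) (2 * k) ≤
        (1 + a' + 3 * x') * q * (r ^ 2) ^ d * T.W g 0 n' (2 * k) := by
      intro g
      refine (hW' hn (by omega) hS' g).trans ?_
      rw [pow_add, mul_comm (T.s g 0 (2 * k) ^ n'), mul_assoc _ q, mul_assoc _ (q * _)]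
      exact mul_le_mul_of_nonneg_left (mul_le_mul (b1 g) (hW g _ _ hn' (by omega))
        (pow_nonneg (T.hs g 0 _ (by omega)).t0 _) (by positivity)) (by positivity)
    have b3 := Finset.sum_le_sum fun g (_ : g ∈ Finset.univ) => b2 g
    have b4 := (T.he 0 0 (n' + d) hn).le (2 * k) (by omega)
    change _ ≤ T.A 0 0 (n' + d) (2 * k) at b4
    rw [A_zero, pow_mul', ← hr] at b4
    rw [← Finset.mul_sum] at b3
    rw [A_zero]
    refine le_of_mul_le_mul_right ?_ (by positivity : 0 < (r ^ 2) ^ d)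
    have b5 : (r ^ n') ^ 2 * (r ^ 2) ^ d = (r ^ (n' + d)) ^ 2 := by ring
    linarith
  have hM := T.he 0 0 n' hn'
  have i3 := hM.purity hk ha1 ha1' (by
    change _ * T.A 0 0 n' k ^ 2 ≤ _ * T.A 0 0 n' (2 * k)
    have d1 := pow_le_pow_left₀ (hM.nonneg hk) i1 2
    change T.A 0 0 n' k ^ 2 ≤ _ at d1
    have d2 := mul_le_mul_of_nonneg_left d1 (by positivity : 0 ≤ 1 + a1 ^ 2)
    have d3 := mul_le_mul_of_nonneg_right c1 (hM.nonneg (k := 2 * k) (by omega))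
    change _ * T.A 0 0 n' (2 * k) ≤ _ * T.A 0 0 n' (2 * k) at d3
    have d4 := mul_le_mul_of_nonneg_left i2
      (by positivity : 0 ≤ (1 + a1 ^ 2) * ((1 + as + 3 * xs) * (1 + a)) ^ 2)
    linarith)
  refine ⟨i3.1, fun x hx => ?_⟩
  have i4 : v * r ^ n' ≤ T.e 0 0 n' ^ k := by
    refine le_of_sq_le_sq ?_ (pow_nonneg hM.t0 k)
    have d1 := mul_le_mul_of_nonneg_left i3.2 (by positivity : 0 ≤ v ^ 2 * ((1 + a' + 3 * x') * q))
    change _ * T.A 0 0 n' (2 * k) ≤ _ at d1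
    have d2 := mul_le_mul_of_nonneg_left i2 (sq_nonneg v)
    have d3 := mul_le_mul_of_nonneg_right c2 (sq_nonneg (T.e 0 0 n' ^ k))
    linarith
  have e : ∀ l, ∑ g, (1 + chi x g) / 4 * T.W g 0 l k = T.A 0 0 l k + T.A 0 x l k := by
    intro l
    rw [A_zero, A, ← mul_add, ← Finset.sum_add_distrib, Finset.mul_sum]
    exact Finset.sum_congr rfl fun _ _ => by ring
  have i5 := up (fun g => (1 + chi x g) / 4) (1 + a + y)
    (fun g => by rcases chi_cases x g with c | ⟨c, -⟩ <;> rw [c] <;> norm_num)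
    (by rw [← Finset.sum_div, Finset.sum_add_distrib, sum_chi hx]; simp) (by linarith)
    (by rw [e]; linarith [(hT 0).1, (hT 0).2 x hx])
  rw [e] at i5
  have i6 := mul_le_mul_of_nonneg_right c3 (pow_nonneg hr0 n')
  have i7 : 0 ≤ 1 + θ := nonneg_of_mul_nonneg_left (le_trans (by positivity) c3) hv
  have i8 := mul_le_mul_of_nonneg_left i4 i7
  have i9 := hM.le k hk
  change _ ≤ T.A 0 0 n' k at i9
  linarith

/-- the conclusion of the recursion at size `n` -/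
def Fin' (T : Torus) (n : ℕ) : Prop :=
  ∃ (k : ℕ) (θ : ℝ), 1 ≤ k ∧ 0 ≤ θ ∧ θ ≤ Real.exp (-(7 * k / 100)) ∧
    T.A 0 0 n k ≤ (1 + θ) * T.e 0 0 n ^ k ∧ ∀ x, x ≠ 0 → T.A 0 x n k ≤ θ * T.e 0 0 n ^ k

theorem fin_of (T : Torus) {n k : ℕ} (hn : 1 ≤ n) (hk : 1 ≤ k) {a θ : ℝ} (ha : 0 ≤ a) (h1 : a ≤ θ)
    (h2 : θ ≤ Real.exp (-(7 * k / 100)))
    (h : T.A 0 0 n k ≤ (1 + a) * T.e 0 0 n ^ k ∧ ∀ x, x ≠ 0 → T.A 0 x n k ≤ θ * T.e 0 0 n ^ k) :
    T.Fin' n :=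
  ⟨k, θ, hk, ha.trans h1, h2, h.1.trans (mul_le_mul_of_nonneg_right (by linarith)
    (pow_nonneg (T.he 0 0 n hn).t0 k)), h.2⟩

theorem tail_step (T : Torus) {l k : ℕ} (hl : 1 ≤ l) (hk : 1 ≤ k) {η : ℝ} (h0 : 0 ≤ η)
    (h1 : η ≤ 176 / 10000) (h2 : 32 * η ≤ Real.exp (-(7 * k / 100))) (hS : T.SS l k η η)
    (hT : T.TS l k η η) (hT2 : T.TS (2 * l) k η η) :
    (T.SS (2 * l) (2 * k) (16 * η ^ 2) (16 * η ^ 2) ∧ T.TS (2 * l) (2 * k) (16 * η ^ 2) (16 * η ^ 2) ∧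
      T.TS (2 * (2 * l)) (2 * k) (16 * η ^ 2) (16 * η ^ 2)) ∧
      ∀ n, 2 * l ≤ n → n ≤ 2 * (2 * l) → T.Fin' n := by
  have p2 : η ^ 2 ≤ 176 / 10000 * η := by nlinarith
  have p3 : η ^ 3 ≤ 176 / 10000 * η ^ 2 := by nlinarith [sq_nonneg η]
  have p4 : η ^ 4 ≤ 176 / 10000 * η ^ 3 := by nlinarith [pow_nonneg h0 3]
  have p5 : η ^ 5 ≤ 176 / 10000 * η ^ 4 := by nlinarith [pow_nonneg h0 4]
  have p6 : η ^ 6 ≤ 176 / 10000 * η ^ 5 := by nlinarith [pow_nonneg h0 5]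
  have p7 : η ^ 7 ≤ 176 / 10000 * η ^ 6 := by nlinarith [pow_nonneg h0 6]
  have p8 : η ^ 8 ≤ 176 / 10000 * η ^ 7 := by nlinarith [pow_nonneg h0 7]
  have q2 := pow_nonneg h0 2
  have q3 := pow_nonneg h0 3
  have q4 := pow_nonneg h0 4
  have q5 := pow_nonneg h0 5
  have q6 := pow_nonneg h0 6
  have cr : ∀ (T : Torus) {l k : ℕ}, 1 ≤ l → 1 ≤ k → T.TS l k η η → T.SS l (2 * k) η η →
      T.SS l k η η → T.TS (2 * l) k (4 * η) (4 * η) := fun T l k hl hk a b c =>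
    T.cross hl hk a b c h0 h0 (by linarith) h0 h0 (by linarith) (by linarith)
      (v := 1 - 2 * η) (by linarith) (by linarith) (by linarith) (by linarith)
  have e : (4 * η) ^ 2 = 16 * η ^ 2 := by ring
  have s1 := (cr T.swap hk hl hS hT2 hT).sq (by omega) hl
  have s2 := (TS.sq (T := T.swap) hk hl hS).mono hk (a' := η) (y' := η) (by linarith) (by linarith)
  rw [e] at s1
  have s3 := s1.mono (a' := η) (y' := η) (by omega) (by linarith) (by linarith)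
  have t1 := cr T (by omega) hk hT2 s3 s2
  refine ⟨⟨s1, (hT2.sq (by omega) hk).mono (by omega) (by linarith) (by linarith),
    e ▸ t1.sq (by omega) hk⟩, fun n n1 n2 => ?_⟩
  refine T.fin_of (by omega) hk (a := 16 * η) (by linarith) (by linarith) h2 ?_
  exact T.interp (by omega) hk n2 (by omega) t1 (s2.later hk (by omega) n1 (by linarith))
    ((s3.sq (by omega) (by omega)).mono (a' := η) (y' := η) (by omega) (by linarith) (by linarith))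
    (by linarith) (by linarith) h0 h0 h0 h0 (q := 1 + η) (v := 1 - 6 * η) (by linarith)
    (by linarith) (by linarith) (by linarith) (by linarith) (by linarith) (by linarith) (by linarith)

theorem tail (T : Torus) (j : ℕ) : ∀ {l k : ℕ} {η : ℝ}, 1 ≤ l → 1 ≤ k → 0 ≤ η →
    η ≤ 176 / 10000 → 32 * η ≤ Real.exp (-(7 * k / 100)) → T.SS l k η η → T.TS l k η η →
    T.TS (2 * l) k η η → ∀ n, 2 * l ≤ n → n ≤ 2 * l + j → T.Fin' n := by
  induction j with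
  | zero =>
    intro l k η hl hk h0 h1 h2 a b c n n1 n2
    exact (T.tail_step hl hk h0 h1 h2 a b c).2 n n1 (by omega)
  | succ j ih =>
    intro l k η hl hk h0 h1 h2 a b c n n1 n2
    obtain ⟨⟨a', b', c'⟩, d⟩ := T.tail_step hl hk h0 h1 h2 a b c
    rcases le_total n (2 * (2 * l)) with h | h
    · exact d n n1 h
    · refine ih (by omega) (by omega) (by positivity) (by nlinarith) ?_ a' b' c' n h (by omega)
      have e : Real.exp (-(7 * ((2 * k : ℕ) : ℝ) / 100)) = Real.exp (-(7 * k / 100)) ^ 2 := by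
        rw [← Real.exp_nat_mul]; congr 1; push_cast; ring
      rw [e]
      nlinarith [pow_le_pow_left₀ (by positivity) h2 2]

theorem level (T : Torus) {l k : ℕ} (hl : 1 ≤ l) (hk : 1 ≤ k)
    {as xs a y a2 y2 s1 s2 s3 t1 t2 t3 q i1 i2 θ as' xs' a' y' a2' y2' : ℚ}
    (hS : T.SS l k as xs) (hT : T.TS l k a y) (hT2 : T.TS (2 * l) k a2 y2)
    (hθ : θ ≤ 1 - 7 * k / 100)
    (H : (0 ≤ as ∧ 0 ≤ xs ∧ xs ≤ 1 ∧ 0 ≤ a ∧ 0 ≤ a2 ∧ 0 ≤ y2 ∧ y2 ≤ 1 ∧ 0 ≤ s1 ∧ s1 ≤ 1 ∧ 0 < s3) ∧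
      (0 ≤ t1 ∧ t1 ≤ 1 ∧ 0 ≤ t2 ∧ 0 < t3 ∧ 1 ≤ q ∧ 0 ≤ i1 ∧ i1 ≤ 1 ∧ 0 < i2 ∧ i1 ≤ θ ∧ xs ^ 2 ≤ 1) ∧
      (s1 ^ 2 ≤ as' ∧ s2 ^ 2 ≤ xs' ∧ a2 ^ 2 ≤ a' ∧ y2 ^ 2 ≤ y' ∧ t1 ^ 2 ≤ a2' ∧ t2 ^ 2 ≤ y2' ∧
        0 ≤ as') ∧
      ((1 + s1 ^ 2) * ((1 + as) ^ 2 + 3 * xs ^ 2) ^ 2 * (1 + a2) ^ 2 ≤
        (1 - 2 * y2 ^ 2) * (1 + s1) ^ 2 ∧
      s3 ^ 2 * (1 + s1 ^ 2) * (1 + a2) ^ 2 ≤ 1 - 2 * y2 ^ 2 ∧
      2 * xs * (1 + as) + 2 * xs ^ 2 + (1 + as + xs) ^ 2 * a +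
        3 / 2 * y ^ 2 * (1 + as + 3 * xs) ^ 2 ≤ s2 * s3) ∧
      ((1 + t1 ^ 2) * ((1 + a2) ^ 2 + 3 * y2 ^ 2) ^ 2 * (1 + as') ^ 2 ≤
        (1 - 2 * xs' ^ 2) * (1 + t1) ^ 2 ∧
      t3 ^ 2 * (1 + t1 ^ 2) * (1 + as') ^ 2 ≤ 1 - 2 * xs' ^ 2 ∧
      2 * y2 * (1 + a2) + 2 * y2 ^ 2 + (1 + a2 + y2) ^ 2 * as ^ 2 +
        3 / 2 * (xs ^ 2) ^ 2 * (1 + a2 + 3 * y2) ^ 2 ≤ t2 * t3) ∧
      (1 + t1 ^ 2 + 3 * t2 ^ 2 ≤ q ^ 2 ∧
      (1 + i1 ^ 2) * ((1 + as ^ 2 + 3 * xs ^ 2) * (1 + t1)) ^ 2 *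
        ((1 + as' ^ 2 + 3 * xs' ^ 2) * q) ≤ (1 + i1) ^ 2 ∧
      i2 ^ 2 * (1 + i1 ^ 2) * ((1 + as' ^ 2 + 3 * xs' ^ 2) * q) ≤ 1 ∧
      (1 + as ^ 2 + 3 * xs ^ 2) * (1 + t1 + t2) ≤ (1 + θ) * i2)) :
    (T.SS (2 * l) (2 * k) as' xs' ∧ T.TS (2 * l) (2 * k) a' y' ∧
      T.TS (2 * (2 * l)) (2 * k) a2' y2') ∧ ∀ n, 2 * l ≤ n → n ≤ 2 * (2 * l) → T.Fin' n := by
  rify at H hθ
  obtain ⟨⟨a1, a2, a3, a4, a5, a6, a7, a8, a9, a10⟩, ⟨b1, b2, b3, b4, b5, b6, b7, b8, b9, b10⟩,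
    ⟨c1, c2, c3, c4, c5, c6, c7⟩, ⟨d1, d2, d3⟩, ⟨e1, e2, e3⟩, ⟨f1, f2, f3, f4⟩⟩ := H
  have s1 := ((T.swap.cross hk hl hS hT2 hT a1 a2 a3 a5 a4 a8 a9 a10 d1 d2 d3).sq (by omega)
    hl).mono (by omega) c1 c2
  have s2 := TS.sq (T := T.swap) hk hl hS
  have t1 := T.cross (by omega) hk hT2 s1 s2 a5 a6 a7 c7 (sq_nonneg _) b1 b2 b4 e1 e2 e3
  refine ⟨⟨s1, (hT2.sq (by omega) hk).mono (by omega) c3 c4,
    (t1.sq (by omega) hk).mono (by omega) c5 c6⟩, fun n n1 n2 => ?_⟩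
  refine T.fin_of (by omega) hk b6 b9 (hθ.trans (by linarith [Real.add_one_le_exp (-(7 * (k : ℝ) / 100))])) ?_
  exact T.interp (by omega) hk n2 (by omega) t1 (s2.later hk (by omega) n1 b10)
    (s1.sq (by omega) (by omega)) b1 b3 (sq_nonneg _) (sq_nonneg _) (sq_nonneg _) (sq_nonneg _)
    b5 b6 b7 b8 f1 f2 f3 f4

/-- the recursion: from the base data to every size `n ≥ 16` -/
theorem recursion (T : Torus) (hS : T.SS 8 1 (11 / 1000) (95 / 1000))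
    (hT1 : T.TS 8 1 (51 / 1000) (93 / 1000)) (hT2 : T.TS 16 1 (52 / 1000) (122 / 1000))
    (n : ℕ) (hn : 16 ≤ n) :
    ∃ (k : ℕ) (θ : ℝ), 1 ≤ k ∧ 0 ≤ θ ∧ θ ≤ Real.exp (-(7 * k / 100)) ∧
      T.A 0 0 n k ≤ (1 + θ) * T.e 0 0 n ^ k ∧ ∀ x, x ≠ 0 → T.A 0 x n k ≤ θ * T.e 0 0 n ^ k := by
  obtain ⟨⟨a1, b1, c1⟩, d1⟩ := T.level (l := 8) (k := 1) (by norm_num) le_rfl
    (as := 0.011) (xs := 0.095) (a := 0.051) (y := 0.093) (a2 := 0.052) (y2 := 0.122)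
    (s1 := 0.13) (s2 := 0.317) (s3 := 0.9285) (t1 := 0.2082) (t2 := 0.3011) (t3 := 0.9529)
    (q := 1.1469) (i1 := 0.5221) (i2 := 0.8153) (θ := 0.9016)
    (as' := 0.0169) (xs' := 0.1005) (a' := 0.0028) (y' := 0.0149) (a2' := 0.0434) (y2' := 0.0907)
    (TS.mono (T := T.swap) le_rfl hS (by norm_num) (by norm_num))
    (hT1.mono (by norm_num) (by norm_num) (by norm_num))
    (hT2.mono (by norm_num) (by norm_num) (by norm_num)) (by norm_num) (by norm_num)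
  obtain ⟨⟨a2, b2, c2⟩, d2⟩ := T.level (by norm_num) (by norm_num) a1 b1 c1
    (s1 := 0.1292) (s2 := 0.2426) (s3 := 0.9426) (t1 := 0.1484) (t2 := 0.2129) (t3 := 0.9695)
    (q := 1.0762) (i1 := 0.2828) (i2 := 0.9226) (θ := 0.5207)
    (as' := 0.0167) (xs' := 0.0589) (a' := 0.0019) (y' := 0.0083) (a2' := 0.0221) (y2' := 0.0454)
    (by norm_num) (by norm_num)
  obtain ⟨⟨a3, b3, c3⟩, d3⟩ := T.level (by norm_num) (by norm_num) a2 b2 c2
    (s1 := 0.072147) (s2 := 0.13252) (s3 := 0.973827) (t1 := 0.058474) (t2 := 0.097975)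
    (t3 := 0.992818) (q := 1.015981) (i1 := 0.082476) (i2 := 0.988276) (θ := 0.182674)
    (as' := 0.005206) (xs' := 0.017562) (a' := 0.0176) (y' := 0.0176) (a2' := 0.0176) (y2' := 0.0176)
    (by norm_num) (by norm_num)
  change T.Fin' n
  rcases le_total n 32 with h | h
  · exact d1 n hn h
  rcases le_total n 64 with h' | h'
  · exact d2 n h h'
  rcases le_total n 128 with h'' | h''
  · exact d3 n h' h''
  refine T.tail n (by norm_num) (by norm_num) (by norm_num) (by norm_num) ?_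
    (TS.mono (T := T.swap) (by norm_num) a3 (by norm_num) (by norm_num)) b3 c3 n h'' (by omega)
  have e : Real.exp (-(7 * ((2 * (2 * (2 * 1)) : ℕ) : ℝ) / 100)) = Real.exp (-(35 / 1000)) ^ 16 := by
    rw [← Real.exp_nat_mul]; congr 1; norm_num
  rw [e]
  refine le_trans (by norm_num) (pow_le_pow_left₀ (by norm_num : (0 : ℝ) ≤ -(35 / 1000) + 1)
    (Real.add_one_le_exp _) 16)

end Torus

end Vale.Agent.P348
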