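import Vale.Agent.P348.Basic

/-! The integer matrix `L - H` in the standard basis and the Marshall gauge. -/

namespace Vale.Agent.P348

open Matrix

/-- two-site term: `1 - S^z S^z` on the diagonal, hopping amplitude `σ` -/
def bz (σ : ℤ) (a b c d : Fin 3) : ℤ :=
  if a = c ∧ b = d then 1 - (1 - (a.val : ℤ)) * (1 - (b.val : ℤ))
  else if (c.val = a.val + 1 ∧ b.val = d.val + 1) ∨ (a.val = c.val + 1 ∧ d.val = b.val + 1) then σ
  else 0

/-- change the letters at `j` and at the next site -/
def upd {L : ℕ} (s : St L) (j : Fin L) (c d : Fin 3) : St L :=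
  Function.update (Function.update s j c) (finRotate L j) d

def sgn (L : ℕ) (σ : ℤ) (j : Fin L) : ℤ := if (finRotate L j).val = 0 then σ else 1

/-- one bond -/
def Bz (L : ℕ) (σ : ℤ) (j : Fin L) : Matrix (St L) (St L) ℤ :=
  Matrix.of fun s t => ∑ c, ∑ d,
    if t = upd s j c d then bz (sgn L σ j) (s j) (s (finRotate L j)) c d else 0

def Mz (L : ℕ) (σ : ℤ) : Matrix (St L) (St L) ℤ := ∑ j, Bz L σ j

def dsum {L : ℕ} (s : St L) : ℕ := ∑ j, (s j).val

def flip {L : ℕ} (s : St L) : St L := fun j => Fin.rev (s j)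

def rotS {L : ℕ} (s : St L) : St L := fun j => s (finRotate L j)

def refl {L : ℕ} (s : St L) : St L := fun j => s (Fin.rev j)

/-- sign attached to the letter that is moved across the boundary -/
def eta (σ : ℤ) (a : Fin 3) : ℤ := if a = 1 then 1 else σ

/-- boundary sign for ring length `L` and twist `h ∈ {0, 3}` -/
def sig (L : ℕ) (h : Fin 4) : ℤ := (-1) ^ L * (if h = 0 then 1 else -1)

theorem rot_ne {L : ℕ} (hL : 2 ≤ L) (j : Fin L) : finRotate L j ≠ j := by
  obtain ⟨n, rfl⟩ : ∃ n, L = n + 1 := ⟨L - 1, by omega⟩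
  intro h
  have h1 := congrArg Fin.val h
  by_cases hj : j = Fin.last n
  · subst hj
    rw [finRotate_last] at h1
    simp at h1
    omega
  · rw [coe_finRotate_of_ne_last hj] at h1
    omega

/-- agreement off the bond -/
def Agr {L : ℕ} (j k : Fin L) (s t : St L) : Prop := ∀ i, i ≠ j → i ≠ k → s i = t i

instance {L : ℕ} (j k : Fin L) (s t : St L) : Decidable (Agr j k s t) := by
  unfold Agr; infer_instance

theorem eq_upd_iff {L : ℕ} (hL : 2 ≤ L) (s t : St L) (j : Fin L) (c d : Fin 3) :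
    t = upd s j c d ↔ Agr j (finRotate L j) s t ∧ c = t j ∧ d = t (finRotate L j) := by
  have hne := rot_ne hL j
  constructor
  · rintro rfl
    refine ⟨fun i h1 h2 => ?_, ?_, ?_⟩
    · simp only [upd, Function.update_of_ne h2, Function.update_of_ne h1]
    · simp only [upd, Function.update_of_ne hne.symm, Function.update_self]
    · simp only [upd, Function.update_self]
  · rintro ⟨h, rfl, rfl⟩
    funext i
    by_cases h2 : i = finRotate L j
    · subst h2; simp only [upd, Function.update_self]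
    · by_cases h1 : i = j
      · subst h1; simp only [upd, Function.update_of_ne h2, Function.update_self]
      · simp only [upd, Function.update_of_ne h2, Function.update_of_ne h1, h i h1 h2]

theorem Bz_apply {L : ℕ} (hL : 2 ≤ L) (σ : ℤ) (j : Fin L) (s t : St L) :
    Bz L σ j s t = if Agr j (finRotate L j) s t then
      bz (sgn L σ j) (s j) (s (finRotate L j)) (t j) (t (finRotate L j)) else 0 := by
  simp only [Bz, Matrix.of_apply, eq_upd_iff hL]
  generalize finRotate L j = k
  by_cases h : Agr j k s t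
  · rw [if_pos h, Finset.sum_eq_single (t j), Finset.sum_eq_single (t k)]
    · simp [h]
    · intro d _ hd; simp [hd]
    · simp
    · intro c _ hc; simp [hc]
    · simp
  · simp [h]

theorem bz_symm (σ : ℤ) (a b c d : Fin 3) : bz σ a b c d = bz σ c d a b := by
  fin_cases a <;> fin_cases b <;> fin_cases c <;> fin_cases d <;> simp [bz]

theorem bz_swap (σ : ℤ) (a b c d : Fin 3) : bz σ b a d c = bz σ a b c d := by
  fin_cases a <;> fin_cases b <;> fin_cases c <;> fin_cases d <;> simp [bz]

theorem bz_rev (σ : ℤ) (a b c d : Fin 3) :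
    bz σ (Fin.rev a) (Fin.rev b) (Fin.rev c) (Fin.rev d) = bz σ a b c d := by
  fin_cases a <;> fin_cases b <;> fin_cases c <;> fin_cases d <;> simp [bz, Fin.rev]

theorem bz_eq_zero (σ : ℤ) {a b c d : Fin 3} (h : a.val + b.val ≠ c.val + d.val) :
    bz σ a b c d = 0 := by
  unfold bz
  rw [if_neg, if_neg]
  · omega
  · rintro ⟨rfl, rfl⟩; exact h rfl

theorem bz_rowsum {σ : ℤ} (hσ : σ = 1 ∨ σ = -1) (a b : Fin 3) :
    ∑ c, ∑ d, |bz σ a b c d| ≤ 3 := by
  rcases hσ with rfl | rfl <;> revert a b <;> decide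

theorem bz_eta_left {σ : ℤ} (hσ : σ = 1 ∨ σ = -1) (a b c d : Fin 3) :
    bz σ a b c d = eta σ a * eta σ c * bz 1 a b c d := by
  rcases hσ with rfl | rfl <;> revert a b c d <;> decide

theorem bz_eta_right {σ : ℤ} (hσ : σ = 1 ∨ σ = -1) (a b c d : Fin 3) :
    bz 1 a b c d = eta σ b * eta σ d * bz σ a b c d := by
  rcases hσ with rfl | rfl <;> revert a b c d <;> decide

theorem eta_sq {σ : ℤ} (hσ : σ = 1 ∨ σ = -1) (a : Fin 3) : eta σ a * eta σ a = 1 := by
  rcases hσ with rfl | rfl <;> revert a <;> decide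

theorem Agr.symm {L : ℕ} {j k : Fin L} {s t : St L} (h : Agr j k s t) : Agr j k t s :=
  fun i h1 h2 => (h i h1 h2).symm

theorem Agr.dsum_eq {L : ℕ} {j k : Fin L} (hjk : j ≠ k) {s t : St L} (h : Agr j k s t) :
    dsum s + ((t j).val + (t k).val) = dsum t + ((s j).val + (s k).val) := by
  have key : ∀ u : St L, dsum u =
      (u j).val + (u k).val + ∑ i ∈ (Finset.univ.erase j).erase k, (u i).val := by
    intro u
    rw [dsum, ← Finset.add_sum_erase _ _ (Finset.mem_univ j),
      ← Finset.add_sum_erase _ _ (Finset.mem_erase.2 ⟨hjk.symm, Finset.mem_univ k⟩), add_assoc]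
  have e : ∑ i ∈ (Finset.univ.erase j).erase k, (s i).val =
      ∑ i ∈ (Finset.univ.erase j).erase k, (t i).val := by
    refine Finset.sum_congr rfl fun i hi => ?_
    rw [h i (Finset.mem_erase.1 (Finset.mem_erase.1 hi).2).1 (Finset.mem_erase.1 hi).1]
  rw [key s, key t, e]
  omega

/-- a signed relabelling symmetry passes to the powers -/
theorem pow_sym {ι : Type} [Fintype ι] [DecidableEq ι] (M : Matrix ι ι ℤ) (e : ι ≃ ι) (w : ι → ℤ)
    (hw : ∀ s, w s * w s = 1) (h : ∀ s t, M (e s) (e t) = w s * w t * M s t) (k : ℕ) (s t : ι) :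
    (M ^ k) (e s) (e t) = w s * w t * (M ^ k) s t := by
  induction k generalizing t with
  | zero =>
    simp only [pow_zero, Matrix.one_apply, e.apply_eq_iff_eq]
    split_ifs with hst
    · subst hst; rw [hw, one_mul]
    · simp
  | succ k ih =>
    rw [pow_succ, Matrix.mul_apply, Matrix.mul_apply, ← e.sum_comp, Finset.mul_sum]
    refine Finset.sum_congr rfl fun u _ => ?_
    rw [ih, h]
    have := hw u
    linear_combination (w s * w t * (M ^ k) s u * M u t) * this

theorem Bz_mulVec {R : Type} [CommRing R] (L : ℕ) (σ : ℤ) (j : Fin L) (v : St L → R) (s : St L) :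
    ∑ t, (Bz L σ j s t : R) * v t =
      ∑ c, ∑ d, (bz (sgn L σ j) (s j) (s (finRotate L j)) c d : R) * v (upd s j c d) := by
  simp only [Bz, Matrix.of_apply, Int.cast_sum, Finset.sum_mul]
  rw [Finset.sum_comm]
  refine Finset.sum_congr rfl fun c _ => ?_
  rw [Finset.sum_comm]
  refine Finset.sum_congr rfl fun d _ => ?_
  rw [Finset.sum_eq_single (upd s j c d)]
  · simp
  · intro t _ ht; simp [ht]
  · simp

theorem Mz_symm {L : ℕ} (hL : 2 ≤ L) (σ : ℤ) (s t : St L) : Mz L σ s t = Mz L σ t s := by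
  simp only [Mz, Matrix.sum_apply]
  refine Finset.sum_congr rfl fun j _ => ?_
  rw [Bz_apply hL, Bz_apply hL]
  by_cases h : Agr j (finRotate L j) s t
  · rw [if_pos h, if_pos h.symm, bz_symm]
  · rw [if_neg h, if_neg (fun h' => h h'.symm)]

theorem Mz_dsum {L : ℕ} (hL : 2 ≤ L) (σ : ℤ) (s t : St L) (h : dsum s ≠ dsum t) :
    Mz L σ s t = 0 := by
  simp only [Mz, Matrix.sum_apply]
  refine Finset.sum_eq_zero fun j _ => ?_
  rw [Bz_apply hL]
  split_ifs with hA
  · refine bz_eq_zero _ fun h' => h ?_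
    have := hA.dsum_eq (rot_ne hL j).symm
    omega
  · rfl

theorem Mz_rowsum {L : ℕ} {σ : ℤ} (hσ : σ = 1 ∨ σ = -1) (s : St L) :
    ∑ t, |Mz L σ s t| ≤ 3 * L := by
  have hB : ∀ j, ∑ t, |Bz L σ j s t| ≤ 3 := by
    intro j
    have hs : sgn L σ j = 1 ∨ sgn L σ j = -1 := by
      unfold sgn; split_ifs
      · exact hσ
      · exact Or.inl rfl
    refine le_trans ?_ (bz_rowsum hs (s j) (s (finRotate L j)))
    calc ∑ t, |Bz L σ j s t|
        ≤ ∑ t, ∑ c, ∑ d, (if t = upd s j c d then
            |bz (sgn L σ j) (s j) (s (finRotate L j)) c d| else 0) := by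
          refine Finset.sum_le_sum fun t _ => ?_
          simp only [Bz, Matrix.of_apply]
          refine (Finset.abs_sum_le_sum_abs _ _).trans (Finset.sum_le_sum fun c _ => ?_)
          refine (Finset.abs_sum_le_sum_abs _ _).trans (Finset.sum_le_sum fun d _ => ?_)
          split_ifs <;> simp
      _ = _ := by
          rw [Finset.sum_comm]
          refine Finset.sum_congr rfl fun c _ => ?_
          rw [Finset.sum_comm]
          refine Finset.sum_congr rfl fun d _ => ?_
          simp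
  calc ∑ t, |Mz L σ s t| ≤ ∑ t, ∑ j, |Bz L σ j s t| := by
        refine Finset.sum_le_sum fun t _ => ?_
        simp only [Mz, Matrix.sum_apply]
        exact Finset.abs_sum_le_sum_abs _ _
    _ = ∑ j, ∑ t, |Bz L σ j s t| := Finset.sum_comm
    _ ≤ ∑ _j : Fin L, (3 : ℤ) := Finset.sum_le_sum fun j _ => hB j
    _ = 3 * L := by simp [mul_comm]

theorem Mz_pow_rowsum {L : ℕ} {σ : ℤ} (hσ : σ = 1 ∨ σ = -1) (k : ℕ) (s : St L) :
    ∑ t, |(Mz L σ ^ k) s t| ≤ (3 * L) ^ k := by
  induction k with
  | zero =>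
    rw [Finset.sum_eq_single s]
    · simp
    · intro t _ ht; simp [Matrix.one_apply_ne ht.symm]
    · simp
  | succ k ih =>
    calc ∑ t, |(Mz L σ ^ (k + 1)) s t| ≤ ∑ t, ∑ u, |(Mz L σ ^ k) s u| * |Mz L σ u t| := by
          refine Finset.sum_le_sum fun t _ => ?_
          rw [pow_succ, Matrix.mul_apply]
          refine (Finset.abs_sum_le_sum_abs _ _).trans (le_of_eq ?_)
          simp only [abs_mul]
      _ = ∑ u, |(Mz L σ ^ k) s u| * ∑ t, |Mz L σ u t| := by
          rw [Finset.sum_comm]; simp only [Finset.mul_sum]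
      _ ≤ ∑ u, |(Mz L σ ^ k) s u| * (3 * L) :=
          Finset.sum_le_sum fun u _ =>
            mul_le_mul_of_nonneg_left (Mz_rowsum hσ u) (abs_nonneg _)
      _ ≤ (3 * L) ^ k * (3 * L) := by
          rw [← Finset.sum_mul]
          exact mul_le_mul_of_nonneg_right ih (by positivity)
      _ = (3 * L) ^ (k + 1) := (pow_succ _ _).symm

theorem Mz_pow_bound {L : ℕ} {σ : ℤ} (hσ : σ = 1 ∨ σ = -1) (k : ℕ) (s t : St L) :
    |(Mz L σ ^ k) s t| ≤ (3 * L) ^ k :=
  le_trans (Finset.single_le_sum (f := fun t => |(Mz L σ ^ k) s t|) (fun _ _ => abs_nonneg _)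
    (Finset.mem_univ t)) (Mz_pow_rowsum hσ k s)

theorem Bz_rot {n : ℕ} {σ : ℤ} (hσ : σ = 1 ∨ σ = -1) (j : Fin (n + 3)) (s t : St (n + 3)) :
    Bz (n + 3) σ j (rotS s) (rotS t) =
      eta σ (s 0) * eta σ (t 0) * Bz (n + 3) σ (finRotate _ j) s t := by
  have hL : 2 ≤ n + 3 := by omega
  rw [Bz_apply hL, Bz_apply hL]
  set r := finRotate (n + 3) with hr
  have hA : Agr j (r j) (rotS s) (rotS t) ↔ Agr (r j) (r (r j)) s t := by
    constructor
    · intro h i h1 h2
      have := h (r.symm i) (fun e => h1 (by rw [← e, r.apply_symm_apply]))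
        (fun e => h2 (by rw [← e, r.apply_symm_apply]))
      simpa only [rotS, ← hr, r.apply_symm_apply] using this
    · intro h i h1 h2
      exact h (r i) (fun e => h1 (r.injective e)) (fun e => h2 (r.injective e))
  by_cases h : Agr (r j) (r (r j)) s t
  · rw [if_pos (hA.2 h), if_pos h]
    simp only [rotS, ← hr]
    by_cases h1 : r j = 0
    · have h2 : r (r j) ≠ 0 := by
        intro e
        exact rot_ne hL (r j) (e.trans h1.symm)
      have e1 : sgn (n + 3) σ j = σ := by simp only [sgn, ← hr, h1]; simp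
      have e2 : sgn (n + 3) σ (r j) = 1 := by
        simp only [sgn, ← hr]; rw [if_neg]; exact fun e => h2 (Fin.ext e)
      rw [e1, e2, bz_eta_left hσ, h1]
    · have e1 : sgn (n + 3) σ j = 1 := by
        simp only [sgn, ← hr]; rw [if_neg]; exact fun e => h1 (Fin.ext e)
      by_cases h2 : r (r j) = 0
      · have e2 : sgn (n + 3) σ (r j) = σ := by simp only [sgn, ← hr, h2]; simp
        rw [e1, e2, bz_eta_right hσ, h2]
      · have e2 : sgn (n + 3) σ (r j) = 1 := by
          simp only [sgn, ← hr]; rw [if_neg]; exact fun e => h2 (Fin.ext e)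
        rw [e1, e2, h 0 (Ne.symm h1) (Ne.symm h2), eta_sq hσ, one_mul]
  · rw [if_neg (fun h' => h (hA.1 h')), if_neg h, mul_zero]

theorem Mz_pow_rot {n : ℕ} {σ : ℤ} (hσ : σ = 1 ∨ σ = -1) (k : ℕ) (s t : St (n + 3)) :
    (Mz (n + 3) σ ^ k) (rotS s) (rotS t) = eta σ (s 0) * eta σ (t 0) * (Mz (n + 3) σ ^ k) s t := by
  let e : St (n + 3) ≃ St (n + 3) := (Equiv.arrowCongr (finRotate (n + 3)) (Equiv.refl _)).symm
  have he : ∀ u, e u = rotS u := fun u => rfl
  rw [← he, ← he]
  refine pow_sym _ e (fun u => eta σ (u 0)) (fun u => eta_sq hσ _) (fun u v => ?_) k s t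
  simp only [he, Mz, Matrix.sum_apply, Bz_rot hσ, ← Finset.mul_sum]
  rw [Equiv.sum_comp (finRotate (n + 3)) (fun j => Bz (n + 3) σ j u v)]

theorem flip_flip {L : ℕ} (s : St L) : flip (flip s) = s := by
  funext j; simp [flip]

theorem Mz_flip {L : ℕ} (σ : ℤ) (s t : St L) : Mz L σ (flip s) (flip t) = Mz L σ s t := by
  simp only [Mz, Matrix.sum_apply]
  refine Finset.sum_congr rfl fun j _ => ?_
  simp only [Bz, Matrix.of_apply]
  rw [← Equiv.sum_comp Fin.revPerm]
  refine Finset.sum_congr rfl fun c _ => ?_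
  rw [← Equiv.sum_comp Fin.revPerm]
  refine Finset.sum_congr rfl fun d _ => ?_
  have e1 : upd (flip s) j (Fin.revPerm c) (Fin.revPerm d) = flip (upd s j c d) := by
    funext i
    simp only [upd, flip, Function.update_apply, Fin.revPerm_apply]
    split_ifs <;> rfl
  have e2 : flip t = flip (upd s j c d) ↔ t = upd s j c d :=
    ⟨fun h => by rw [← flip_flip t, h, flip_flip], fun h => by rw [h]⟩
  rw [e1]
  simp only [e2, flip, Fin.revPerm_apply, bz_rev]

theorem Mz_pow_flip {L : ℕ} (σ : ℤ) (k : ℕ) (s t : St L) :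
    (Mz L σ ^ k) (flip s) (flip t) = (Mz L σ ^ k) s t := by
  let e : St L ≃ St L := ⟨flip, flip, flip_flip, flip_flip⟩
  have := pow_sym (Mz L σ) e (fun _ => 1) (fun _ => rfl)
    (fun u v => by rw [one_mul, one_mul]; exact Mz_flip σ u v) k s t
  rw [one_mul, one_mul] at this
  exact this

theorem rot_rev_rot {n : ℕ} (j : Fin (n + 1)) :
    finRotate (n + 1) (Fin.rev (finRotate (n + 1) j)) = Fin.rev j := by
  by_cases hj : j = Fin.last n
  · subst hj
    rw [finRotate_last, Fin.rev_zero, finRotate_last, Fin.rev_last]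
  · have h1 := coe_finRotate_of_ne_last hj
    have hlt : j.val < n := Fin.val_lt_last hj
    have h2 : Fin.rev (finRotate (n + 1) j) ≠ Fin.last n := by
      intro e
      have := congrArg Fin.val e
      rw [Fin.val_rev, h1, Fin.val_last] at this
      omega
    apply Fin.ext
    rw [coe_finRotate_of_ne_last h2, Fin.val_rev, Fin.val_rev, h1]
    omega

theorem Mz_pow_refl {n : ℕ} (σ : ℤ) (k : ℕ) (s t : St (n + 3)) :
    (Mz (n + 3) σ ^ k) (refl s) (refl t) = (Mz (n + 3) σ ^ k) s t := by
  have hL : 2 ≤ n + 3 := by omega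
  have hrr : ∀ u : St (n + 3), refl (refl u) = u := fun u => by funext j; simp [refl]
  let e : St (n + 3) ≃ St (n + 3) := ⟨refl, refl, hrr, hrr⟩
  have hM : ∀ u v : St (n + 3), Mz (n + 3) σ (refl u) (refl v) = Mz (n + 3) σ u v := by
    intro u v
    simp only [Mz, Matrix.sum_apply]
    rw [← Equiv.sum_comp ((finRotate (n + 3)).trans Fin.revPerm) (fun j => Bz (n + 3) σ j u v)]
    refine Finset.sum_congr rfl fun j _ => ?_
    rw [Bz_apply hL, Bz_apply hL]
    simp only [Equiv.trans_apply, Fin.revPerm_apply, rot_rev_rot]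
    have hA : Agr j (finRotate (n + 3) j) (refl u) (refl v) ↔
        Agr (Fin.rev (finRotate (n + 3) j)) (Fin.rev j) u v := by
      constructor
      · intro h i h1 h2
        have := h (Fin.rev i) (fun e => h2 (by rw [← e, Fin.rev_rev]))
          (fun e => h1 (by rw [← e, Fin.rev_rev]))
        simpa only [refl, Fin.rev_rev] using this
      · intro h i h1 h2
        exact h (Fin.rev i) (fun e => h2 (Fin.rev_injective e)) (fun e => h1 (Fin.rev_injective e))
    have hs : sgn (n + 3) σ (Fin.rev (finRotate (n + 3) j)) = sgn (n + 3) σ j := by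
      simp only [sgn, rot_rev_rot]
      have : (Fin.rev j).val = 0 ↔ (finRotate (n + 3) j).val = 0 := by
        by_cases hj : j = Fin.last (n + 2)
        · subst hj; rw [finRotate_last, Fin.rev_last]
        · have hlt : j.val < n + 2 := Fin.val_lt_last hj
          rw [coe_finRotate_of_ne_last hj, Fin.val_rev]
          omega
      simp only [this]
    by_cases h : Agr (Fin.rev (finRotate (n + 3) j)) (Fin.rev j) u v
    · rw [if_pos (hA.2 h), if_pos h, hs]
      simp only [refl]
      exact bz_swap _ _ _ _ _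
    · rw [if_neg (fun h' => h (hA.1 h')), if_neg h]
  have := pow_sym (Mz (n + 3) σ) e (fun _ => 1) (fun _ => rfl)
    (fun u v => by rw [one_mul, one_mul]; exact hM u v) k s t
  rw [one_mul, one_mul] at this
  exact this

end Vale.Agent.P348
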