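import Vale.Agent.P348.Chunk
import Vale.Agent.P348.C.MA6
import Vale.Agent.P348.C.MB5
import Vale.Agent.P348.C.MC6
import Vale.Agent.P348.C.MD5
import Vale.Agent.P348.C.ME6
import Vale.Agent.P348.C.MF5

/-! Generated quadrature certificates. -/

namespace Vale.Agent.P348

open K

theorem z10_0_F : In8 (zz 10 (sig 10 0) (Pf 10 1)) 173911245 174015640 ∧
    In8 (zz 10 (sig 10 0) (Pf 10 (-1))) 4411879 4422358 :=
  zzF (n := 6) (neg := false) (K := 33)
    (cs := [c10_0_10_0, c10_0_10_1, c10_0_10_2, c10_0_10_3, c10_0_10_4])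
    (c := ⟨25, 16, 686, 49094140,
      [25015623, 25951585, 27070895, 28475044, 30069441, 31806405, 33645133, 35552384, 37497695, 39445836, 41329420, 43124839, 44844267, 46190162, 47506143, 49093903],
      [25009550, 25893532, 26967965, 28278879, 29782923, 31427826, 33176431, 35000136, 36854621, 38709729, 40524391, 42277063, 43945200, 45419435, 46469701, 47581408]⟩)
    (c' := ⟨25, 16, 685, 48569359,
      [25393714, 26330650, 27336613, 28688384, 30250378, 31948870, 33748142, 35624405, 37522207, 39412733, 41286025, 43064176, 44660615, 46215639, 47350526, 48568107],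
      [25389940, 26282465, 27220508, 28495550, 29975062, 31588872, 33301610, 35093864, 36924295, 38755221, 40558793, 42294504, 43887079, 45259444, 46512652, 47399931]⟩)
    ⟨c10_0_10_0_ok, c10_0_10_1_ok, c10_0_10_2_ok, c10_0_10_3_ok, c10_0_10_4_ok, trivial⟩
    (by decide +kernel)

theorem z10_0_E : In8 (zz 10 (sig 10 0) (Pi 10 (pE 10))) 59 11153 :=
  zzP (n := 6) (neg := false) (K := 17)
    (cs := [c10_0_8_0, c10_0_8_1, c10_0_6_0, c10_0_4_0, c10_0_2_0, c10_0_0_0])
    (c := ⟨27, 8, 713, 49714824,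
      [27709143, 30007778, 32873128, 35999827, 39275937, 42586148, 45817220, 48655209],
      [27588041, 29694866, 32359916, 35296000, 38394464, 41539688, 44618616, 47480742]⟩)
    ⟨c10_0_8_0_ok, c10_0_8_1_ok, c10_0_6_0_ok, c10_0_4_0_ok, c10_0_2_0_ok, c10_0_0_0_ok, trivial⟩
    (by decide +kernel)

theorem z10_3_F : In8 (zz 10 (sig 10 3) (Pf 10 1)) 4932285 4962393 ∧
    In8 (zz 10 (sig 10 3) (Pf 10 (-1))) 79420569 79457327 :=
  zzF (n := 6) (neg := true) (K := 33)
    (cs := [c10_1_10_0, c10_1_10_1, c10_1_10_2, c10_1_10_3, c10_1_10_4, c10_1_10_5, c10_1_10_6])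
    (c := ⟨25, 16, 685, 48585382,
      [25596512, 26290461, 27356301, 28728922, 30290276, 31999113, 33814499, 35700275, 37609638, 39511650, 41394389, 43183448, 44801212, 46323859, 47585959, 48581277],
      [25581848, 26237824, 27234121, 28538914, 30030979, 31657029, 33395903, 35203776, 37049273, 38900727, 40737056, 42504856, 44125791, 45633531, 46774642, 47680541]⟩)
    (c' := ⟨25, 16, 685, 48982152,
      [25595019, 26283737, 27354967, 28718901, 30275738, 31976639, 33780386, 35648081, 37559442, 39480250, 41326672, 43081957, 44743217, 46104994, 47239388, 48981972],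
      [25579809, 26229185, 27226386, 28520246, 30000036, 31605638, 33333308, 35133067, 36968197, 38805814, 40595784, 42326051, 43994282, 45437229, 46480342, 47330124]⟩)
    ⟨c10_1_10_0_ok, c10_1_10_1_ok, c10_1_10_2_ok, c10_1_10_3_ok, c10_1_10_4_ok, c10_1_10_5_ok, c10_1_10_6_ok, trivial⟩
    (by decide +kernel)

theorem z10_3_E : In8 (zz 10 (sig 10 3) (Pi 10 (pE 10))) 19 4022 :=
  zzP (n := 6) (neg := true) (K := 17)
    (cs := [c10_1_8_0, c10_1_8_1, c10_1_6_0, c10_1_4_0, c10_1_2_0, c10_1_0_0])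
    (c := ⟨27, 8, 713, 49569107,
      [27813944, 30087660, 32889451, 35985117, 39219576, 42486652, 45658939, 48457724],
      [27724339, 29813184, 32442213, 35377668, 38465751, 41613840, 44692117, 47562589]⟩)
    ⟨c10_1_8_0_ok, c10_1_8_1_ok, c10_1_6_0_ok, c10_1_4_0_ok, c10_1_2_0_ok, c10_1_0_0_ok, trivial⟩
    (by decide +kernel)

theorem z10_3_1 : In8 (zz 10 (sig 10 3) (Pi 10 (p1 10))) 523174 560387 :=
  zzP (n := 6) (neg := true) (K := 31)
    (cs := [c10_1_9_0, c10_1_9_1, c10_1_9_2, c10_1_9_3, c10_1_9_4, c10_1_9_5, c10_1_9_6])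
    (c := ⟨25, 15, 685, 48245466,
      [25624151, 26385488, 27582108, 29075843, 30757419, 32602327, 34540874, 36536282, 38550942, 40545217, 42473137, 44278969, 45931739, 47169587, 48145333],
      [25607916, 26326393, 27454484, 28883127, 30501452, 32275695, 34149251, 36085144, 38047554, 40000004, 41898519, 43695758, 45318742, 46714293, 47919757]⟩)
    ⟨c10_1_9_0_ok, c10_1_9_1_ok, c10_1_9_2_ok, c10_1_9_3_ok, c10_1_9_4_ok, c10_1_9_5_ok, c10_1_9_6_ok, trivial⟩
    (by decide +kernel)

theorem z10_3_O : In8 (zz 10 (sig 10 3) (Pi 10 (pO 10))) 0 5 :=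
  zzP (n := 6) (neg := true) (K := 13)
    (cs := [c10_1_7_0, c10_1_5_0, c10_1_3_0, c10_1_1_0])
    (c := ⟨29, 6, 741, 50609212,
      [30278783, 33393745, 36968535, 40746233, 44555218, 48159969],
      [30113733, 32993286, 36358405, 39954186, 43629095, 47244365]⟩)
    ⟨c10_1_7_0_ok, c10_1_5_0_ok, c10_1_3_0_ok, c10_1_1_0_ok, trivial⟩
    (by decide +kernel)

end Vale.Agent.P348
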