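import Vale.Agent.P348.Chunk
import Vale.Agent.P348.C.MA6
import Vale.Agent.P348.C.MB5
import Vale.Agent.P348.C.MC6
import Vale.Agent.P348.C.MD5
import Vale.Agent.P348.C.ME6
import Vale.Agent.P348.C.MF5

/-! Generated quadrature certificates. -/

namespace Vale.Agent.P348

open K

theorem z4_0_F : In8 (zz 4 (sig 4 0) (Pf 4 1)) 1576827485 1576827486 ∧
    In8 (zz 4 (sig 4 0) (Pf 4 (-1))) 1437882 1437883 :=
  zzF (n := 0) (neg := false) (K := 21)
    (cs := [c4_0_4_0])
    (c := ⟨11, 10, 293, 21000050,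
      [11000000, 14000000, 15000000, 16000000, 17000000, 18000000, 21000000],
      [11000000, 14000000, 15000000, 16000000, 17000000, 18000000, 21000000]⟩)
    (c' := ⟨10, 10, 273, 19000050,
      [12000000, 14000000, 15000000, 17000000, 19000000],
      [12000000, 14000000, 15000000, 17000000, 19000000]⟩)
    ⟨c4_0_4_0_ok, trivial⟩
    (by decide +kernel)

theorem z4_0_E : In8 (zz 4 (sig 4 0) (Pi 4 (pE 4))) 1 2 :=
  zzP (n := 0) (neg := false) (K := 21)
    (cs := [c4_0_2_0, c4_0_0_0])
    (c := ⟨8, 10, 245, 15000050,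
      [8000000, 10000000, 11000000, 12000000, 13000000, 15000000],
      [8000000, 10000000, 11000000, 12000000, 13000000, 15000000]⟩)
    ⟨c4_0_2_0_ok, c4_0_0_0_ok, trivial⟩
    (by decide +kernel)

theorem z4_3_F : In8 (zz 4 (sig 4 3) (Pf 4 1)) 2586587 2586588 ∧
    In8 (zz 4 (sig 4 3) (Pf 4 (-1))) 20793955 20793956 :=
  zzF (n := 0) (neg := true) (K := 21)
    (cs := [c4_1_4_0])
    (c := ⟨10, 10, 273, 19083922,
      [11298438, 12438447, 12702929, 14000000, 15213198, 16561553, 17701562, 19083872],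
      [11298438, 12438447, 12702929, 14000000, 15213198, 16561553, 17701562, 19083872]⟩)
    (c' := ⟨10, 10, 273, 19381692,
      [11363253, 13000000, 14000000, 15000000, 16000000, 16255105, 19381642],
      [11363253, 13000000, 14000000, 15000000, 16000000, 16255105, 19381642]⟩)
    ⟨c4_1_4_0_ok, trivial⟩
    (by decide +kernel)

theorem z4_3_E : In8 (zz 4 (sig 4 3) (Pi 4 (pE 4))) 0 1 :=
  zzP (n := 0) (neg := true) (K := 21)
    (cs := [c4_1_2_0, c4_1_0_0])
    (c := ⟨7, 10, 231, 13000050,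
      [7000000, 8000000, 8438447, 10000000, 11000000, 12561553, 13000000],
      [7000000, 8000000, 8438447, 10000000, 11000000, 12561553, 13000000]⟩)
    ⟨c4_1_2_0_ok, c4_1_0_0_ok, trivial⟩
    (by decide +kernel)

theorem z4_3_A : In8 (zz 4 (sig 4 3) (Pi 4 (pA 4))) 834 835 :=
  zzP (n := 0) (neg := true) (K := 21)
    (cs := [c4_1_3_0, c4_1_1_0])
    (c := ⟨9, 10, 259, 16834962,
      [9585786, 10246827, 11107173, 12021984, 12414214, 13176121, 14122780, 14296009, 16194196, 16834912],
      [9585786, 10246827, 11107173, 12021984, 12414214, 13176121, 14122780, 14296009, 16194196, 16834912]⟩)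
    ⟨c4_1_3_0_ok, c4_1_1_0_ok, trivial⟩
    (by decide +kernel)

end Vale.Agent.P348
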