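import Vale.Agent.P348.Chunk
import Vale.Agent.P348.C.MA6
import Vale.Agent.P348.C.MB5
import Vale.Agent.P348.C.MC6
import Vale.Agent.P348.C.MD5
import Vale.Agent.P348.C.ME6
import Vale.Agent.P348.C.MF5

/-! Generated quadrature certificates. -/

namespace Vale.Agent.P348

open K

theorem z5_0_F : In8 (zz 5 (sig 5 0) (Pf 5 1)) 9061 9062 ∧
    In8 (zz 5 (sig 5 0) (Pf 5 (-1))) 3562891 3562892 :=
  zzF (n := 1) (neg := true) (K := 25)
    (cs := [c5_0_5_0])
    (c := ⟨11, 12, 321, 21569068,
      [11000000, 13382135, 14025907, 14526302, 15460599, 16039178, 17266160, 17802300, 18630517, 19967787, 21316616, 21566738],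
      [11000000, 13382088, 14021354, 14518897, 15440611, 16005834, 17239262, 17776380, 18627662, 19967693, 21316463, 21564274]⟩)
    (c' := ⟨12, 12, 335, 23531133,
      [13381966, 15080913, 15583541, 15894009, 16797586, 17521571, 18459279, 19259728, 20181908, 20589813, 20918629, 23531129],
      [13381966, 15080519, 15571697, 15845962, 16750366, 17484485, 18441823, 19218951, 20151733, 20572779, 20916978, 23530812]⟩)
    ⟨c5_0_5_0_ok, trivial⟩
    (by decide +kernel)

theorem z5_0_E : In8 (zz 5 (sig 5 0) (Pi 5 (pE 5))) 0 1 :=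
  zzP (n := 1) (neg := true) (K := 15)
    (cs := [c5_0_3_0, c5_0_1_0])
    (c := ⟨10, 7, 307, 19016318,
      [10003003, 11447852, 13139402, 14522025, 16416268, 17981759, 18895399],
      [10001407, 11424046, 13003746, 14303061, 16137348, 17473702, 18627245]⟩)
    ⟨c5_0_3_0_ok, c5_0_1_0_ok, trivial⟩
    (by decide +kernel)

theorem z5_3_F : In8 (zz 5 (sig 5 3) (Pf 5 1)) 185695832 185695833 ∧
    In8 (zz 5 (sig 5 3) (Pf 5 (-1))) 5169 5170 :=
  zzF (n := 1) (neg := false) (K := 25)
    (cs := [c5_1_5_0])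
    (c := ⟨13, 12, 350, 25095925,
      [14047986, 14993432, 15374442, 16096642, 17149110, 18341075, 19057278, 19802169, 20316818, 21570747, 21850526, 25095920],
      [14047985, 14992837, 15371269, 16087013, 17144077, 18276304, 18969380, 19729014, 20298180, 21569703, 21850118, 25095861]⟩)
    (c' := ⟨11, 12, 321, 21498449,
      [12058303, 13128762, 13836114, 15080938, 15601535, 16196961, 16916964, 18100508, 18477695, 19130698, 20515284, 21498320],
      [12058303, 13128760, 13836081, 15077965, 15562945, 16177524, 16910444, 18081668, 18466381, 19129633, 20515282, 21498198]⟩)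
    ⟨c5_1_5_0_ok, trivial⟩
    (by decide +kernel)

theorem z5_3_E : In8 (zz 5 (sig 5 3) (Pi 5 (pE 5))) 18 20 :=
  zzP (n := 1) (neg := false) (K := 15)
    (cs := [c5_1_3_0, c5_1_1_0])
    (c := ⟨10, 7, 307, 19797019,
      [10431839, 11286838, 12943638, 14618619, 16401697, 17922033, 19793772],
      [10408955, 11158087, 12699408, 14234150, 15791554, 17042675, 18042098]⟩)
    ⟨c5_1_3_0_ok, c5_1_1_0_ok, trivial⟩
    (by decide +kernel)

theorem z5_3_A : In8 (zz 5 (sig 5 3) (Pi 5 (pA 5))) 2669672 2669674 :=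
  zzP (n := 1) (neg := false) (K := 29)
    (cs := [c5_1_4_0, c5_1_2_0, c5_1_0_0])
    (c := ⟨12, 14, 335, 23489900,
      [12000070, 12692648, 13024779, 13926774, 14741910, 15556556, 16607129, 17433547, 18607722, 19548415, 20116910, 21428163, 21871435, 23489894],
      [12000046, 12689004, 13013605, 13901035, 14672702, 15470214, 16529902, 17373678, 18567994, 19479075, 20099332, 21426407, 21871090, 23473371]⟩)
    ⟨c5_1_4_0_ok, c5_1_2_0_ok, c5_1_0_0_ok, trivial⟩
    (by decide +kernel)

end Vale.Agent.P348
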