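import Vale.Agent.P348.Chunk
import Vale.Agent.P348.C.MA6
import Vale.Agent.P348.C.MB5
import Vale.Agent.P348.C.MC6
import Vale.Agent.P348.C.MD5
import Vale.Agent.P348.C.ME6
import Vale.Agent.P348.C.MF5

/-! Generated quadrature certificates. -/

namespace Vale.Agent.P348

open K

theorem z6_0_F : In8 (zz 6 (sig 6 0) (Pf 6 1)) 430149463 430149464 ∧
    In8 (zz 6 (sig 6 0) (Pf 6 (-1))) 2772515 2772516 :=
  zzF (n := 2) (neg := false) (K := 33)
    (cs := [c6_0_6_0])
    (c := ⟨15, 16, 413, 29617428,
      [15000000, 16786283, 17251534, 17880299, 18641811, 19424395, 20397037, 21250781, 22253391, 23355473, 24204541, 24816210, 25720088, 26447307, 27461714, 29617423],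
      [15000000, 16786124, 17245293, 17868529, 18601942, 19364043, 20291088, 21164262, 22184186, 23225832, 24125692, 24740164, 25717725, 26446253, 27461709, 29617378]⟩)
    (c' := ⟨14, 16, 396, 27896801,
      [15000000, 16339857, 16734441, 17134037, 17971280, 18728971, 19509922, 20628133, 21646388, 22450143, 23334359, 24082836, 24982045, 26053470, 26111779, 27896796],
      [15000000, 16338324, 16698074, 17117524, 17877178, 18634483, 19459219, 20564607, 21573666, 22339294, 23241822, 24062051, 24969480, 25980595, 26107778, 27894912]⟩)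
    ⟨c6_0_6_0_ok, trivial⟩
    (by decide +kernel)

theorem z6_0_E : In8 (zz 6 (sig 6 0) (Pi 6 (pE 6))) 119 121 :=
  zzP (n := 2) (neg := false) (K := 19)
    (cs := [c6_0_4_0, c6_0_2_0, c6_0_0_0])
    (c := ⟨13, 9, 382, 25461742,
      [13006181, 14155759, 15575324, 17049258, 18832060, 20617373, 22249720, 23662252, 25460481],
      [13002560, 14090219, 15353587, 16713070, 18362386, 19927965, 21390016, 22616744, 23714414]⟩)
    ⟨c6_0_4_0_ok, c6_0_2_0_ok, c6_0_0_0_ok, trivial⟩
    (by decide +kernel)

theorem z6_3_F : In8 (zz 6 (sig 6 3) (Pf 6 1)) 3841520 3841522 ∧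
    In8 (zz 6 (sig 6 3) (Pf 6 (-1))) 48600245 48600247 :=
  zzF (n := 2) (neg := true) (K := 33)
    (cs := [c6_1_6_0])
    (c := ⟨14, 16, 396, 27943315,
      [14869373, 15622553, 16090452, 16800780, 17552797, 18531516, 19621797, 20595420, 21602784, 22482546, 23536008, 24497950, 25401582, 26070269, 26865716, 27943309],
      [14869369, 15621814, 16085443, 16761638, 17519415, 18468989, 19543316, 20409132, 21463003, 22336491, 23478337, 24424778, 25379110, 26065449, 26865388, 27864430]⟩)
    (c' := ⟨15, 16, 410, 29305927,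
      [15870906, 16647729, 17210586, 17760975, 18681561, 19489509, 20499586, 21461223, 22418790, 23414944, 24297341, 25234874, 25951601, 26487234, 27008470, 29305923],
      [15870905, 16647493, 17206365, 17732463, 18657409, 19433024, 20435026, 21351245, 22276700, 23287886, 24223608, 25165556, 25910744, 26476459, 27007672, 29305623]⟩)
    ⟨c6_1_6_0_ok, trivial⟩
    (by decide +kernel)

theorem z6_3_E : In8 (zz 6 (sig 6 3) (Pi 6 (pE 6))) 1 2 :=
  zzP (n := 2) (neg := true) (K := 19)
    (cs := [c6_1_4_0, c6_1_2_0, c6_1_0_0])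
    (c := ⟨13, 9, 382, 24787313,
      [13094577, 13871159, 15391504, 17060657, 18725563, 20439318, 22196943, 23604719, 24680303],
      [13070660, 13808546, 15226670, 16773054, 18326970, 20073003, 21838114, 23286836, 24463805]⟩)
    ⟨c6_1_4_0_ok, c6_1_2_0_ok, c6_1_0_0_ok, trivial⟩
    (by decide +kernel)

theorem z6_3_A : In8 (zz 6 (sig 6 3) (Pi 6 (pA 6))) 28431 28439 :=
  zzP (n := 2) (neg := true) (K := 29)
    (cs := [c6_1_5_0, c6_1_3_0, c6_1_1_0])
    (c := ⟨14, 14, 396, 27159226,
      [14272499, 14780414, 15550348, 16356417, 17437491, 18543159, 19764911, 21033965, 22208878, 23389828, 24673167, 25623341, 26484719, 27141910],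
      [14271745, 14772883, 15488729, 16251119, 17276819, 18370322, 19585414, 20843849, 22036277, 23294302, 24604834, 25531630, 26463747, 27118942]⟩)
    ⟨c6_1_5_0_ok, c6_1_3_0_ok, c6_1_1_0_ok, trivial⟩
    (by decide +kernel)

end Vale.Agent.P348
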