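import Vale.Agent.P348.Chunk
import Vale.Agent.P348.C.MA6
import Vale.Agent.P348.C.MB5
import Vale.Agent.P348.C.MC6
import Vale.Agent.P348.C.MD5
import Vale.Agent.P348.C.ME6
import Vale.Agent.P348.C.MF5

/-! Generated quadrature certificates. -/

namespace Vale.Agent.P348

open K

theorem z7_0_F : In8 (zz 7 (sig 7 0) (Pf 7 1)) 98052 98053 ∧
    In8 (zz 7 (sig 7 0) (Pf 7 (-1))) 18860298 18860300 :=
  zzF (n := 3) (neg := true) (K := 35)
    (cs := [c7_0_7_0])
    (c := ⟨17, 17, 472, 32722514,
      [17000001, 18381734, 18863448, 19607834, 20379515, 21451435, 22595485, 23799123, 25021712, 26152648, 27362320, 28497765, 29352519, 30154488, 31110505, 32374844, 32715370],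
      [17000000, 18379976, 18829691, 19568149, 20307630, 21381420, 22504080, 23655983, 24833060, 25948406, 27173999, 28176839, 29169454, 30076953, 31105952, 32372441, 32706959]⟩)
    (c' := ⟨17, 17, 472, 33572203,
      [17753021, 18863170, 19484648, 20089362, 21001063, 21891721, 22983859, 24018231, 25121458, 26290432, 27363477, 28516633, 29292631, 30390618, 30925436, 31387351, 33572198],
      [17753021, 18862623, 19479691, 20059580, 20939930, 21805869, 22846977, 23888373, 24982521, 26164888, 27213169, 28383438, 29207204, 30348789, 30896797, 31384920, 33568667]⟩)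
    ⟨c7_0_7_0_ok, trivial⟩
    (by decide +kernel)

theorem z7_0_E : In8 (zz 7 (sig 7 0) (Pi 7 (pE 7))) 8 10 :=
  zzP (n := 3) (neg := true) (K := 21)
    (cs := [c7_0_5_0, c7_0_3_0, c7_0_1_0])
    (c := ⟨16, 10, 458, 30490077,
      [16030684, 17028213, 18551004, 20253187, 22101808, 23968722, 25877469, 27727333, 29254459, 30368651],
      [16021488, 16970699, 18429514, 20008546, 21748184, 23600264, 25500206, 27322477, 28878770, 30074104]⟩)
    ⟨c7_0_5_0_ok, c7_0_3_0_ok, c7_0_1_0_ok, trivial⟩
    (by decide +kernel)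

theorem z7_3_F : In8 (zz 7 (sig 7 3) (Pf 7 1)) 144786241 144786244 ∧
    In8 (zz 7 (sig 7 3) (Pf 7 (-1))) 68897 68898 :=
  zzF (n := 3) (neg := false) (K := 35)
    (cs := [c7_1_7_0])
    (c := ⟨17, 17, 473, 33863374,
      [17740829, 18343228, 18856856, 19735171, 20457133, 21527444, 22567620, 23732870, 24881347, 26099882, 27222137, 28434079, 29373013, 30061234, 30840079, 31309996, 33863370],
      [17740784, 18340968, 18848350, 19686371, 20368395, 21445839, 22465635, 23631599, 24769499, 25987044, 27093333, 28309732, 29196982, 29997251, 30817195, 31308721, 33862313]⟩)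
    (c' := ⟨17, 17, 472, 32674108,
      [17741038, 18346511, 18897889, 19841328, 20533040, 21591499, 22636712, 23742707, 25005398, 26244668, 27371368, 28581558, 29549510, 30264060, 31204461, 31654870, 32671302],
      [17740995, 18344545, 18889329, 19767312, 20419358, 21475470, 22501686, 23602111, 24879503, 26051563, 27209122, 28337755, 29189464, 30067883, 31158823, 31645660, 32668386]⟩)
    ⟨c7_1_7_0_ok, trivial⟩
    (by decide +kernel)

theorem z7_3_E : In8 (zz 7 (sig 7 3) (Pi 7 (pE 7))) 444 449 :=
  zzP (n := 3) (neg := false) (K := 21)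
    (cs := [c7_1_5_0, c7_1_3_0, c7_1_1_0])
    (c := ⟨16, 10, 458, 31051373,
      [16321059, 17168999, 18611344, 20294257, 22153420, 24078190, 25943859, 27706819, 29300589, 31048249],
      [16293111, 17029626, 18332362, 19895579, 21597731, 23386243, 25157894, 26843944, 28177089, 29370024]⟩)
    ⟨c7_1_5_0_ok, c7_1_3_0_ok, c7_1_1_0_ok, trivial⟩
    (by decide +kernel)

theorem z7_3_A : In8 (zz 7 (sig 7 3) (Pi 7 (pA 7))) 3753368 3753378 :=
  zzP (n := 3) (neg := false) (K := 37)
    (cs := [c7_1_6_0, c7_1_4_0, c7_1_2_0, c7_1_0_0])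
    (c := ⟨17, 18, 472, 33341536,
      [17004148, 17449267, 17923024, 18678797, 19576614, 20586218, 21722466, 22888990, 24070192, 25320489, 26556307, 27731483, 28865782, 29891310, 30742083, 31657316, 32045694, 33341528],
      [17003207, 17439733, 17888855, 18630028, 19494967, 20488337, 21596611, 22712816, 23874712, 25115441, 26312307, 27488927, 28612202, 29622509, 30618692, 31530840, 32023010, 32650468]⟩)
    ⟨c7_1_6_0_ok, c7_1_4_0_ok, c7_1_2_0_ok, c7_1_0_0_ok, trivial⟩
    (by decide +kernel)

end Vale.Agent.P348
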