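import Vale.Agent.P348.Sect
import Vale.Agent.P348.FiltData
import Vale.Agent.P348.Z4
import Vale.Agent.P348.Z5
import Vale.Agent.P348.Z6
import Vale.Agent.P348.Z7
import Vale.Agent.P348.Z8
import Vale.Agent.P348.Z9
import Vale.Agent.P348.Z10

/-! Moment intervals of the five sectors and the resulting bounds. -/

namespace Vale.Agent.P348

/-- the intervals at order `k + 4` -/
def Row (k : ℕ) : Prop :=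
  (((lo_b1.getD k 0 : ℤ) : ℝ) < 100000 ^ (k + 4) * b1 (k + 4) ∧
    100000 ^ (k + 4) * b1 (k + 4) < ((hi_b1.getD k 0 : ℤ) : ℝ)) ∧
  (((lo_x1.getD k 0 : ℤ) : ℝ) < 100000 ^ (k + 4) * x1 (k + 4) ∧
    100000 ^ (k + 4) * x1 (k + 4) < ((hi_x1.getD k 0 : ℤ) : ℝ)) ∧
  (((lo_bc.getD k 0 : ℤ) : ℝ) < 100000 ^ (k + 4) * bc (k + 4) ∧
    100000 ^ (k + 4) * bc (k + 4) < ((hi_bc.getD k 0 : ℤ) : ℝ)) ∧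
  (((lo_xz.getD k 0 : ℤ) : ℝ) < 100000 ^ (k + 4) * xz (k + 4) ∧
    100000 ^ (k + 4) * xz (k + 4) < ((hi_xz.getD k 0 : ℤ) : ℝ)) ∧
  (((lo_xx.getD k 0 : ℤ) : ℝ) < 100000 ^ (k + 4) * xx (k + 4) ∧
    100000 ^ (k + 4) * xx (k + 4) < ((hi_xx.getD k 0 : ℤ) : ℝ))

theorem row0 : Row 0 := by
  obtain ⟨h1, h2, h3, h4, h5⟩ := five_eq (L := 4) (e := 1) (by norm_num) rfl rfl rfl rfl rfl rfl rfl
    (by norm_num)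
  obtain ⟨⟨a1, a2⟩, a3, a4⟩ := z4_0_F
  obtain ⟨a5, a6⟩ := z4_0_E
  obtain ⟨⟨c1, c2⟩, c3, c4⟩ := z4_3_F
  obtain ⟨c5, c6⟩ := z4_3_E
  obtain ⟨c7, c8⟩ := z4_3_A
  push_cast at a1 a2 a3 a4 a5 a6 c1 c2 c3 c4 c5 c6 c7 c8
  simp only [Row, lo_b1, hi_b1, lo_x1, hi_x1, lo_bc, hi_bc, lo_xz, hi_xz, lo_xx, hi_xx,
    List.getD_cons_zero, List.getD_cons_succ, Nat.reduceAdd]
  push_cast
  refine ⟨⟨?_, ?_⟩, ⟨?_, ?_⟩, ⟨?_, ?_⟩, ⟨?_, ?_⟩, ?_, ?_⟩ <;> linarith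

theorem row1 : Row 1 := by
  obtain ⟨h1, h2, h3, h4, h5⟩ := five_eq (L := 5) (e := -1) (by norm_num) rfl rfl rfl rfl rfl rfl rfl
    (by norm_num)
  obtain ⟨⟨a1, a2⟩, a3, a4⟩ := z5_0_F
  obtain ⟨a5, a6⟩ := z5_0_E
  obtain ⟨⟨c1, c2⟩, c3, c4⟩ := z5_3_F
  obtain ⟨c5, c6⟩ := z5_3_E
  obtain ⟨c7, c8⟩ := z5_3_A
  push_cast at a1 a2 a3 a4 a5 a6 c1 c2 c3 c4 c5 c6 c7 c8
  simp only [Row, lo_b1, hi_b1, lo_x1, hi_x1, lo_bc, hi_bc, lo_xz, hi_xz, lo_xx, hi_xx,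
    List.getD_cons_zero, List.getD_cons_succ, Nat.reduceAdd]
  push_cast
  refine ⟨⟨?_, ?_⟩, ⟨?_, ?_⟩, ⟨?_, ?_⟩, ⟨?_, ?_⟩, ?_, ?_⟩ <;> linarith

theorem row2 : Row 2 := by
  obtain ⟨h1, h2, h3, h4, h5⟩ := five_eq (L := 6) (e := 1) (by norm_num) rfl rfl rfl rfl rfl rfl rfl
    (by norm_num)
  obtain ⟨⟨a1, a2⟩, a3, a4⟩ := z6_0_F
  obtain ⟨a5, a6⟩ := z6_0_E
  obtain ⟨⟨c1, c2⟩, c3, c4⟩ := z6_3_F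
  obtain ⟨c5, c6⟩ := z6_3_E
  obtain ⟨c7, c8⟩ := z6_3_A
  push_cast at a1 a2 a3 a4 a5 a6 c1 c2 c3 c4 c5 c6 c7 c8
  simp only [Row, lo_b1, hi_b1, lo_x1, hi_x1, lo_bc, hi_bc, lo_xz, hi_xz, lo_xx, hi_xx,
    List.getD_cons_zero, List.getD_cons_succ, Nat.reduceAdd]
  push_cast
  refine ⟨⟨?_, ?_⟩, ⟨?_, ?_⟩, ⟨?_, ?_⟩, ⟨?_, ?_⟩, ?_, ?_⟩ <;> linarith

theorem row3 : Row 3 := by
  obtain ⟨h1, h2, h3, h4, h5⟩ := five_eq (L := 7) (e := -1) (by norm_num) rfl rfl rfl rfl rfl rfl rfl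
    (by norm_num)
  obtain ⟨⟨a1, a2⟩, a3, a4⟩ := z7_0_F
  obtain ⟨a5, a6⟩ := z7_0_E
  obtain ⟨⟨c1, c2⟩, c3, c4⟩ := z7_3_F
  obtain ⟨c5, c6⟩ := z7_3_E
  obtain ⟨c7, c8⟩ := z7_3_A
  push_cast at a1 a2 a3 a4 a5 a6 c1 c2 c3 c4 c5 c6 c7 c8
  simp only [Row, lo_b1, hi_b1, lo_x1, hi_x1, lo_bc, hi_bc, lo_xz, hi_xz, lo_xx, hi_xx,
    List.getD_cons_zero, List.getD_cons_succ, Nat.reduceAdd]
  push_cast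
  refine ⟨⟨?_, ?_⟩, ⟨?_, ?_⟩, ⟨?_, ?_⟩, ⟨?_, ?_⟩, ?_, ?_⟩ <;> linarith

theorem row4 : Row 4 := by
  obtain ⟨h1, h2, h3, h4, h5⟩ := five_eq (L := 8) (e := 1) (by norm_num) rfl rfl rfl rfl rfl rfl rfl
    (by norm_num)
  obtain ⟨⟨a1, a2⟩, a3, a4⟩ := z8_0_F
  obtain ⟨a5, a6⟩ := z8_0_E
  obtain ⟨⟨c1, c2⟩, c3, c4⟩ := z8_3_F
  obtain ⟨c5, c6⟩ := z8_3_E
  obtain ⟨c7, c8⟩ := z8_3_A
  push_cast at a1 a2 a3 a4 a5 a6 c1 c2 c3 c4 c5 c6 c7 c8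
  simp only [Row, lo_b1, hi_b1, lo_x1, hi_x1, lo_bc, hi_bc, lo_xz, hi_xz, lo_xx, hi_xx,
    List.getD_cons_zero, List.getD_cons_succ, Nat.reduceAdd]
  push_cast
  refine ⟨⟨?_, ?_⟩, ⟨?_, ?_⟩, ⟨?_, ?_⟩, ⟨?_, ?_⟩, ?_, ?_⟩ <;> linarith

theorem row5 : Row 5 := by
  obtain ⟨h1, h2, h3, h4, h5⟩ := five_eq (L := 9) (e := -1) (by norm_num) rfl rfl rfl rfl rfl rfl rfl
    (by norm_num)
  obtain ⟨⟨a1, a2⟩, a3, a4⟩ := z9_0_F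
  obtain ⟨a5, a6⟩ := z9_0_E
  obtain ⟨⟨c1, c2⟩, c3, c4⟩ := z9_3_F
  obtain ⟨c5, c6⟩ := z9_3_E
  obtain ⟨c7, c8⟩ := z9_3_1
  obtain ⟨c9, c0⟩ := z9_3_O
  have e := zz_pA 9 (sig 9 3)
  push_cast at a1 a2 a3 a4 a5 a6 c1 c2 c3 c4 c5 c6 c7 c8 c9 c0
  simp only [Row, lo_b1, hi_b1, lo_x1, hi_x1, lo_bc, hi_bc, lo_xz, hi_xz, lo_xx, hi_xx,
    List.getD_cons_zero, List.getD_cons_succ, Nat.reduceAdd]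
  push_cast
  refine ⟨⟨?_, ?_⟩, ⟨?_, ?_⟩, ⟨?_, ?_⟩, ⟨?_, ?_⟩, ?_, ?_⟩ <;> linarith

theorem row6 : Row 6 := by
  obtain ⟨h1, h2, h3, h4, h5⟩ := five_eq (L := 10) (e := 1) (by norm_num) rfl rfl rfl rfl rfl rfl rfl
    (by norm_num)
  obtain ⟨⟨a1, a2⟩, a3, a4⟩ := z10_0_F
  obtain ⟨a5, a6⟩ := z10_0_E
  obtain ⟨⟨c1, c2⟩, c3, c4⟩ := z10_3_F
  obtain ⟨c5, c6⟩ := z10_3_E
  obtain ⟨c7, c8⟩ := z10_3_1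
  obtain ⟨c9, c0⟩ := z10_3_O
  have e := zz_pA 10 (sig 10 3)
  push_cast at a1 a2 a3 a4 a5 a6 c1 c2 c3 c4 c5 c6 c7 c8 c9 c0
  simp only [Row, lo_b1, hi_b1, lo_x1, hi_x1, lo_bc, hi_bc, lo_xz, hi_xz, lo_xx, hi_xx,
    List.getD_cons_zero, List.getD_cons_succ, Nat.reduceAdd]
  push_cast
  refine ⟨⟨?_, ?_⟩, ⟨?_, ?_⟩, ⟨?_, ?_⟩, ⟨?_, ?_⟩, ?_, ?_⟩ <;> linarith

theorem rows (k : ℕ) (hk : k < 7) : Row k := by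
  interval_cases k
  exacts [row0, row1, row2, row3, row4, row5, row6]

theorem in_b1 : MIn b1 lo_b1 hi_b1 := ⟨rfl, rfl, fun k hk => (rows k hk).1⟩

theorem bd_b1 : Bd b1 1135934 1085368 1289940 1156012 :=
  bd_of fam_five.1 in_b1 fun _ X h => (filt_b1 X h).1

theorem in_x1 : MIn x1 lo_x1 hi_x1 := ⟨rfl, rfl, fun k hk => (rows k hk).2.1⟩

theorem bd_x1 : Bd x1 83314 56450 6805 1177 :=
  bd_of fam_five.2.1 in_x1 fun _ X h => filt_x1 X h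

theorem in_bc : MIn bc lo_bc hi_bc := ⟨rfl, rfl, fun k hk => (rows k hk).2.2.1⟩

theorem bd_bc : Bd bc 968527 927379 937788 844643 :=
  bd_of fam_five.2.2.1 in_bc fun _ X h => (filt_bc X h).1

theorem in_xz : MIn xz lo_xz hi_xz := ⟨rfl, rfl, fun k hk => (rows k hk).2.2.2.1⟩

theorem bd_xz : Bd xz 85430 57941 7136 1224 :=
  bd_of fam_five.2.2.2.1 in_xz fun _ X h => filt_xz X h

theorem in_xx : MIn xx lo_xx hi_xx := ⟨rfl, rfl, fun k hk => (rows k hk).2.2.2.2⟩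

theorem bd_xx : Bd xx 57345 36737 3163 367 :=
  bd_of fam_five.2.2.2.2 in_xx fun _ X h => filt_xx X h

end Vale.Agent.P348
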