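import Vale.Agent.P348.SpaceA

/-! The spatial transfer matrix: sector partition functions are limits of power sums of real
numbers.  With `τ = β / (n+1)`, one-site tensor `M 0 0 = 1`, `M (a+1) 0 = M 0 (a+1) = √τ • (I • cart a)`
(real antisymmetric), `M (a+1) (b+1) = 0`. -/

namespace Vale.Agent.P348

open Matrix Filter Topology

/-- unweighted one-site tensor -/
noncomputable def Nt : Fin 4 → Fin 4 → M3 :=
  Fin.cases (Fin.cases 1 fun c => Complex.I • cart c) fun c => Fin.cases (Complex.I • cart c) fun _ => 0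

noncomputable def wl (τ : ℂ) (a : Fin 4) : ℂ := if a = 0 then 1 else τ

noncomputable def Cm (m : ℕ) (h : Fin 4) (a : Fin (m + 1) → Fin 4) : Op (m + 1) :=
  ((chi (a 0) h : ℝ) : ℂ) • tens fun j => Nt (a j) (a (finRotate (m + 1) j))

noncomputable def Tm (s : ℝ) (g : Fin 4) (n : ℕ) : Matrix (Fin n → Fin 4) (Fin n → Fin 4) ℂ :=
  Matrix.of fun w w' =>
    trace (rot cart g * (List.ofFn fun t => (wl s (w t) * wl s (w' t)) • Nt (w t) (w' t)).prod)

noncomputable def Dm (h : Fin 4) {n : ℕ} (w : Fin n → Fin 4) : ℂ := ∏ t, ((chi (w t) h : ℝ) : ℂ)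

theorem Nt_symm (a b : Fin 4) : Nt a b = Nt b a := by
  refine Fin.cases ?_ (fun a => ?_) a <;> refine Fin.cases ?_ (fun b => ?_) b <;> simp [Nt]

theorem Nt_conj (a b : Fin 4) : (Nt a b).map (starRingEnd ℂ) = Nt a b := by
  have e : ∀ c, (Complex.I • cart c).map (starRingEnd ℂ) = Complex.I • cart c := by
    intro c
    ext i j
    simp only [cart, eps, map_apply, Matrix.smul_apply, of_apply, smul_eq_mul]
    split_ifs <;> simp
  refine Fin.cases ?_ (fun a => ?_) a <;> refine Fin.cases ?_ (fun b => ?_) b <;>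
    simp only [Nt, Fin.cases_zero, Fin.cases_succ, e] <;> simp

theorem rot_sq (h : Fin 4) : rot cart h * rot cart h = 1 := by
  rw [rot_cart, diagonal_mul_diagonal, ← diagonal_one]
  congr 1; funext a
  unfold sg; split_ifs <;> simp

theorem Nt_rot (h a b : Fin 4) : rot cart h * Nt a b * rot cart h =
    (((chi a h : ℝ) : ℂ) * ((chi b h : ℝ) : ℂ)) • Nt a b := by
  have e : ∀ c : Fin 3, rot cart h * cart c * rot cart h = ((chi c.succ h : ℝ) : ℂ) • cart c := by
    intro c
    ext i j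
    rw [rot_cart, mul_diagonal, diagonal_mul]
    fin_cases h <;> fin_cases c <;> fin_cases i <;> fin_cases j <;> simp [cart, eps, sg, chi]
  have c0 : chi 0 h = 1 := by simp [chi]
  refine Fin.cases ?_ (fun a => ?_) a <;> refine Fin.cases ?_ (fun b => ?_) b <;>
    simp only [Nt, Fin.cases_zero, Fin.cases_succ, c0, Matrix.mul_smul, Matrix.smul_mul, e,
      smul_smul] <;> simp [rot_sq, mul_comm]

theorem Tm_herm (s : ℝ) (g : Fin 4) (n : ℕ) : (Tm s g n).IsHermitian := by
  ext w w'
  have e1 := map_ofFn_prod ((starRingEnd ℂ).mapMatrix : M3 →+* M3).toMonoidHom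
    (fun t => (wl s (w t) * wl s (w' t)) • Nt (w t) (w' t)) (fun _ => 1) (fun t => by
      have e : ∀ a, starRingEnd ℂ (wl s a) = wl s a := fun a => by
        unfold wl; split_ifs <;> simp
      rw [one_smul]
      conv_rhs => rw [← Nt_conj]
      ext i j
      simp [e])
  have e2 : (rot cart g).map (starRingEnd ℂ) = rot cart g := by
    rw [rot_cart, diagonal_map (by simp)]; simp
  simp only [Finset.prod_const_one, one_smul, RingHom.toMonoidHom_eq_coe, MonoidHom.coe_coe,
    RingHom.mapMatrix_apply] at e1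
  simp only [conjTranspose_apply, Tm, of_apply, Nt_symm (w' _), mul_comm (wl s (w' _))]
  conv_rhs => rw [← e1, ← e2, ← Matrix.map_mul, ← AddMonoidHom.coe_coe, ← AddMonoidHom.map_trace]
  rfl

theorem Dm_Tm (s : ℝ) (g h : Fin 4) {n : ℕ} (w w' : Fin n → Fin 4) :
    Dm h w * Dm h w' * Tm s g n w w' = Tm s g n w w' := by
  let φ : M3 →* M3 :=
    { toFun := fun X => rot cart h * X * rot cart h
      map_one' := by rw [mul_one, rot_sq]
      map_mul' := fun X Y => by
        simp only [mul_assoc]; rw [← mul_assoc (rot cart h) (rot cart h), rot_sq, one_mul] }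
  have e1 := map_ofFn_prod φ (fun t => (wl s (w t) * wl s (w' t)) • Nt (w t) (w' t))
    (fun t => ((chi (w t) h : ℝ) : ℂ) * ((chi (w' t) h : ℝ) : ℂ)) (fun t => by
      change rot cart h * _ * rot cart h = _
      rw [Matrix.mul_smul, Matrix.smul_mul, Nt_rot, smul_comm])
  change rot cart h * _ * rot cart h = _ at e1
  have e2 : rot cart h * rot cart g = rot cart g * rot cart h := by
    simp only [rot_cart, diagonal_mul_diagonal, mul_comm]
  rw [Tm, of_apply, Dm, Dm, ← Finset.prod_mul_distrib, ← smul_eq_mul, ← trace_smul,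
    ← Matrix.mul_smul, ← e1, ← mul_assoc, trace_mul_comm, ← mul_assoc, ← mul_assoc, e2,
    mul_assoc (rot cart g), rot_sq, mul_one]

theorem Dm_char {n : ℕ} (w : Fin n → Fin 4) : ∃ y, ∀ h, Dm h w = ((chi y h : ℝ) : ℂ) := by
  have key : ∀ y z : Fin 4, ∃ u : Fin 4, ∀ h : Fin 4, (u = 0 ∨ h = 0 ∨ u = h) ↔
      ((y = 0 ∨ h = 0 ∨ y = h) ↔ (z = 0 ∨ h = 0 ∨ z = h)) := by decide
  induction n with
  | zero => exact ⟨0, fun h => by simp [Dm, chi]⟩
  | succ n ih =>
    obtain ⟨z, hz⟩ := ih (fun t => w t.succ)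
    obtain ⟨u, hu⟩ := key (w 0) z
    refine ⟨u, fun h => ?_⟩
    rw [Dm, Fin.prod_univ_succ, ← Dm, hz, ← Complex.ofReal_mul]
    congr 1
    have := hu h
    unfold chi
    by_cases c1 : w 0 = 0 ∨ h = 0 ∨ w 0 = h <;> by_cases c2 : z = 0 ∨ h = 0 ∨ z = h <;>
      simp only [this, c1, c2] <;> norm_num

noncomputable def Pm (x : Fin 4) {n : ℕ} (w : Fin n → Fin 4) : ℂ :=
  ∑ h, ((1 / 4 * chi x h : ℝ) : ℂ) * Dm h w

theorem Pm_cases (x : Fin 4) {n : ℕ} (w : Fin n → Fin 4) : Pm x w = 0 ∨ Pm x w = 1 := by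
  obtain ⟨y, hy⟩ := Dm_char w
  simp only [Pm, hy]
  fin_cases x <;> fin_cases y <;> simp [chi, Fin.sum_univ_four] <;> norm_num

theorem Pm_comm (s : ℝ) (g x : Fin 4) (n : ℕ) : Commute (diagonal (Pm x)) (Tm s g n) := by
  ext w w'
  rw [diagonal_mul, mul_diagonal, Pm, Pm, Finset.sum_mul, Finset.mul_sum]
  refine Finset.sum_congr rfl fun h _ => ?_
  have h1 := Dm_Tm s g h w w'
  have h2 : Dm h w * Dm h w = 1 := by
    obtain ⟨y, hy⟩ := Dm_char w
    rw [hy]; unfold chi; split_ifs <;> simp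
  linear_combination (↑(1 / 4 * chi x h) * Tm s g n w w' * Dm h w') * h2 -
    (↑(1 / 4 * chi x h) * Dm h w) * h1

theorem PT_herm (s : ℝ) (g x : Fin 4) (n : ℕ) : (diagonal (Pm x) * Tm s g n).IsHermitian := by
  have h1 : (diagonal (Pm x (n := n))).IsHermitian := by
    rw [isHermitian_diagonal_iff]
    intro w
    rcases Pm_cases x w with h | h <;> simp [h]
  unfold IsHermitian
  rw [conjTranspose_mul, h1.eq, (Tm_herm s g n).eq, (Pm_comm s g x n).eq]

theorem PT_pow (s : ℝ) (g x : Fin 4) (n m : ℕ) : trace ((diagonal (Pm x) * Tm s g n) ^ (m + 1)) =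
    ∑ h, ((1 / 4 * chi x h : ℝ) : ℂ) * trace (diagonal (Dm h) * Tm s g n ^ (m + 1)) := by
  have h1 : IsIdempotentElem (diagonal (Pm x (n := n))) := by
    rw [IsIdempotentElem, diagonal_mul_diagonal]
    congr 1; funext w
    rcases Pm_cases x w with h | h <;> simp [h]
  rw [(Pm_comm s g x n).mul_pow, h1.pow_succ_eq]
  simp only [trace, diag, diagonal_mul, Pm, Finset.sum_mul, Finset.mul_sum, mul_assoc]
  exact Finset.sum_comm

theorem trace_V (s : ℝ) (g h : Fin 4) (n m : ℕ) :
    trace (tens (fun _ : Fin (m + 1) => rot cart g) *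
      (∑ a, (∏ j, wl ((s : ℂ) ^ 2) (a j)) • Cm m h a) ^ n) =
      trace (diagonal (Dm h) * Tm s g n ^ (m + 1)) := by
  have e : ∀ a : Fin (m + 1) → Fin 4, (∏ j, wl ((s : ℂ) ^ 2) (a j)) • Cm m h a =
      ((chi (a 0) h : ℝ) : ℂ) • tens fun j => (wl s (a j) * wl s (a (finRotate (m + 1) j))) •
        Nt (a j) (a (finRotate (m + 1) j)) := by
    intro a
    rw [tens_smul, Finset.prod_mul_distrib, Equiv.prod_comp (finRotate (m + 1)) (fun j => wl s (a j)),
      ← Finset.prod_mul_distrib, Cm, smul_comm]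
    congr 2
    refine Finset.prod_congr rfl fun j _ => ?_
    unfold wl; split_ifs <;> ring
  simp only [e]
  rw [pow_tens, ← sum_cycle, Finset.mul_sum, trace_sum,
    ← (Equiv.piComm fun (_ : Fin n) (_ : Fin (m + 1)) => Fin 4).sum_comp]
  refine Finset.sum_congr rfl fun a _ => ?_
  rw [Matrix.mul_smul, trace_smul, tens_mul, trace_tens]
  rfl

theorem V_zero (m : ℕ) (h : Fin 4) : ∑ a, (∏ j, wl 0 (a j)) • Cm m h a = 1 := by
  rw [Finset.sum_eq_single 0]
  · simp [wl, Cm, chi, Nt, tens_one]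
  · intro a _ ha
    obtain ⟨j, hj⟩ := Function.ne_iff.1 ha
    rw [Finset.prod_eq_zero (Finset.mem_univ j) (if_neg hj), zero_smul]
  · simp

theorem Cm_single (m : ℕ) (hm : 1 ≤ m) (h : Fin 4) (j : Fin (m + 1)) (c : Fin 3) :
    Cm m h (Pi.single (finRotate (m + 1) j) c.succ) =
      -((if (finRotate (m + 1) j).val = 0 then ((sg h c : ℝ) : ℂ) else 1) •
        (site (m + 1) j (cart c) * site (m + 1) (finRotate (m + 1) j) (cart c))) := by
  have hr : ∀ i, finRotate (m + 1) i ≠ i := by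
    intro i e
    have h1 := coe_finRotate i
    rw [e] at h1
    split_ifs at h1 with h2
    · rw [h2] at h1; simp at h1; omega
    · omega
  generalize hj' : finRotate (m + 1) j = j'
  have hne : j ≠ j' := hj' ▸ (hr j).symm
  have e1 : (fun i => Nt ((Pi.single j' c.succ : Fin (m + 1) → Fin 4) i)
      ((Pi.single j' c.succ : Fin (m + 1) → Fin 4) (finRotate (m + 1) i))) =
      fun i => ((if i = j then Complex.I else 1) * (if i = j' then Complex.I else 1)) •
        ((if i = j then cart c else 1) * (if i = j' then cart c else 1)) := by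
    funext i
    by_cases h1 : i = j
    · subst h1
      rw [hj', Pi.single_eq_of_ne hne, Pi.single_eq_same]
      simp [hne, Nt]
    · have h3 : finRotate (m + 1) i ≠ j' := fun e => h1 ((finRotate _).injective (e.trans hj'.symm))
      rw [Pi.single_eq_of_ne h3]
      by_cases h2 : i = j'
      · subst h2
        rw [Pi.single_eq_same]
        simp [h1, Nt]
      · rw [Pi.single_eq_of_ne h2]
        simp [h1, h2, Nt]
  rw [Cm, e1, tens_smul, Finset.prod_mul_distrib, site_eq_tens, site_eq_tens, tens_mul, smul_smul,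
    ← neg_smul]
  congr 1
  simp only [Finset.prod_ite_eq', Finset.mem_univ, if_true, Complex.I_mul_I, mul_neg, mul_one]
  congr 1
  by_cases h0 : j' = 0
  · subst h0
    simp [chi, sg, eq_comm]
  · rw [Pi.single_eq_of_ne' h0, if_neg (show ¬ j'.val = 0 from fun e => h0 (Fin.ext e))]
    simp [chi]

theorem V_deriv (m : ℕ) (hm : 1 ≤ m) (h : Fin 4) :
    ∑ a : Fin (m + 1) → Fin 4, (∑ j, (∏ i ∈ Finset.univ.erase j, wl 0 (a i)) •
      (if a j = 0 then (0 : ℂ) else 1)) • Cm m h a = -hamT cart (m + 1) h := by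
  simp only [Finset.sum_smul]
  rw [Finset.sum_comm, hamT, ← Finset.sum_neg_distrib, ← Equiv.sum_comp (finRotate (m + 1))]
  refine Finset.sum_congr rfl fun j _ => ?_
  rw [← Finset.sum_neg_distrib]
  simp only [← Cm_single m hm]
  generalize finRotate (m + 1) j = j'
  symm
  refine Finset.sum_of_injOn (fun c : Fin 3 => Pi.single j' c.succ) (fun c _ c' _ e => ?_)
    (fun _ _ => by simp) (fun a _ ha => ?_) fun c _ => ?_
  · simpa using congrFun e j'
  · by_cases h1 : a j' = 0
    · simp [h1]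
    by_cases h2 : ∀ i, i ≠ j' → a i = 0
    · obtain ⟨c, hc⟩ := Fin.exists_succ_eq.2 h1
      refine absurd ⟨c, by simp, funext fun i => ?_⟩ ha
      by_cases h3 : i = j'
      · subst h3; simp [hc]
      · simp [h3, h2 i h3]
    · push Not at h2
      obtain ⟨i, i1, i2⟩ := h2
      rw [Finset.prod_eq_zero (Finset.mem_erase.2 ⟨i1, Finset.mem_univ i⟩) (if_neg i2)]
      simp
  · rw [Finset.prod_eq_one fun i hi => by simp [wl, Finset.ne_of_mem_erase hi]]
    simp

theorem space_channel (β : ℝ) (hβ : 0 < β) (g x : Fin 4) :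
    ∃ lam : (n : ℕ) → (Fin (n + 1) → Fin 4) → ℝ, ∀ L : ℕ, 2 ≤ L →
      Tendsto (fun n => ∑ i, lam n i ^ L) atTop
        (𝓝 ((1 / 4) * ∑ h, chi x h * Zf cart L β g h)) := by
  refine ⟨fun n => (PT_herm √(β / (n + 1)) g x (n + 1)).eigenvalues, fun L hL => ?_⟩
  obtain ⟨m, rfl⟩ : ∃ m, L = m + 1 := ⟨L - 1, by omega⟩
  simp only [← trace_pow_herm, PT_pow, ← trace_V, Complex.re_sum, Complex.re_ofReal_mul]
  rw [Finset.mul_sum]
  refine tendsto_finsetSum _ fun h _ => ?_
  rw [← mul_assoc]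
  refine Tendsto.const_mul _ ?_
  have h1 := trotter_mat (fun (a : Fin (m + 1) → Fin 4) τ => ∏ j, wl τ (a j)) _
    (fun a => HasDerivAt.fun_finsetProd (u := Finset.univ) (f := fun j τ => wl τ (a j))
      (f' := fun j => if a j = 0 then (0 : ℂ) else 1) fun j _ => by
        unfold wl
        split_ifs
        · exact hasDerivAt_const _ _
        · exact hasDerivAt_id _) (Cm m h) (V_zero m h) β
  rw [V_deriv m (by omega), smul_neg, ← neg_smul] at h1
  have h2 : Continuous fun X : Op (m + 1) =>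
      (trace (tens (fun _ : Fin (m + 1) => rot cart g) * X)).re :=
    Complex.continuous_re.comp (continuous_const.matrix_mul continuous_id).matrix_trace
  refine ((h2.tendsto _).comp h1).congr fun n => ?_
  rw [← Complex.ofReal_pow, Real.sq_sqrt (by positivity)]
  simp

end Vale.Agent.P348
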