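import Vale.Agent.P348.Link
import Vale.Agent.P348.Space
import Vale.Agent.P348.Fam

/-! The five space-channel sectors at inverse temperature seven. -/

namespace Vale.Agent.P348

/-- product in the Klein four group -/
def kmul (x g : Fin 4) : Fin 4 := ![![0, 1, 2, 3], ![1, 0, 3, 2], ![2, 3, 0, 1], ![3, 2, 1, 0]] x g

theorem chi_kmul (x g h : Fin 4) : chi x h * chi g h = chi (kmul x g) h := by
  fin_cases x <;> fin_cases g <;> fin_cases h <;> simp [chi, kmul]

theorem chi_swap (g h : Fin 4) : chi g h = chi h g := by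
  fin_cases g <;> fin_cases h <;> simp [chi]

theorem kmul_kmul (x g : Fin 4) : kmul (kmul x g) g = x := by
  revert x g; decide

/-- the normalised and signed torus amplitudes -/
noncomputable def Wn (g h : Fin 4) (L k : ℕ) : ℝ :=
  chi g h * (Real.exp (-(7 * (14015 / 10000))) ^ (k * L) * Zf cart L (k * 7) g h)

theorem Wn_one (g h : Fin 4) (L : ℕ) : Wn g h L 1 = chi g h * Zn L g h := by
  rw [Wn, Zn, ← Real.exp_nat_mul]
  congr 3
  · push_cast; ring
  · norm_num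

theorem fam_W (g x : Fin 4) {k : ℕ} (hk : 1 ≤ k) :
    Fam (fun L => (1 / 4) * ∑ h, chi x h * Wn g h L k) := by
  have h0 : (0 : ℝ) < k * 7 := by positivity
  have h1 : Fam (fun L => (1 / 4) * ∑ h, chi (kmul x g) h * Zf cart L (k * 7) g h) :=
    space_channel (k * 7) h0 g (kmul x g)
  have h2 := h1.scale (Real.exp (-(7 * (14015 / 10000))) ^ k)
  convert h2 using 2 with L
  simp only [Wn, ← chi_kmul, Finset.mul_sum, ← pow_mul]
  exact Finset.sum_congr rfl fun h _ => by ring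

/-- canonical representatives of pairs under the permutations fixing the identity -/
def can (g h : Fin 4) : Fin 4 × Fin 4 :=
  if g = 0 then (if h = 0 then (0, 0) else (0, 3))
  else if h = 0 then (1, 0) else if g = h then (3, 3) else (1, 3)

theorem can_perm : ∀ g h : Fin 4, ∃ a b : Fin 4,
    (Equiv.swap 1 a * Equiv.swap 3 b : Equiv.Perm (Fin 4)) 0 = 0 ∧
    (Equiv.swap 1 a * Equiv.swap 3 b : Equiv.Perm (Fin 4)) (can g h).1 = g ∧
    (Equiv.swap 1 a * Equiv.swap 3 b : Equiv.Perm (Fin 4)) (can g h).2 = h := by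
  decide +kernel

theorem Zn_can (L : ℕ) (g h : Fin 4) : Zn L g h = Zn L (can g h).1 (can g h).2 := by
  obtain ⟨a, b, h0, h1, h2⟩ := can_perm g h
  have := Zf_cart_perm _ h0 L 7 (can g h).1 (can g h).2
  rw [h1, h2] at this
  rw [Zn, Zn, this]

noncomputable def b1 (L : ℕ) : ℝ := (Zn L 0 0 + 3 * Zn L 0 3) / 4
noncomputable def x1 (L : ℕ) : ℝ := (Zn L 0 0 - Zn L 0 3) / 4
noncomputable def bc (L : ℕ) : ℝ := (Zn L 1 0 + Zn L 3 3 - 2 * Zn L 1 3) / 4
noncomputable def xz (L : ℕ) : ℝ := (Zn L 1 0 + Zn L 3 3 + 2 * Zn L 1 3) / 4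
noncomputable def xx (L : ℕ) : ℝ := (Zn L 1 0 - Zn L 3 3) / 4

theorem space_sec (g x : Fin 4) (L : ℕ) : (1 / 4) * ∑ h, chi x h * Wn g h L 1 =
    if g = 0 then (if x = 0 then b1 L else x1 L)
    else if x = 0 then bc L else if x = g then xz L else xx L := by
  simp only [Wn_one, Fin.sum_univ_four, Zn_can L g]
  fin_cases g <;> fin_cases x <;> simp [chi, can, b1, x1, bc, xz, xx] <;> ring

theorem time_sec (h x : Fin 4) (L : ℕ) : (1 / 4) * ∑ g, chi x g * Wn g h L 1 =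
    if h = 0 then (if x = 0 then (b1 L + 3 * x1 L + 3 * bc L + 3 * xz L + 6 * xx L) / 4
      else (b1 L + 3 * x1 L - bc L - xz L - 2 * xx L) / 4)
    else if x = 0 then (b1 L - x1 L + 3 * bc L - xz L - 2 * xx L) / 4
    else if x = h then (b1 L - x1 L - bc L + 3 * xz L - 2 * xx L) / 4
    else (b1 L - x1 L - bc L - xz L + 2 * xx L) / 4 := by
  simp only [Wn_one, Fin.sum_univ_four, fun g => Zn_can L g h]
  fin_cases h <;> fin_cases x <;> simp [chi, can, b1, x1, bc, xz, xx] <;> ring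

theorem fam_five : Fam b1 ∧ Fam x1 ∧ Fam bc ∧ Fam xz ∧ Fam xx := by
  have h := fun g x => fam_W g x (k := 1) le_rfl
  simp only [space_sec] at h
  refine ⟨?_, ?_, ?_, ?_, ?_⟩
  · simpa using h 0 0
  · simpa using h 0 1
  · simpa using h 1 0
  · simpa using h 1 1
  · simpa using h 1 2

/-- the five sectors through the sector traces -/
theorem five_eq {L : ℕ} (hL : 3 ≤ L) {a b E c d F G e : ℝ} (ha : a = zz L (sig L 0) (Pf L 1))
    (hb : b = zz L (sig L 0) (Pf L (-1))) (hE : E = zz L (sig L 0) (Pi L (pE L)))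
    (hc : c = zz L (sig L 3) (Pf L 1)) (hd : d = zz L (sig L 3) (Pf L (-1)))
    (hF : F = zz L (sig L 3) (Pi L (pE L))) (hG : G = zz L (sig L 3) (Pi L (pA L)))
    (he : e = (-1) ^ L) :
    b1 L = (2 * (a + b + 2 * E) - e * (a - b) + 3 * (c + d + 2 * F + 2 * G)) / 4 ∧
    x1 L = (2 * (a + b + 2 * E) - e * (a - b) - (c + d + 2 * F + 2 * G)) / 4 ∧
    bc L = (e * (a - b) + (c + d + 2 * F - 2 * G) - 2 * (e * (c - d))) / 4 ∧
    xz L = (e * (a - b) + (c + d + 2 * F - 2 * G) + 2 * (e * (c - d))) / 4 ∧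
    xx L = (e * (a - b) - (c + d + 2 * F - 2 * G)) / 4 := by
  obtain ⟨p1, p2, p3⟩ := Zn_eq hL (h := 0) (Or.inl rfl)
  obtain ⟨q1, q2, q3⟩ := Zn_eq hL (h := 3) (Or.inr rfl)
  have e1 : Zn L 3 0 = Zn L 1 0 := by rw [Zn_can L 3 0]; rfl
  rw [← ha, ← hb, ← hE] at p1 p2
  rw [← ha, ← hb, ← he] at p3
  rw [← hc, ← hd, ← hF, ← hG] at q1 q2
  rw [← hc, ← hd, ← he] at q3
  simp only [b1, x1, bc, xz, xx]
  refine ⟨?_, ?_, ?_, ?_, ?_⟩ <;> linarith

end Vale.Agent.P348
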