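import Vale.Agent.P348.Basic

/-! Generic tools for the spatial transfer matrix. -/

namespace Vale.Agent.P348

open Matrix Filter Topology

theorem norm_pow_sub_pow_le {A : Type} [NormedRing A] [NormOneClass A] {a b : A} {M : ℝ}
    (ha : ‖a‖ ≤ M) (hb : ‖b‖ ≤ M) (n : ℕ) :
    ‖a ^ (n + 1) - b ^ (n + 1)‖ ≤ (n + 1) * M ^ n * ‖a - b‖ := by
  have hM : 0 ≤ M := (norm_nonneg a).trans ha
  induction n with
  | zero => simp
  | succ n ih =>
    have e : a ^ (n + 1 + 1) - b ^ (n + 1 + 1) =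
        a * (a ^ (n + 1) - b ^ (n + 1)) + (a - b) * b ^ (n + 1) := by
      rw [pow_succ' a (n + 1), pow_succ' b (n + 1)]; noncomm_ring
    have h1 := (norm_mul_le a _).trans (mul_le_mul ha ih (norm_nonneg _) hM)
    have h2 := (norm_mul_le (a - b) _).trans (mul_le_mul_of_nonneg_left
      ((norm_pow_le b (n + 1)).trans (pow_le_pow_left₀ (norm_nonneg b) hb _)) (norm_nonneg _))
    rw [e]
    refine (norm_add_le _ _).trans ((add_le_add h1 h2).trans (le_of_eq ?_))
    push_cast; ring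

theorem trotter {A : Type} [NormedRing A] [NormedAlgebra ℂ A] [CompleteSpace A] [NormOneClass A]
    {ι : Type} [Fintype ι] (p : ι → ℂ → ℂ) (p' : ι → ℂ) (hp : ∀ a, HasDerivAt (p a) (p' a) 0)
    (C : ι → A) (h0 : ∑ a, p a 0 • C a = 1) (β : ℂ) :
    Tendsto (fun n : ℕ => (∑ a, p a (β / (n + 1)) • C a) ^ (n + 1)) atTop
      (𝓝 (NormedSpace.exp (β • ∑ a, p' a • C a))) := by
  let _ : NormedAlgebra ℚ A := NormedAlgebra.restrictScalars ℚ ℂ A
  set X := ∑ a, p' a • C a
  have hc : Tendsto (fun n : ℕ => ‖(n : ℂ) + 1‖) atTop atTop := by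
    refine (tendsto_atTop_add_const_right _ 1 tendsto_natCast_atTop_atTop).congr fun n => ?_
    rw [← Nat.cast_succ, ← Nat.cast_succ, Complex.norm_natCast]
  have hA : HasDerivAt (fun τ => ∑ a, p a τ • C a) X 0 :=
    HasDerivAt.fun_sum fun a _ => (hp a).smul_const (C a)
  have hB : HasDerivAt (fun τ : ℂ => NormedSpace.exp (τ • X)) X 0 := by
    simpa using hasDerivAt_exp_smul_const X (0 : ℂ)
  have hu := hA.hasFDerivAt.lim β hc
  have hv := hB.hasFDerivAt.lim β hc
  simp only [zero_add, smul_eq_mul, ← div_eq_inv_mul, h0, zero_smul, NormedSpace.exp_zero] at hu hv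
  obtain ⟨K1, hK1⟩ := hu.norm.bddAbove_range
  obtain ⟨K2, hK2⟩ := hv.norm.bddAbove_range
  have hbd : ∀ (n : ℕ) (a : A) (K : ℝ), ‖((n : ℂ) + 1) • (a - 1)‖ ≤ K → K ≤ max K1 K2 →
      ‖a‖ ≤ Real.exp (max K1 K2 / (n + 1)) := by
    intro n a K h1 h2
    rw [norm_smul, ← Nat.cast_succ, Complex.norm_natCast, Nat.cast_succ, mul_comm,
      ← le_div_iff₀ (by positivity)] at h1
    have h3 := div_le_div_of_nonneg_right h2 (by positivity : (0 : ℝ) ≤ n + 1)
    have h4 := norm_add_le (a - 1) 1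
    rw [sub_add_cancel, norm_one] at h4
    linarith [Real.add_one_le_exp (max K1 K2 / (n + 1))]
  have hK : 0 ≤ max K1 K2 := le_max_of_le_left ((norm_nonneg _).trans (hK1 ⟨0, rfl⟩))
  rw [tendsto_iff_norm_sub_tendsto_zero]
  have hl := (hu.sub hv).norm.const_mul (Real.exp (max K1 K2))
  rw [sub_self, norm_zero, mul_zero] at hl
  refine squeeze_zero (fun _ => norm_nonneg _) (fun n => ?_) hl
  have e : NormedSpace.exp (β • X) = NormedSpace.exp ((β / (n + 1)) • X) ^ (n + 1) := by
    rw [← NormedSpace.exp_nsmul, ← Nat.cast_smul_eq_nsmul ℂ, smul_smul, Nat.cast_succ,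
      mul_div_cancel₀ _ (Nat.cast_add_one_ne_zero n)]
  rw [e]
  refine (norm_pow_sub_pow_le (hbd n _ _ (hK1 ⟨n, rfl⟩) (le_max_left _ _))
    (hbd n _ _ (hK2 ⟨n, rfl⟩) (le_max_right _ _)) n).trans ?_
  rw [← smul_sub, sub_sub_sub_cancel_right, norm_smul, ← Nat.cast_succ (R := ℂ),
    Complex.norm_natCast, Nat.cast_succ, ← mul_assoc, mul_comm (Real.exp _), ← Real.exp_nat_mul]
  gcongr
  · rw [Nat.cast_succ]
  · rw [← mul_div_assoc, div_le_iff₀ (by positivity)]
    nlinarith

set_option backward.isDefEq.respectTransparency false in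
theorem trotter_mat {m : Type} [Fintype m] [DecidableEq m] [Nonempty m]
    {ι : Type} [Fintype ι] (p : ι → ℂ → ℂ) (p' : ι → ℂ) (hp : ∀ a, HasDerivAt (p a) (p' a) 0)
    (C : ι → Matrix m m ℂ) (h0 : ∑ a, p a 0 • C a = 1) (β : ℂ) :
    Tendsto (fun n : ℕ => (∑ a, p a (β / (n + 1)) • C a) ^ (n + 1)) atTop
      (𝓝 (NormedSpace.exp (β • ∑ a, p' a • C a))) :=
  open scoped Norms.Operator in trotter p p' hp C h0 β

theorem trace_pow_herm {m : Type} [Fintype m] [DecidableEq m] {A : Matrix m m ℂ}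
    (hA : A.IsHermitian) (k : ℕ) : (trace (A ^ k)).re = ∑ i, hA.eigenvalues i ^ k := by
  conv_lhs => rw [hA.spectral_theorem, ← map_pow, Unitary.conjStarAlgAut_apply, trace_mul_cycle,
    Unitary.coe_star_mul_self, one_mul, diagonal_pow, trace_diagonal]
  simp [← Complex.ofReal_pow]

theorem sum_path {W : Type} [Fintype W] [DecidableEq W] (T : Matrix W W ℂ) (m : ℕ) :
    ∀ F : W → W → ℂ, ∑ w : Fin (m + 1) → W, F (w 0) (w (Fin.last m)) *
      ∏ j : Fin m, T (w j.castSucc) (w j.succ) = ∑ a, ∑ b, F a b * (T ^ m) a b := by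
  induction m with
  | zero =>
    intro F
    rw [Fintype.sum_equiv (Equiv.funUnique (Fin 1) W) _ (fun a => F a a) fun w => by simp]
    simp [one_apply]
  | succ m ih =>
    intro F
    rw [← (Fin.consEquiv fun _ : Fin (m + 2) => W).sum_comp, Fintype.sum_prod_type]
    refine Finset.sum_congr rfl fun a _ => ?_
    have := ih (fun b c => F a c * T a b)
    rw [Finset.sum_comm] at this
    simp only [pow_succ' T m, mul_apply, Finset.mul_sum, ← mul_assoc]
    rw [← this]
    refine Finset.sum_congr rfl fun w _ => ?_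
    rw [Fin.prod_univ_succ, ← mul_assoc]
    rfl

theorem sum_cycle {W : Type} [Fintype W] [DecidableEq W] (T : Matrix W W ℂ) (d : W → ℂ) (m : ℕ) :
    ∑ w : Fin (m + 1) → W, d (w 0) * ∏ j, T (w j) (w (finRotate (m + 1) j)) =
      trace (diagonal d * T ^ (m + 1)) := by
  have := sum_path T m (fun a b => d a * T b a)
  simp only [trace, diag, diagonal_mul]
  simp only [pow_succ T m, mul_apply, Finset.mul_sum]
  refine Eq.trans (Finset.sum_congr rfl fun w _ => ?_) (this.trans ?_)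
  · rw [Fin.prod_univ_castSucc, finRotate_last, mul_assoc, mul_comm (T _ _)]
    simp
  · exact Finset.sum_congr rfl fun a _ => Finset.sum_congr rfl fun b _ => by ring

theorem pow_tens {L : ℕ} {α : Type} [Fintype α] (c : α → ℂ) (Y : α → Fin L → M3) (n : ℕ) :
    (∑ a, c a • tens (Y a)) ^ n = ∑ a : Fin n → α, (∏ t, c (a t)) •
      tens (fun j => (List.ofFn fun t => Y (a t) j).prod) := by
  induction n with
  | zero => simp [tens_one]
  | succ n ih =>
    rw [pow_succ', ih, ← (Fin.consEquiv fun _ : Fin (n + 1) => α).sum_comp, Fintype.sum_prod_type,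
      Finset.sum_mul_sum]
    refine Finset.sum_congr rfl fun a _ => Finset.sum_congr rfl fun w _ => ?_
    rw [smul_mul_smul_comm, tens_mul, Fin.prod_univ_succ]
    simp [List.ofFn_succ]

theorem trace_tens {L : ℕ} (B : Fin L → M3) : trace (tens B) = ∏ j, trace (B j) := by
  simp only [trace, diag, tens, of_apply]
  rw [Finset.prod_univ_sum, Fintype.piFinset_univ]

theorem tens_smul {L : ℕ} (f : Fin L → ℂ) (B : Fin L → M3) :
    tens (fun j => f j • B j) = (∏ j, f j) • tens B := by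
  ext s t
  simp [tens, Finset.prod_mul_distrib]

theorem map_ofFn_prod (φ : M3 →* M3) {n : ℕ} (X : Fin n → M3) (c : Fin n → ℂ)
    (h : ∀ t, φ (X t) = c t • X t) :
    φ (List.ofFn X).prod = (∏ t, c t) • (List.ofFn X).prod := by
  induction n with
  | zero => simp
  | succ n ih =>
    rw [List.ofFn_succ, List.prod_cons, map_mul, ih _ (fun t => c t.succ) (fun t => h _), h,
      smul_mul_smul_comm, Fin.prod_univ_succ]

end Vale.Agent.P348
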