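import Vale.Agent.P348.Dec

/-! Pointwise meaning of the packed tree operations. -/

namespace Vale.Agent.P348

open Finset Function

/-- words over three letters -/
def Wd (u : ℕ → ℕ) : Prop := ∀ i, u i < 3

def tl (u : ℕ → ℕ) : ℕ → ℕ := fun i => u (i + 1)

def upw (u : ℕ → ℕ) (i : ℕ) : ℕ → ℕ := update u i (u i + 1)

def dnw (u : ℕ → ℕ) (i : ℕ) : ℕ → ℕ := update u i (u i - 1)

def smw (u : ℕ → ℕ) (m : ℕ) : ℕ := ∑ i ∈ range m, u i

theorem Wd.tl {u : ℕ → ℕ} (h : Wd u) : Wd (tl u) := fun _ => h _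

theorem Wd.upw {u : ℕ → ℕ} (h : Wd u) {i : ℕ} (hi : u i ≤ 1) : Wd (upw u i) := fun j => by
  have := h j
  simp only [P348.upw, update_apply]
  split_ifs <;> omega

theorem Wd.dnw {u : ℕ → ℕ} (h : Wd u) (i : ℕ) : Wd (dnw u i) := fun j => by
  have := h j
  have := h i
  simp only [P348.dnw, update_apply]
  split_ifs <;> omega

theorem upw_self (u : ℕ → ℕ) (i : ℕ) : upw u i i = u i + 1 := update_self _ _ _

theorem dnw_self (u : ℕ → ℕ) (i : ℕ) : dnw u i i = u i - 1 := update_self _ _ _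

theorem upw_ne (u : ℕ → ℕ) {i j : ℕ} (h : j ≠ i) : upw u i j = u j := update_of_ne h _ _

theorem dnw_ne (u : ℕ → ℕ) {i j : ℕ} (h : j ≠ i) : dnw u i j = u j := update_of_ne h _ _

theorem tl_upw_zero (u : ℕ → ℕ) : tl (upw u 0) = tl u := funext fun _ => upw_ne _ (by omega)

theorem tl_dnw_zero (u : ℕ → ℕ) : tl (dnw u 0) = tl u := funext fun _ => dnw_ne _ (by omega)

theorem tl_upw_succ (u : ℕ → ℕ) (i : ℕ) : tl (upw u (i + 1)) = upw (tl u) i := by
  funext j
  simp only [tl, upw, update_apply, Nat.add_right_cancel_iff]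

theorem tl_dnw_succ (u : ℕ → ℕ) (i : ℕ) : tl (dnw u (i + 1)) = dnw (tl u) i := by
  funext j
  simp only [tl, dnw, update_apply, Nat.add_right_cancel_iff]

theorem smw_succ' (u : ℕ → ℕ) (m : ℕ) : smw u (m + 1) = u 0 + smw (tl u) m := by
  rw [smw, sum_range_succ', add_comm]; rfl

theorem smw_upw (u : ℕ → ℕ) {i m : ℕ} (h : i < m) : smw (upw u i) m = smw u m + 1 := by
  rw [smw, smw, ← add_sum_erase _ _ (mem_range.2 h), ← add_sum_erase _ _ (mem_range.2 h), upw_self,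
    sum_congr rfl fun j hj => upw_ne u (mem_erase.1 hj).1]
  omega

theorem smw_dnw (u : ℕ → ℕ) {i m : ℕ} (h : i < m) (hi : 1 ≤ u i) :
    smw (dnw u i) m + 1 = smw u m := by
  rw [smw, smw, ← add_sum_erase _ _ (mem_range.2 h), ← add_sum_erase _ _ (mem_range.2 h), dnw_self,
    sum_congr rfl fun j hj => dnw_ne u (mem_erase.1 hj).1]
  omega

def ev0 (x : K.Non) (a b : ℕ) : ℕ :=
  K.sel a (K.sel b x.1 x.2 x.3) (K.sel b x.4 x.5 x.6) (K.sel b x.7 x.8 x.9)

def sub3 {α : Type} (x : K.Tri α) (a : ℕ) : α := K.sel a x.1 x.2 x.3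

def evN (x : K.Non) (u : ℕ → ℕ) : ℕ := ev0 x (u 0) (u 1)

def evT {α : Type} (E : α → (ℕ → ℕ) → ℕ) (x : K.Tri α) (u : ℕ → ℕ) : ℕ :=
  E (sub3 x (u 0)) (tl u)

/-- the entry of a tree at a word -/
noncomputable def ev (n : ℕ) : K.Tn n → (ℕ → ℕ) → ℕ :=
  Nat.rec (motive := fun n => K.Tn n → (ℕ → ℕ) → ℕ) evN (fun _ g => evT g) n

theorem sub3_zero {α : Type} (x : K.Tri α) : sub3 x 0 = x.1 := rfl
theorem sub3_one {α : Type} (x : K.Tri α) : sub3 x 1 = x.2 := rfl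
theorem sub3_two {α : Type} (x : K.Tri α) : sub3 x 2 = x.3 := rfl

theorem tl_dig (c : ℕ) : tl (K.dig c) = K.dig (c / 3) := by
  funext i
  rw [tl, dig_eq, dig_eq, pow_succ', Nat.div_div_eq_div_mul]

theorem dig_zero (c : ℕ) : K.dig c 0 = c % 3 := by rw [dig_eq, pow_zero, Nat.div_one]

theorem get_eq (n : ℕ) (x : K.Tn n) (c : ℕ) : K.get n x c = ev n x (K.dig c) := by
  induction n generalizing c with
  | zero =>
    show ev0 x (c % 3) (c / 3 % 3) = ev0 x (K.dig c 0) (K.dig c 1)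
    rw [dig_zero, dig_eq, pow_one]
  | succ n ih =>
    show K.get n (sub3 x (c % 3)) (c / 3) = ev n (sub3 x (K.dig c 0)) (tl (K.dig c))
    rw [tl_dig, dig_zero, ih]

/-- the two hops across the bond `(i, i + 1)` -/
def hop (E : (ℕ → ℕ) → ℕ) (u : ℕ → ℕ) (i : ℕ) : ℕ :=
  (if u i ≤ 1 ∧ 1 ≤ u (i + 1) then E (dnw (upw u i) (i + 1)) else 0) +
    if 1 ≤ u i ∧ u (i + 1) ≤ 1 then E (upw (dnw u i) (i + 1)) else 0

def hup (E : (ℕ → ℕ) → ℕ) (u : ℕ → ℕ) (i : ℕ) : ℕ := if u i ≤ 1 then E (upw u i) else 0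

def hdn (E : (ℕ → ℕ) → ℕ) (u : ℕ → ℕ) (i : ℕ) : ℕ := if 1 ≤ u i then E (dnw u i) else 0

structure Spec {α : Type} (E : α → (ℕ → ℕ) → ℕ) (n : ℕ) (o : K.Ops α) (C S : ℕ)
    (β : ℕ → ℕ → ℕ) : Prop where
  add : ∀ x y u, Wd u → E (o.add x y) u = E x u + E y u
  bnd : ∀ x y u, Wd u → E (o.bnd x y) u = β (E x u) (E y u)
  fu : ∀ x y u, Wd u → E (o.fu x y) u = E x u + hdn (E y) u 0
  fd : ∀ x y u, Wd u → E (o.fd x y) u = E x u + hup (E y) u 0
  h : ∀ d v u, Wd u → E (o.h d v) u = E d u * E v u + C +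
    ∑ i ∈ range (n + 1), hop (E v) u i + (hup (E v) u (n + 1) + hdn (E v) u (n + 1))
  mask : ∀ r x u, Wd u → E (o.mask r x) u =
    if S + 5 ≤ r + smw u (n + 2) ∧ r + smw u (n + 2) ≤ S + 7 then E x u else 0

theorem three {a : ℕ} (h : a < 3) : a = 0 ∨ a = 1 ∨ a = 2 := by omega

theorem evN_fu (x y : K.Non) (u : ℕ → ℕ) (h : Wd u) :
    evN (K.fuN x y) u = evN x u + hdn (evN y) u 0 := by
  simp only [evN, hdn, dnw_self, dnw_ne u (show 1 ≠ 0 by omega)]
  rcases three (h 0) with a | a | a <;> rcases three (h 1) with b | b | b <;> rw [a, b] <;> rfl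

theorem evN_fd (x y : K.Non) (u : ℕ → ℕ) (h : Wd u) :
    evN (K.fdN x y) u = evN x u + hup (evN y) u 0 := by
  simp only [evN, hup, upw_self, upw_ne u (show 1 ≠ 0 by omega)]
  rcases three (h 0) with a | a | a <;> rcases three (h 1) with b | b | b <;> rw [a, b] <;> rfl

theorem evN_add (x y : K.Non) (u : ℕ → ℕ) (h : Wd u) :
    evN (K.addN x y) u = evN x u + evN y u := by
  simp only [evN]
  rcases three (h 0) with a | a | a <;> rcases three (h 1) with b | b | b <;> rw [a, b] <;> rfl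

theorem evN_sub (x y : K.Non) (u : ℕ → ℕ) (h : Wd u) :
    evN (K.subN x y) u = evN x u - evN y u := by
  simp only [evN]
  rcases three (h 0) with a | a | a <;> rcases three (h 1) with b | b | b <;> rw [a, b] <;> rfl

theorem sel_zero {α : Type} (x y z : α) : K.sel 0 x y z = x := rfl
theorem sel_one {α : Type} (x y z : α) : K.sel 1 x y z = y := rfl
theorem sel_two {α : Type} (x y z : α) : K.sel 2 x y z = z := rfl

theorem evN_hC (C : ℕ) (d v : K.Non) (u : ℕ → ℕ) (h : Wd u) :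
    evN (K.hC C d v) u = evN d u * evN v u + C + ∑ i ∈ range (0 + 1), hop (evN v) u i +
      (hup (evN v) u (0 + 1) + hdn (evN v) u (0 + 1)) := by
  simp only [evN, zero_add, sum_range_one, hop, hup, hdn, upw_self, dnw_self,
    upw_ne _ (show 1 ≠ 0 by omega), upw_ne _ (show 0 ≠ 1 by omega),
    dnw_ne _ (show 1 ≠ 0 by omega), dnw_ne _ (show 0 ≠ 1 by omega)]
  rcases three (h 0) with a | a | a <;> rcases three (h 1) with b | b | b <;> rw [a, b] <;>
    simp [ev0, sel_zero, sel_one, sel_two, K.hC] <;> omega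

theorem msk_eq (S r : ℕ) (x : K.Non) {a b : ℕ} (ha : a < 3) (hb : b < 3) :
    ev0 (K.msk S r x) a b = if 5 ≤ r - S + (a + b) ∧ r - S + (a + b) ≤ 7 then ev0 x a b else 0 := by
  unfold K.msk
  simp only [Nat.sub_eq]
  generalize r - S = m
  rcases m with _ | _ | _ | _ | _ | _ | _ | _ | m
  case succ.succ.succ.succ.succ.succ.succ.succ =>
    rw [if_neg (by omega)]
    rcases three ha with rfl | rfl | rfl <;> rcases three hb with rfl | rfl | rfl <;> rfl
  all_goals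
    rcases three ha with rfl | rfl | rfl <;> rcases three hb with rfl | rfl | rfl <;> rfl

theorem evN_msk (S r : ℕ) (x : K.Non) (u : ℕ → ℕ) (h : Wd u) : evN (K.msk S r x) u =
    if S + 5 ≤ r + smw u (0 + 2) ∧ r + smw u (0 + 2) ≤ S + 7 then evN x u else 0 := by
  have h0 := h 0
  have h1 := h 1
  have e : smw u (0 + 2) = u 0 + u 1 := by simp [smw, sum_range_succ]
  rw [evN, msk_eq S r x h0 h1, e, evN]
  exact if_congr (by omega) rfl rfl

theorem spec_baseP (S : ℕ) : Spec evN 0 (K.baseP0 S) 0 S (· + ·) :=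
  ⟨evN_add, evN_add, evN_fu, evN_fd, evN_hC 0, evN_msk S⟩

theorem spec_baseN (S C : ℕ) : Spec evN 0 (K.baseN0 S C) C S (· - ·) :=
  ⟨evN_add, evN_sub, evN_fu, evN_fd, evN_hC C, evN_msk S⟩

variable {α : Type} {E : α → (ℕ → ℕ) → ℕ} {n C S : ℕ} {o : K.Ops α} {β : ℕ → ℕ → ℕ}

theorem hop_succ (v : K.Tri α) (u : ℕ → ℕ) (i : ℕ) :
    hop (evT E v) u (i + 1) = hop (E (sub3 v (u 0))) (tl u) i := by
  simp only [hop, evT, tl_dnw_succ, tl_upw_succ, dnw_ne _ (show 0 ≠ i + 1 + 1 by omega),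
    upw_ne _ (show 0 ≠ i + 1 + 1 by omega), dnw_ne _ (show 0 ≠ i + 1 by omega),
    upw_ne _ (show 0 ≠ i + 1 by omega)]
  rfl

theorem hup_succ (v : K.Tri α) (u : ℕ → ℕ) (i : ℕ) :
    hup (evT E v) u (i + 1) = hup (E (sub3 v (u 0))) (tl u) i := by
  simp only [hup, evT, tl_upw_succ, upw_ne _ (show 0 ≠ i + 1 by omega)]
  rfl

theorem hdn_succ (v : K.Tri α) (u : ℕ → ℕ) (i : ℕ) :
    hdn (evT E v) u (i + 1) = hdn (E (sub3 v (u 0))) (tl u) i := by
  simp only [hdn, evT, tl_dnw_succ, dnw_ne _ (show 0 ≠ i + 1 by omega)]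
  rfl

theorem hup_zero (v : K.Tri α) (u : ℕ → ℕ) :
    hup (evT E v) u 0 = if u 0 ≤ 1 then E (sub3 v (u 0 + 1)) (tl u) else 0 := by
  simp only [hup, evT, tl_upw_zero, upw_self]

theorem hdn_zero (v : K.Tri α) (u : ℕ → ℕ) :
    hdn (evT E v) u 0 = if 1 ≤ u 0 then E (sub3 v (u 0 - 1)) (tl u) else 0 := by
  simp only [hdn, evT, tl_dnw_zero, dnw_self]

theorem hop_zero (v : K.Tri α) (u : ℕ → ℕ) : hop (evT E v) u 0 =
    (if u 0 ≤ 1 then hdn (E (sub3 v (u 0 + 1))) (tl u) 0 else 0) +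
      if 1 ≤ u 0 then hup (E (sub3 v (u 0 - 1))) (tl u) 0 else 0 := by
  simp only [hop, hdn, hup, evT, tl_dnw_succ, tl_upw_succ, tl_upw_zero, tl_dnw_zero,
    dnw_ne _ (show 0 ≠ 0 + 1 by omega), upw_ne _ (show 0 ≠ 0 + 1 by omega), upw_self, dnw_self,
    ite_and]
  rfl

theorem Spec.lift (h : Spec E n o C S β) : Spec (evT E) (n + 1) (K.lift0 o) C S β where
  add x y u hu := by
    simp only [evT]
    rcases three (hu 0) with a | a | a <;> rw [a] <;> exact h.add _ _ _ hu.tl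
  bnd x y u hu := by
    simp only [evT]
    rcases three (hu 0) with a | a | a <;> rw [a] <;> exact h.bnd _ _ _ hu.tl
  fu x y u hu := by
    rw [hdn_zero, evT, evT]
    rcases three (hu 0) with a | a | a <;> rw [a]
    · rfl
    · exact h.add _ _ _ hu.tl
    · exact h.add _ _ _ hu.tl
  fd x y u hu := by
    rw [hup_zero, evT, evT]
    rcases three (hu 0) with a | a | a <;> rw [a]
    · exact h.add _ _ _ hu.tl
    · exact h.add _ _ _ hu.tl
    · rfl
  h d v u hu := by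
    rw [sum_range_succ', hop_zero, hup_succ, hdn_succ, evT, evT, evT]
    simp only [hop_succ]
    rcases three (hu 0) with a | a | a <;> rw [a]
    · refine (h.fu _ _ _ hu.tl).trans ?_
      rw [h.h _ _ _ hu.tl]
      simp only [sub3_zero, sub3_one, zero_add, zero_le, if_true, Nat.reduceLeDiff, if_false]
      omega
    · refine (h.fd _ _ _ hu.tl).trans ?_
      rw [h.fu _ _ _ hu.tl, h.h _ _ _ hu.tl]
      simp only [sub3_zero, sub3_one, sub3_two, Nat.reduceAdd, Nat.sub_self, le_refl, if_true]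
      omega
    · refine (h.fd _ _ _ hu.tl).trans ?_
      rw [h.h _ _ _ hu.tl]
      simp only [sub3_one, sub3_two, Nat.reduceSub, Nat.reduceLeDiff, if_true, if_false]
      omega
  mask r x u hu := by
    rw [smw_succ', evT, evT, ← add_assoc]
    rcases three (hu 0) with a | a | a <;> rw [a] <;> exact h.mask _ _ _ hu.tl

theorem spec_ops {b : K.Ops K.Non} (h : Spec evN 0 b C S β) (n : ℕ) :
    Spec (ev n) n (K.ops n b) C S β := by
  induction n with
  | zero => exact h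
  | succ n ih => exact ih.lift

/-- the implicit last letter exists -/
def Vld (S m : ℕ) (u : ℕ → ℕ) : Prop := S ≤ smw u m + 2 ∧ smw u m ≤ S

instance (S m : ℕ) (u : ℕ → ℕ) : Decidable (Vld S m u) := by unfold Vld; infer_instance

theorem Spec.step (h : Spec E n o C S β) (hβ : ∀ x, β x 0 = x) (d v : K.Tri α) {u : ℕ → ℕ}
    (hu : Wd u) : evT E (K.step0 o d v) u = if Vld S (n + 3) u then
      β (β (evT E d u * evT E v u + C + ∑ i ∈ range (n + 2), hop (evT E v) u i +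
        (hup (evT E v) u (n + 2) + hdn (evT E v) u (n + 2))) (hup (evT E v) u 0))
        (hdn (evT E v) u 0) else 0 := by
  rw [← h.lift.h d v u hu, hup_zero, hdn_zero, evT, evT]
  have hv : Vld S (n + 3) u ↔ S + 5 ≤ 7 + u 0 + smw (tl u) (n + 2) ∧
      7 + u 0 + smw (tl u) (n + 2) ≤ S + 7 := by
    rw [Vld, smw_succ']; omega
  rw [if_congr hv rfl rfl]
  rcases three (hu 0) with a | a | a <;> rw [a]
  · refine (h.mask _ _ _ hu.tl).trans ?_
    rw [h.bnd _ _ _ hu.tl, if_pos (Nat.zero_le 1), if_neg (show ¬ 1 ≤ 0 by omega), hβ]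
    rfl
  · refine (h.mask _ _ _ hu.tl).trans ?_
    rw [h.bnd _ _ _ hu.tl, h.bnd _ _ _ hu.tl, if_pos (le_refl 1), if_pos (le_refl 1)]
    rfl
  · refine (h.mask _ _ _ hu.tl).trans ?_
    rw [h.bnd _ _ _ hu.tl, if_neg (show ¬ 2 ≤ 1 by omega), if_pos (show 1 ≤ 2 by omega), hβ]
    rfl

end Vale.Agent.P348
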