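import Vale.Agent.P348.TreeA

/-! The diagonal tree, the start vector and the extraction of slots. -/

namespace Vale.Agent.P348

open Finset Function

theorem wt_le (a b : ℕ) : K.wt a b ≤ 2 := by
  unfold K.wt
  cases Nat.beq a 1 <;> cases Nat.beq b 1 <;> cases Nat.beq a b <;> simp

theorem dd_eq (p f a r x y : ℕ) : K.dd p f a r x y =
    a + K.wt p x + K.wt x y + K.wt y (r - x - y) + K.wt (r - x - y) f := rfl

theorem ev_dg (n p f a r : ℕ) {u : ℕ → ℕ} (hu : Wd u) : ev n (K.dg n p f a r) u =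
    a + K.wt p (u 0) + ∑ i ∈ range (n + 1), K.wt (u i) (u (i + 1)) +
      K.wt (u (n + 1)) (r - smw u (n + 2)) + K.wt (r - smw u (n + 2)) f := by
  induction n generalizing p a r u with
  | zero =>
    have e : smw u (0 + 2) = u 0 + u 1 := by simp [smw, sum_range_succ]
    have e2 : ev 0 (K.dg 0 p f a r) u = K.dd p f a r (u 0) (u 1) := by
      show ev0 _ (u 0) (u 1) = _
      rcases three (hu 0) with a | a | a <;> rcases three (hu 1) with b | b | b <;> rw [a, b] <;> rfl
    rw [e2, dd_eq, e, Nat.sub_sub, zero_add, sum_range_one]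
  | succ n ih =>
    have e2 : ev (n + 1) (K.dg (n + 1) p f a r) u =
        ev n (K.dg n (u 0) f (a + K.wt p (u 0)) (r - u 0)) (tl u) := by
      show ev n (sub3 _ (u 0)) (tl u) = _
      rcases three (hu 0) with a | a | a <;> rw [a] <;> rfl
    rw [e2, ih _ _ _ hu.tl, sum_range_succ' _ (n + 1), smw_succ' u (n + 2), Nat.sub_sub]
    simp only [tl]
    omega

theorem ev_dgT (n S : ℕ) {u : ℕ → ℕ} (hu : Wd u) : evT (ev n) (K.dgT n S) u =
    ∑ i ∈ range (n + 2), K.wt (u i) (u (i + 1)) +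
      K.wt (u (n + 2)) (S - smw u (n + 3)) + K.wt (S - smw u (n + 3)) (u 0) := by
  have e2 : evT (ev n) (K.dgT n S) u = ev n (K.dg n (u 0) (u 0) 0 (S - u 0)) (tl u) := by
    show ev n (sub3 _ (u 0)) (tl u) = _
    rcases three (hu 0) with a | a | a <;> rw [a] <;> rfl
  rw [e2, ev_dg _ _ _ _ _ hu.tl, sum_range_succ' _ (n + 1), smw_succ' u (n + 2), Nat.sub_sub]
  simp only [tl, show n + 1 + 1 = n + 2 from rfl]
  omega

theorem ev_dgT_le (n S : ℕ) {u : ℕ → ℕ} (hu : Wd u) : evT (ev n) (K.dgT n S) u ≤ 2 * (n + 4) := by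
  have h1 := sum_le_card_nsmul (range (n + 2)) (fun i => K.wt (u i) (u (i + 1))) 2
    fun i _ => wt_le _ _
  have h2 := wt_le (u (n + 2)) (S - smw u (n + 3))
  have h3 := wt_le (S - smw u (n + 3)) (u 0)
  rw [card_range, smul_eq_mul] at h1
  rw [ev_dgT n S hu]
  omega

theorem ev_zeroT (n : ℕ) {u : ℕ → ℕ} (hu : Wd u) : ev n (K.zero n) u = 0 := by
  induction n generalizing u with
  | zero =>
    show ev0 _ (u 0) (u 1) = _
    rcases three (hu 0) with a | a | a <;> rcases three (hu 1) with b | b | b <;> rw [a, b] <;> rfl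
  | succ n ih =>
    have e2 : ev (n + 1) (K.zero (n + 1)) u = ev n (K.zero n) (tl u) := by
      show ev n (sub3 _ (u 0)) (tl u) = _
      rcases three (hu 0) with a | a | a <;> rw [a] <;> rfl
    rw [e2, ih hu.tl]

/-- the word starts with the digits of `c` -/
def Mt (m c : ℕ) (u : ℕ → ℕ) : Prop := ∀ i < m, u i = K.dig c i

instance (m c : ℕ) (u : ℕ → ℕ) : Decidable (Mt m c u) := by unfold Mt; infer_instance

theorem mt_succ (m c : ℕ) (u : ℕ → ℕ) : Mt (m + 1) c u ↔ u 0 = c % 3 ∧ Mt m (c / 3) (tl u) := by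
  rw [← dig_zero, Mt, Mt, ← tl_dig]
  constructor
  · exact fun h => ⟨h 0 (by omega), fun i hi => h (i + 1) (by omega)⟩
  · rintro ⟨h0, h⟩ i hi
    rcases i with _ | i
    · exact h0
    · exact h i (by omega)

theorem ins_zero (x : K.Non) (v : ℕ) {a b p q : ℕ} (ha : a < 3) (hb : b < 3) (hp : p < 3)
    (hq : q < 3) : ev0 (K.sel p
      (K.sel q ({ x with f0 := x.1.add v } : K.Non) { x with f1 := x.2.add v }
        { x with f2 := x.3.add v })
      (K.sel q ({ x with f3 := x.4.add v } : K.Non) { x with f4 := x.5.add v }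
        { x with f5 := x.6.add v })
      (K.sel q ({ x with f6 := x.7.add v } : K.Non) { x with f7 := x.8.add v }
        { x with f8 := x.9.add v })) a b = ev0 x a b + if a = p ∧ b = q then v else 0 := by
  rcases three ha with rfl | rfl | rfl <;> rcases three hb with rfl | rfl | rfl <;>
    rcases three hp with rfl | rfl | rfl <;> rcases three hq with rfl | rfl | rfl <;> rfl

theorem ev_ins (n : ℕ) (x : K.Tn n) (c v : ℕ) {u : ℕ → ℕ} (hu : Wd u) :
    ev n (K.ins n x c v) u = ev n x u + if Mt (n + 2) c u then v else 0 := by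
  induction n generalizing c u with
  | zero =>
    refine (ins_zero x v (hu 0) (hu 1) (Nat.mod_lt c (by decide))
      (Nat.mod_lt (c / 3) (by decide))).trans ?_
    refine congrArg (ev0 x (u 0) (u 1) + ·) (if_congr ?_ rfl rfl)
    rw [mt_succ, mt_succ]
    simp [Mt, tl]
  | succ n ih =>
    have e2 : ∀ (y : K.Tri (K.Tn n)) (p q : ℕ), p < 3 → ev n (sub3 (K.sel p
        (⟨K.ins n y.1 q v, y.2, y.3⟩ : K.Tri (K.Tn n)) ⟨y.1, K.ins n y.2 q v, y.3⟩
        ⟨y.1, y.2, K.ins n y.3 q v⟩) (u 0)) (tl u) = ev n (sub3 y (u 0)) (tl u) +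
          if u 0 = p ∧ Mt (n + 2) q (tl u) then v else 0 := by
      intro y p q hp
      rcases three (hu 0) with a | a | a <;> rw [a] <;> rcases three hp with rfl | rfl | rfl <;>
        simp only [sel_zero, sel_one, sel_two, sub3_zero, sub3_one, sub3_two, ih _ _ hu.tl,
          true_and, Nat.reduceEqDiff, false_and, if_false, add_zero, zero_ne_one, one_ne_zero]
    refine (e2 x (c % 3) (c / 3) (Nat.mod_lt c (by decide))).trans ?_
    exact congrArg (ev n (sub3 x (u 0)) (tl u) + ·) (if_congr (mt_succ _ _ _).symm rfl rfl)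

/-- packing of one value for each representative -/
def pk (w : ℕ) (F : ℕ → ℤ) : List (ℕ × ℕ) → ℕ → ℤ
  | [], _ => 0
  | r :: rs, sh => 2 ^ sh * F r.1 + pk w F rs (sh + w)

theorem pk_congr {w : ℕ} {F G : ℕ → ℤ} (rs : List (ℕ × ℕ)) (h : ∀ r ∈ rs, F r.1 = G r.1)
    (sh : ℕ) : pk w F rs sh = pk w G rs sh := by
  induction rs generalizing sh with
  | nil => rfl
  | cons r rs ih =>
    rw [pk, pk, h r (by simp), ih fun x hx => h x (List.mem_cons_of_mem _ hx)]

theorem pk_zero (w : ℕ) (rs : List (ℕ × ℕ)) (sh : ℕ) : pk w (fun _ => 0) rs sh = 0 := by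
  induction rs generalizing sh with
  | nil => rfl
  | cons r rs ih => rw [pk, ih]; simp

theorem pk_sum {ι : Type} [Fintype ι] (w : ℕ) (a : ι → ℤ) (F : ι → ℕ → ℤ) (rs : List (ℕ × ℕ))
    (sh : ℕ) : pk w (fun c => ∑ t, a t * F t c) rs sh = ∑ t, a t * pk w (F t) rs sh := by
  induction rs generalizing sh with
  | nil => simp [pk]
  | cons r rs ih =>
    simp only [pk, ih, mul_add, sum_add_distrib, mul_sum]
    refine congrArg (· + _) (sum_congr rfl fun t _ => ?_)
    ring

theorem init_nil (n w sh : ℕ) : K.init n w [] sh = K.zero n := rfl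

theorem init_cons (n w : ℕ) (r : ℕ × ℕ) (rs : List (ℕ × ℕ)) (sh : ℕ) :
    K.init n w (r :: rs) sh = K.ins n (K.init n w rs (sh + w)) r.1 (1 <<< sh) := rfl

theorem ev_init (n w : ℕ) (rs : List (ℕ × ℕ)) (sh : ℕ) {u : ℕ → ℕ} (hu : Wd u) :
    (ev n (K.init n w rs sh) u : ℤ) = pk w (fun c => if Mt (n + 2) c u then 1 else 0) rs sh := by
  induction rs generalizing sh with
  | nil => rw [init_nil, ev_zeroT n hu]; rfl
  | cons r rs ih =>
    rw [init_cons, ev_ins n _ _ _ hu, pk, ← ih, Nat.one_shiftLeft]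
    split_ifs <;> simp [add_comm]

theorem ev_init_le (n : ℕ) {w : ℕ} (hw : 1 ≤ w) (rs : List (ℕ × ℕ)) (sh : ℕ) {u : ℕ → ℕ}
    (hu : Wd u) : ev n (K.init n w rs sh) u + 2 ^ sh ≤ 2 ^ (sh + w * rs.length) := by
  induction rs generalizing sh with
  | nil => rw [init_nil, ev_zeroT n hu]; simp
  | cons r rs ih =>
    have h1 := ih (sh + w)
    have h2 : 2 ^ (sh + 1) ≤ 2 ^ (sh + w) := Nat.pow_le_pow_right (by decide) (by omega)
    rw [init_cons, ev_ins n _ _ _ hu, Nat.one_shiftLeft, List.length_cons,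
      show sh + w * (rs.length + 1) = sh + w + w * rs.length by ring]
    rw [pow_succ] at h2
    split_ifs <;> omega

/-- the packed number with shifted slots -/
def pkN (w : ℕ) (F : ℕ → ℤ) : List (ℕ × ℕ) → ℕ
  | [] => 0
  | r :: rs => (F r.1 + 2 ^ (w - 1)).toNat + 2 ^ w * pkN w F rs

theorem offs_cons (w : ℕ) (r : ℕ × ℕ) (rs : List (ℕ × ℕ)) :
    K.offs w (r :: rs) = 2 ^ (w - 1) + K.offs w rs <<< w := rfl

theorem pk_offs {w : ℕ} {F : ℕ → ℤ} (hF : ∀ c, |F c| < 2 ^ (w - 1)) (rs : List (ℕ × ℕ))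
    (sh : ℕ) : pk w F rs sh + 2 ^ sh * (K.offs w rs : ℤ) = 2 ^ sh * (pkN w F rs : ℤ) := by
  induction rs generalizing sh with
  | nil => simp [pk, pkN, K.offs]
  | cons r rs ih =>
    have h1 := ih (sh + w)
    have h2 := abs_lt.1 (hF r.1)
    rw [pk, offs_cons, pkN, Nat.shiftLeft_eq]
    push_cast
    rw [Int.toNat_of_nonneg (by omega)]
    rw [pow_add] at h1
    linear_combination h1

theorem slot_eq {w : ℕ} (hw : 1 ≤ w) {F : ℕ → ℤ} (hF : ∀ c, |F c| < 2 ^ (w - 1))
    (pre : List (ℕ × ℕ)) (r : ℕ × ℕ) (post : List (ℕ × ℕ)) {X : ℕ}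
    (h : X ≡ pkN w F (pre ++ r :: post) [MOD 2 ^ (w * (pre ++ r :: post).length)]) :
    ((X >>> (w * pre.length) % 2 ^ w : ℕ) : ℤ) = F r.1 + 2 ^ (w - 1) := by
  have hd : ∀ c, (F c + 2 ^ (w - 1)).toNat < 2 ^ w := fun c => by
    have h2 := abs_lt.1 (hF c)
    have h3 : (2 : ℤ) ^ w = 2 ^ (w - 1) * 2 := by rw [← pow_succ, Nat.sub_add_cancel hw]
    rw [Int.toNat_lt (by omega)]
    push_cast
    omega
  induction pre generalizing X with
  | nil =>
    have h2 := abs_lt.1 (hF r.1)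
    have h1 : X ≡ pkN w F (r :: post) [MOD 2 ^ w] := h.of_dvd (pow_dvd_pow _ (by
      rw [List.nil_append, List.length_cons]; exact Nat.le_mul_of_pos_right _ (by omega)))
    rw [List.length_nil, mul_zero, Nat.shiftRight_zero, h1, pkN, Nat.add_mul_mod_self_left,
      Nat.mod_eq_of_lt (hd _), Int.toNat_of_nonneg (by omega)]
  | cons q pre ih =>
    rw [List.cons_append, List.length_cons, mul_add, mul_one, add_comm, pow_add] at h
    rw [List.length_cons, mul_add, mul_one, add_comm, Nat.shiftRight_add]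
    refine ih ?_
    have h1 := congrArg (· / 2 ^ w) h
    simp only [Nat.mod_mul_right_div_self] at h1
    rw [pkN, Nat.add_mul_div_left _ _ (by positivity), Nat.div_eq_of_lt (hd _), zero_add] at h1
    rw [Nat.shiftRight_eq_div_pow]
    exact h1

theorem extr_cons (n w off : ℕ) (v : K.Tn n) (tr : ℕ → ℕ) (r : ℕ × ℕ) (rs : List (ℕ × ℕ))
    (sh : ℕ) : K.extr n w off v tr (r :: rs) sh =
      r.2 * ((K.get n v (tr r.1) + off) >>> sh % 2 ^ w) + K.extr n w off v tr rs (sh + w) := rfl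

theorem tot_cons (r : ℕ × ℕ) (rs : List (ℕ × ℕ)) : K.tot (r :: rs) = r.2 + K.tot rs := rfl

theorem extr_eq {n w : ℕ} (hw : 1 ≤ w) (v : K.Tn n) (tr : ℕ → ℕ) (rs : List (ℕ × ℕ))
    (F : ℕ → ℕ → ℤ) (hF : ∀ a c, |F a c| < 2 ^ (w - 1))
    (h : ∀ r ∈ rs, (K.get n v (tr r.1) : ℤ) ≡ pk w (F r.1) rs 0 [ZMOD 2 ^ (w * rs.length)]) :
    (K.extr n w (K.offs w rs) v tr rs 0 : ℤ) =
      (rs.map fun r => (r.2 : ℤ) * F r.1 r.1).sum + (K.tot rs : ℤ) * 2 ^ (w - 1) := by
  have key : ∀ post pre, rs = pre ++ post →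
      (K.extr n w (K.offs w rs) v tr post (w * pre.length) : ℤ) =
        (post.map fun r => (r.2 : ℤ) * F r.1 r.1).sum + (K.tot post : ℤ) * 2 ^ (w - 1) := by
    intro post
    induction post with
    | nil => intro pre _; simp [K.extr, K.tot]
    | cons r post ih =>
      intro pre e
      have h1 := ih (pre ++ [r]) (by simp [e])
      rw [List.length_append, List.length_singleton, mul_add, mul_one] at h1
      have h2 := (h r (by simp [e])).add_right (K.offs w rs : ℤ)
      have h3 := pk_offs (hF r.1) rs 0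
      rw [pow_zero, one_mul, one_mul] at h3
      rw [h3] at h2
      have h4 : K.get n v (tr r.1) + K.offs w rs ≡ pkN w (F r.1) rs [MOD 2 ^ (w * rs.length)] := by
        rw [← Int.natCast_modEq_iff]
        exact_mod_cast h2
      have h5 := slot_eq hw (hF r.1) pre r post (X := K.get n v (tr r.1) + K.offs w rs)
        (by rw [← e]; exact h4)
      rw [extr_cons, tot_cons, List.map_cons, List.sum_cons, Nat.cast_add, Nat.cast_mul, h5, h1]
      push_cast
      ring
  simpa using key rs [] rfl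

end Vale.Agent.P348
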