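import Vale.Agent.P348.TreeB

/-! One step of the tree iteration is multiplication by the integer matrix. -/

namespace Vale.Agent.P348

open Finset Function

variable {n S : ℕ} {M : ℤ} {E : (ℕ → ℕ) → ℕ} {φ : St (n + 4) → ℤ} {u : ℕ → ℕ}
  {s : St (n + 4)}

/-- the word lists the letters of the state except the last one -/
def Ag (u : ℕ → ℕ) (t : St (n + 4)) : Prop := ∀ i : Fin (n + 4), i.val < n + 3 → u i = (t i).val

theorem Ag.dsum_eq (h : Ag u s) : dsum s = smw u (n + 3) + (s (Fin.last _)).val := by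
  rw [dsum, Fin.sum_univ_castSucc, smw, sum_range]
  exact congrArg (· + _) (sum_congr rfl fun i _ => (h i.castSucc i.2).symm)

theorem Ag.vld (h : Ag u s) (hs : dsum s = S) : Vld S (n + 3) u := by
  have := h.dsum_eq
  have := (s (Fin.last _)).2
  unfold Vld
  omega

theorem ag_dec (c : ℕ) : Ag (K.dig c) (dec (n + 4) c) := fun _ _ => rfl

theorem Ag.mt_iff (h : Ag u s) {c : ℕ} (hc : dsum s = K.dsN c (n + 4)) :
    Mt (n + 3) c u ↔ s = dec (n + 4) c := by
  constructor
  · intro hm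
    have h2 : Ag u (dec (n + 4) c) := fun i hi => hm i hi
    have e1 := h.dsum_eq
    have e2 := h2.dsum_eq
    rw [dsum_dec] at e2
    funext i
    apply Fin.ext
    by_cases hi : i.val < n + 3
    · rw [← h i hi, h2 i hi]
    · obtain rfl : i = Fin.last _ := Fin.ext (by have := i.2; rw [Fin.val_last]; omega)
      omega
  · rintro rfl i hi
    exact h ⟨i, by omega⟩ hi

theorem bz_sum (σ : ℤ) (a b : Fin 3) (ψ : Fin 3 → Fin 3 → ℤ) :
    ∑ c, ∑ d, bz σ a b c d * ψ c d = (K.wt a b : ℤ) * ψ a b +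
      σ * ((if a.val ≤ 1 ∧ 1 ≤ b.val then ψ (a + 1) (b - 1) else 0) +
        if 1 ≤ a.val ∧ b.val ≤ 1 then ψ (a - 1) (b + 1) else 0) := by
  have w1 : K.wt 0 2 = 2 := rfl
  have w2 : K.wt 2 0 = 2 := rfl
  have w3 : K.wt 0 0 = 0 := rfl
  have w4 : K.wt 2 2 = 0 := rfl
  have w5 : ∀ x, K.wt 1 x = 1 := fun _ => rfl
  have w6 : K.wt 0 1 = 1 := rfl
  have w7 : K.wt 2 1 = 1 := rfl
  fin_cases a <;> fin_cases b <;> simp [Fin.sum_univ_three, bz, w1, w2, w3, w4, w5, w6, w7] <;>
    ring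

theorem val_up : ∀ a : Fin 3, a.val ≤ 1 → (a + 1).val = a.val + 1 := by decide

theorem val_dn : ∀ a : Fin 3, 1 ≤ a.val → (a - 1).val = a.val - 1 := by decide

theorem upd_val {L : ℕ} (s : St L) (j : Fin L) (c d : Fin 3) (i : Fin L) :
    (upd s j c d i).val = if i.val = (finRotate L j).val then d.val
      else if i.val = j.val then c.val else (s i).val := by
  simp only [upd, update_apply, Fin.ext_iff]
  split_ifs <;> rfl

theorem upd_self {L : ℕ} (s : St L) (j : Fin L) : upd s j (s j) (s (finRotate L j)) = s := by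
  rw [upd, update_eq_self, update_eq_self]

theorem dsum_upd (s : St (n + 4)) (j : Fin (n + 4)) {c d : Fin 3}
    (h : c.val + d.val = (s j).val + (s (finRotate _ j)).val) : dsum (upd s j c d) = dsum s := by
  obtain ⟨h1, h2, h3⟩ := (eq_upd_iff (by omega) s _ j c d).1 rfl
  have := h1.dsum_eq (rot_ne (by omega) j).symm
  rw [← h2, ← h3] at this
  omega

theorem Mz_mulVec (L : ℕ) (σ : ℤ) (φ : St L → ℤ) (s : St L) :
    ∑ t, Mz L σ s t * φ t = ∑ j, ((K.wt (s j) (s (finRotate L j)) : ℤ) * φ s + sgn L σ j *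
      ((if (s j).val ≤ 1 ∧ 1 ≤ (s (finRotate L j)).val then
          φ (upd s j (s j + 1) (s (finRotate L j) - 1)) else 0) +
        if 1 ≤ (s j).val ∧ (s (finRotate L j)).val ≤ 1 then
          φ (upd s j (s j - 1) (s (finRotate L j) + 1)) else 0)) := by
  simp only [Mz, Matrix.sum_apply, sum_mul]
  rw [sum_comm]
  refine sum_congr rfl fun j _ => ?_
  have := Bz_mulVec (R := ℤ) L σ j φ s
  simp only [Int.cast_id] at this
  rw [this, bz_sum _ _ _ fun c d => φ (upd s j c d), upd_self]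

/-- the entries represent `φ` modulo `M` in the sector -/
structure Rep (S : ℕ) (M : ℤ) (E : (ℕ → ℕ) → ℕ) (φ : St (n + 4) → ℤ) : Prop where
  inn : ∀ t u, Wd u → Ag u t → dsum t = S → (E u : ℤ) ≡ φ t [ZMOD M]
  out : ∀ u, Wd u → ¬ Vld S (n + 3) u → (E u : ℤ) ≡ 0 [ZMOD M]

theorem Rep.up (h : Rep S M E φ) (hu : Wd u) (ha : Ag u s) (hs : dsum s = S) {i : ℕ}
    (hi : i < n + 3) (t : St (n + 4))
    (ht : u i ≤ 1 → 1 ≤ (s (Fin.last _)).val → Ag (upw u i) t ∧ dsum t = S) :
    (hup E u i : ℤ) ≡ (if u i ≤ 1 ∧ 1 ≤ (s (Fin.last _)).val then φ t else 0) [ZMOD M] := by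
  unfold hup
  by_cases h1 : u i ≤ 1
  · rw [if_pos h1]
    by_cases h2 : 1 ≤ (s (Fin.last _)).val
    · rw [if_pos ⟨h1, h2⟩]
      exact h.inn _ _ (hu.upw h1) (ht h1 h2).1 (ht h1 h2).2
    · rw [if_neg fun x => h2 x.2]
      refine h.out _ (hu.upw h1) ?_
      have := ha.dsum_eq
      rw [Vld, smw_upw u hi]
      omega
  · rw [if_neg h1, if_neg fun x => h1 x.1]
    rfl

theorem Rep.dn (h : Rep S M E φ) (hu : Wd u) (ha : Ag u s) (hs : dsum s = S) {i : ℕ}
    (hi : i < n + 3) (t : St (n + 4))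
    (ht : 1 ≤ u i → (s (Fin.last _)).val ≤ 1 → Ag (dnw u i) t ∧ dsum t = S) :
    (hdn E u i : ℤ) ≡ (if 1 ≤ u i ∧ (s (Fin.last _)).val ≤ 1 then φ t else 0) [ZMOD M] := by
  unfold hdn
  by_cases h1 : 1 ≤ u i
  · rw [if_pos h1]
    by_cases h2 : (s (Fin.last _)).val ≤ 1
    · rw [if_pos ⟨h1, h2⟩]
      exact h.inn _ _ (hu.dnw i) (ht h1 h2).1 (ht h1 h2).2
    · rw [if_neg fun x => h2 x.2]
      refine h.out _ (hu.dnw i) ?_
      have := ha.dsum_eq
      have := smw_dnw u hi h1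
      rw [Vld]
      omega
  · rw [if_neg h1, if_neg fun x => h1 x.1]
    rfl

theorem Rep.hop (h : Rep S M E φ) (hu : Wd u) (ha : Ag u s) (hs : dsum s = S) (j : Fin (n + 4))
    (hj : j.val < n + 2) : (hop E u j : ℤ) ≡
      (if (s j).val ≤ 1 ∧ 1 ≤ (s (finRotate _ j)).val then
          φ (upd s j (s j + 1) (s (finRotate _ j) - 1)) else 0) +
        if 1 ≤ (s j).val ∧ (s (finRotate _ j)).val ≤ 1 then
          φ (upd s j (s j - 1) (s (finRotate _ j) + 1)) else 0 [ZMOD M] := by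
  have hr : (finRotate (n + 4) j).val = j.val + 1 :=
    coe_finRotate_of_ne_last fun e => by rw [e, Fin.val_last] at hj; omega
  have e1 := ha j (by omega)
  have e2 := ha (finRotate _ j) (by omega)
  rw [hr] at e2
  rw [P348.hop, Nat.cast_add, ← e1, ← e2]
  refine Int.ModEq.add ?_ ?_
  · split_ifs with c
    · refine h.inn _ _ ((hu.upw c.1).dnw _) (fun i hi => ?_) ?_
      · rw [upd_val, hr, val_up _ (e1 ▸ c.1), val_dn _ (e2 ▸ c.2), ← e1, ← e2, ← ha i hi]
        simp only [dnw, upw, update_apply]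
        split_ifs <;> omega
      · rw [dsum_upd _ _ (by rw [val_up _ (e1 ▸ c.1), val_dn _ (e2 ▸ c.2)]; omega), hs]
    · rfl
  · split_ifs with c
    · refine h.inn _ _ ((hu.dnw _).upw (by rw [dnw_ne _ (by omega)]; exact c.2))
        (fun i hi => ?_) ?_
      · rw [upd_val, hr, val_dn _ (e1 ▸ c.1), val_up _ (e2 ▸ c.2), ← e1, ← e2, ← ha i hi]
        simp only [dnw, upw, update_apply]
        split_ifs <;> omega
      · rw [dsum_upd _ _ (by rw [val_dn _ (e1 ▸ c.1), val_up _ (e2 ▸ c.2)]; omega), hs]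
    · rfl

theorem Rep.mul (h : Rep S M E φ) (σ : ℤ) (hu : Wd u) (ha : Ag u s) (hs : dsum s = S) :
    ((evT (ev n) (K.dgT n S) u * E u + ∑ i ∈ range (n + 2), P348.hop E u i +
      (hup E u (n + 2) + hdn E u (n + 2)) : ℕ) : ℤ) + σ * (hup E u 0 + hdn E u 0) ≡
      ∑ t, Mz (n + 4) σ s t * φ t [ZMOD M] := by
  have h0 := h.inn s u hu ha hs
  have hz : S - smw u (n + 3) = (s (Fin.last _)).val := by have := ha.dsum_eq; omega
  rw [Mz_mulVec, Fin.sum_univ_castSucc, Fin.sum_univ_castSucc, ev_dgT n S hu, hz]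
  have key : ∀ a1 a2 a3 b1 b2 b3 x : ℤ, (a1 + a2 + a3) * x + b1 + b2 + b3 =
      a1 * x + b1 + (a2 * x + b2) + (a3 * x + b3) := by intros; ring
  push_cast
  rw [key, sum_mul, ← sum_add_distrib, sum_range]
  refine Int.ModEq.add (Int.ModEq.add (Int.ModEq.sum fun i _ => ?_) ?_) ?_
  · have hr : (finRotate (n + 4) i.castSucc.castSucc).val = i.val + 1 :=
      coe_finRotate_of_ne_last (Fin.castSucc_lt_last _).ne
    have e1 := ha i.castSucc.castSucc (by have := i.2; simp only [Fin.val_castSucc]; omega)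
    have e2 := ha (finRotate _ i.castSucc.castSucc) (by have := i.2; omega)
    rw [hr] at e2
    rw [sgn, if_neg (by omega), one_mul, ← e1, ← e2]
    have := h.hop hu ha hs i.castSucc.castSucc i.2
    rw [← e1, ← e2] at this
    exact (h0.mul_left _).add this
  · have hr : finRotate (n + 4) (Fin.last (n + 2)).castSucc = Fin.last _ :=
      Fin.ext (coe_finRotate_of_ne_last (Fin.castSucc_lt_last _).ne)
    have e1 : u (n + 2) = _ := ha (Fin.last (n + 2)).castSucc (by simp)
    rw [sgn, if_neg (by rw [hr, Fin.val_last]; omega), one_mul]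
    have a1 := h.up hu ha hs (i := n + 2) (by omega) (upd s (Fin.last (n + 2)).castSucc
      (s (Fin.last (n + 2)).castSucc + 1) (s (finRotate _ (Fin.last (n + 2)).castSucc) - 1))
      fun c1 c2 => ⟨fun i hi => by
        rw [upd_val, hr, val_up _ (e1 ▸ c1), ← e1, ← ha i hi, if_neg (by rw [Fin.val_last]; omega)]
        simp only [upw, update_apply, Fin.val_castSucc, Fin.val_last], by
        rw [dsum_upd _ _ (by rw [hr, val_up _ (e1 ▸ c1), val_dn _ c2]; omega), hs]⟩
    have a2 := h.dn hu ha hs (i := n + 2) (by omega) (upd s (Fin.last (n + 2)).castSucc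
      (s (Fin.last (n + 2)).castSucc - 1) (s (finRotate _ (Fin.last (n + 2)).castSucc) + 1))
      fun c1 c2 => ⟨fun i hi => by
        rw [upd_val, hr, val_dn _ (e1 ▸ c1), ← e1, ← ha i hi, if_neg (by rw [Fin.val_last]; omega)]
        simp only [dnw, update_apply, Fin.val_castSucc, Fin.val_last], by
        rw [dsum_upd _ _ (by rw [hr, val_dn _ (e1 ▸ c1), val_up _ c2]; omega), hs]⟩
    rw [hr] at a1 a2 ⊢
    rw [← e1]
    exact (h0.mul_left _).add (a1.add a2)
  · have hr : finRotate (n + 4) (Fin.last (n + 3)) = 0 := finRotate_last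
    have e1 : u 0 = _ := ha 0 (by simp)
    rw [sgn, if_pos (by rw [hr]; rfl)]
    have a1 := h.up hu ha hs (i := 0) (by omega) (upd s (Fin.last (n + 3))
      (s (Fin.last (n + 3)) - 1) (s (finRotate _ (Fin.last (n + 3))) + 1))
      fun c1 c2 => ⟨fun i hi => by
        rw [upd_val, hr, val_up _ (e1 ▸ c1), ← e1, ← ha i hi,
          if_neg (show ¬ i.val = (Fin.last (n + 3)).val by rw [Fin.val_last]; omega)]
        simp only [upw, update_apply, Fin.val_zero]
        exact if_congr Iff.rfl rfl rfl, by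
        rw [dsum_upd _ _ (by rw [hr, val_up _ (e1 ▸ c1), val_dn _ c2]; omega), hs]⟩
    have a2 := h.dn hu ha hs (i := 0) (by omega) (upd s (Fin.last (n + 3))
      (s (Fin.last (n + 3)) + 1) (s (finRotate _ (Fin.last (n + 3))) - 1))
      fun c1 c2 => ⟨fun i hi => by
        rw [upd_val, hr, val_dn _ (e1 ▸ c1), ← e1, ← ha i hi,
          if_neg (show ¬ i.val = (Fin.last (n + 3)).val by rw [Fin.val_last]; omega)]
        simp only [dnw, update_apply, Fin.val_zero]
        exact if_congr Iff.rfl rfl rfl, by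
        rw [dsum_upd _ _ (by rw [hr, val_dn _ (e1 ▸ c1), val_up _ c2]; omega), hs]⟩
    rw [hr] at a1 a2 ⊢
    rw [← e1, add_comm (hup E u 0 : ℤ)]
    rw [if_congr and_comm rfl rfl] at a1 a2
    exact (h0.mul_left _).add ((a2.add a1).mul_left _)

end Vale.Agent.P348
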